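import Crest.Agent.R304.Close

/-!
# R304/CaseA2: `l₁` odd, `l₂` even (TASK)

`l = l₁ ++ l₂` is odd.  `U` has `Pin l₁`, `b c`, `Qin l₂`, `d q` (`q = U d`); `W` has `p a`, `Qin l₁`, `Pin l₂`; `p, q ∉ l`.
States `S₀ = U`, `S₁ = toQ l₁ U` (edge `a c`), `S₂ = sw a d S₁` (edges `a q`, `c d`), `S₃ = toP l₂.dropLast S₂ = toQ l U` (`toQ_eq`, `flip_pin`, `flip_other`).  Take `J = {0, 3, 4}`; `W₁ = toP l₁ W`.
`eps = val l - val l₁ + val l₂ = -(φ S₀ - φ S₃ - val l) + (φ S₀ - φ S₁ - val l₁) - (φ S₃ - φ S₂ - val l₂) - (φ S₂ - φ S₁)`: the first two by `err_P` at `(W, U)` (mode `none`),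
the third by `err_Q` at `(S₂, W₁)` (mode `some d`; `close_QS`, `close_PS`), the last by `err_sw` at `(S₁, W₁)`.
Weights: `exch_le` for `(S₁, W₁)`; for `(S₂, W₁)` multiply `pr_exch` and `pr_sw` (the factor `λ a c` cancels): `p a, b c, d q` are replaced by `p b, c d, a q` (`Ult.three`).
-/

set_option autoImplicit false

namespace Crest.Agent.R304

open Finset Crest.Agent.R309

variable {V : Type} [Fintype V] [DecidableEq V] [Inhabited V] {s ρ : V → V → ℝ} {β : ℝ}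
  {U W : PM V} {l l₁ l₂ : List V}

theorem ctl_odd_even (h : Ult s ρ β) (φ : PM V → ℝ) (hs : Split ρ U W l₁ l₂)
    (h₁ : Odd l₁.length) (h₂ : Even l₂.length) : Ctl (pr s) ρ β φ U W l₁ l₂ := by
  have hw : Wt s := h.toWt
  have hg := hs.good
  have hn := hg.nd
  have hn1 : l₁.Nodup := hn.of_append_left
  have hn2 : l₂.Nodup := hn.of_append_right
  have hdis : ∀ v ∈ l₁, v ∉ l₂ := fun v hv hv' => List.disjoint_of_nodup_append hn hv hv'
  have ho : Odd (l₁ ++ l₂).length := by rw [List.length_append]; exact h₁.add_even h₂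
  have hl2 : 2 ≤ l₂.length := by
    have := List.length_pos_iff.2 hs.ne₂
    obtain ⟨r, hr⟩ := h₂
    omega
  obtain ⟨hU1, hbc, hU2⟩ := (pin_append_odd h₁ hs.ne₂).1 hg.pin
  obtain ⟨hW1, hW2⟩ := (qin_append_odd h₁).1 hg.qin
  have ehd : hd (l₁ ++ l₂) = hd l₁ := hd_append hs.ne₁
  have elst : lst (l₁ ++ l₂) = lst l₂ := lst_append hs.ne₂
  have hp := qin_hd_notMem hn hg.qin ho
  have hq := pin_lst_notMem hn hg.pin ho
  have hleft := hg.left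
  have hright := hg.right
  rw [if_pos ho] at hright
  rw [ehd] at hp hleft
  rw [elst] at hq hright
  have ha1 : hd l₁ ∈ l₁ := hd_mem hs.ne₁
  have hb1 : lst l₁ ∈ l₁ := lst_mem hs.ne₁
  have hc2 : hd l₂ ∈ l₂ := hd_mem hs.ne₂
  have hd2 : lst l₂ ∈ l₂ := lst_mem hs.ne₂
  have ha := List.mem_append_left l₂ ha1
  have hb := List.mem_append_left l₂ hb1
  have hc := List.mem_append_right l₁ hc2
  have hdd := List.mem_append_right l₁ hd2
  have hcd : hd l₂ ≠ lst l₂ := hd_ne_lst hn2 hl2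
  have had : hd l₁ ≠ lst l₂ := fun e => hdis _ ha1 (e ▸ hd2)
  set S₁ := toQ l₁ U with hS₁
  set W₁ := toP l₁ W with hW₁
  set S₂ := sw (hd l₁) (lst l₂) S₁ with hS₂
  have s1a : S₁.f (hd l₁) = hd l₂ := (toQ_hd hn1 h₁ hU1).trans hbc
  have s1o : ∀ v, v ∉ l₁ → v ≠ hd l₂ → S₁.f v = U.f v := fun v h1 h2 =>
    toQ_other hn1 h₁ hU1 h1 (by rwa [hbc])
  have s1d : S₁.f (lst l₂) = U.f (lst l₂) := s1o _ (fun e => hdis _ e hd2) hcd.symm
  have s1ad : S₁.f (hd l₁) ≠ lst l₂ := by rwa [s1a]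
  have s2a : S₂.f (hd l₁) = U.f (lst l₂) := (sw_left _ _ had s1ad).trans s1d
  have s2d : S₂.f (lst l₂) = hd l₂ := (sw_right _ _ had s1ad).trans s1a
  have s2c : S₂.f (hd l₂) = lst l₂ := S₂.eq_iff.1 s2d
  have s2o : ∀ v, v ≠ hd l₁ → v ≠ lst l₂ → v ≠ hd l₂ → v ≠ U.f (lst l₂) → S₂.f v = S₁.f v :=
    fun v h1 h2 h3 h4 => sw_other h1 h2 (by rwa [s1a]) (by rwa [s1d])
  have qS1l1 : Qin S₁ l₁ := toQ_qin hn1 h₁ hU1
  have qS1l2 : Qin S₁ l₂ := qin_congr_even hn2 hU2 fun v hv h1 _ =>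
    s1o v (fun e => hdis _ e hv) h1
  have pW1l1 : Pin W₁ l₁ := toP_pin hn1 h₁ hW1
  have pW1l2 : Pin W₁ l₂ := pin_congr_even hW2 fun v hv =>
    toP_other hn1 h₁ hW1 (fun e => hdis _ e hv) fun e => hp (e ▸ List.mem_append_right l₁ hv)
  have qS2l1 : Qin S₂ l₁ := qin_congr_odd hn1 qS1l1 fun v hv h1 =>
    s2o v h1 (fun e => hdis _ hv (e ▸ hd2)) (fun e => hdis _ hv (e ▸ hc2))
      fun e => hq (e ▸ List.mem_append_left l₂ hv)
  have qS2l2 : Qin S₂ l₂ := qin_congr_even hn2 qS1l2 fun v hv h1 h2 =>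
    s2o v (fun e => hdis _ ha1 (e ▸ hv)) h2 h1 fun e => hq (e ▸ List.mem_append_right l₁ hv)
  have s3o : ∀ v, v ∉ l₂ → (toP l₂.dropLast S₂).f v = S₂.f v := fun v hv =>
    flip_other hn2 h₂ hs.ne₂ qS2l2 s2c hv
  have e3 : toQ (l₁ ++ l₂) U = toP l₂.dropLast S₂ := by
    refine toQ_eq hn ho hg.pin ((qin_append_odd h₁).2 ⟨?_, flip_pin hn2 h₂ hs.ne₂ qS2l2 s2c⟩) ?_ ?_
    · exact qin_congr_odd hn1 qS2l1 fun v hv _ => s3o v (hdis v hv)
    · rw [ehd, elst, s3o _ (hdis _ ha1), s2a]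
    · intro v hv hv'
      rw [elst] at hv'
      have hvc : v ≠ hd l₂ := fun e => hv (e ▸ hc)
      rw [s3o v fun e => hv (List.mem_append_right _ e),
        s2o v (fun e => hv (e ▸ ha)) (fun e => hv (e ▸ hdd)) hvc hv',
        s1o v (fun e => hv (List.mem_append_left _ e)) hvc]
  have QSl : QS ρ (l₁ ++ l₂) none W := ⟨hg.qin, by
    simp only [Option.elim, ehd, elst]; exact hleft _ ha _ hdd⟩
  have PSl : PS ρ (l₁ ++ l₂) none U := ⟨hg.pin, by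
    simp only [Option.elim, ehd, elst]; exact hright _ ha _ hdd⟩
  have QS1 : QS ρ l₁ none W := ⟨hW1, hleft _ ha _ hb⟩
  have PS1 : PS ρ l₁ none U := ⟨hU1, by
    simp only [Option.elim, hbc]; exact hs.le _ ha _ hb⟩
  have E1 := err_P (φ := φ) hw (z := (W, U)) hn ho QSl PSl
  have E2 := err_P (φ := φ) hw (z := (W, U)) hn1 h₁ QS1 PS1
  have E3 := err_Q (φ := φ) hw (z := (S₂, W₁)) (hn2.sublist (List.dropLast_sublist l₂))
    (odd_dropLast h₂ hs.ne₂) (close_QS (ρ := ρ) hn2 h₂ hs.ne₂ qS2l2 s2c)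
    (close_PS h₂ hs.ne₂ pW1l2)
  have hβ := h.one_le
  have hβ3 : (1 : ℝ) ≤ β ^ 3 := one_le_pow₀ hβ
  have pW := hw.pr_pos W
  have pU := hw.pr_pos U
  have pS1 := hw.pr_pos S₁
  have pS2 := hw.pr_pos S₂
  have pW1 := hw.pr_pos W₁
  have w3 : pr s W * pr s U ≤ β ^ 3 * (pr s S₁ * pr s W₁) := by
    refine (exch_le h hn1 h₁ QS1 PS1).trans ?_
    rw [mul_comm (pr s S₁)]
    exact mul_le_mul_of_nonneg_right (pow_le_pow_right₀ hβ (by norm_num)) (by positivity)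
  have w4 : pr s W * pr s U ≤ β ^ 3 * (pr s S₂ * pr s W₁) := by
    have x1 := pr_exch hw hn1 h₁ hU1 hW1
    have x2 := pr_sw (W := S₁) hw _ _ had s1ad
    rw [hbc, ← hS₁, ← hW₁] at x1
    rw [s1a, s1d, ← hS₂] at x2
    have x3 : 0 < s (hd l₁) (hd l₂) ^ 2 := pow_pos (hw.pos _ _) 2
    refine h.three (u₁ := hd l₁) (v₁ := W.f (hd l₁)) (u₂ := lst l₁) (v₂ := hd l₂)
      (u₃ := lst l₂) (v₃ := U.f (lst l₂)) (a₁ := lst l₁) (b₁ := W.f (hd l₁)) (a₂ := lst l₂)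
      (b₂ := hd l₂) (a₃ := hd l₁) (b₃ := U.f (lst l₂)) (by positivity) ?_ (W.ne _).symm
      (fun e => hdis _ hb1 (e ▸ hc2)) (U.ne _).symm (fun e => hp (e ▸ hb)) hcd.symm
      (fun e => hq (e ▸ ha)) (h.le_of_le (hleft _ ha _ hb)) (hs.le _ hdd _ hc)
      (h.le_of_le (hright _ hdd _ ha))
    refine mul_left_cancel₀ x3.ne' ?_
    linear_combination (pr s W₁ * (s (hd l₁) (W.f (hd l₁)) ^ 2 * s (lst l₁) (hd l₂) ^ 2)) * x2 +
      (s (lst l₂) (hd l₂) ^ 2 * s (hd l₁) (U.f (lst l₂)) ^ 2) * x1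
  have hβ0 : 0 < β ^ 3 := by positivity
  have E4 := err_sw (ρ := ρ) (φ := φ) hw (hd l₁) (lst l₂) (S₁, W₁) (c := pr s W * pr s U / β ^ 3)
    (by rw [div_le_iff₀' hβ0]; exact w3) (by rw [div_le_iff₀' hβ0]; exact w4)
  rw [div_mul_eq_mul_div, div_le_iff₀' hβ0] at E4
  refine ⟨{0, 3, 4}, ?_, ?_⟩
  · intro j hj
    simp only [Finset.mem_insert, Finset.mem_singleton] at hj
    rcases hj with rfl | rfl | rfl
    · exact ⟨Or.inr ⟨hU1, hW1⟩, Or.inl ⟨hW2, hU2⟩⟩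
    · exact ⟨Or.inr ⟨pW1l1, qS1l1⟩, Or.inr ⟨pW1l2, qS1l2⟩⟩
    · exact ⟨Or.inr ⟨pW1l1, qS2l1⟩, Or.inr ⟨pW1l2, qS2l2⟩⟩
  · rw [Finset.sum_insert (by decide), Finset.sum_insert (by decide), Finset.sum_singleton]
    change _ ≤ 16 * β ^ 3 * (pr s W * pr s U * err (pr s) ρ φ (W, U) +
      (pr s S₁ * pr s W₁ * err (pr s) ρ φ (S₁, W₁) + pr s S₂ * pr s W₁ * err (pr s) ρ φ (S₂, W₁)))
    have n0 := err_nonneg (ρ := ρ) (φ := φ) hw (W, U)
    have n3 := err_nonneg (ρ := ρ) (φ := φ) hw (S₁, W₁)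
    have n4 := err_nonneg (ρ := ρ) (φ := φ) hw (S₂, W₁)
    have ee : eps (pr s) ρ φ l₁ l₂ = Gam (pr s) ρ φ (l₁ ++ l₂) none - Gam (pr s) ρ φ l₁ none +
        Gam (pr s) ρ φ l₂.dropLast (some (lst l₂)) := by
      rw [eps, val, val, val, if_pos ho, if_pos h₁, if_neg (Nat.not_odd_iff_even.2 h₂),
        h₁.neg_one_pow]
      ring
    simp only [e3, ← hS₁, ← hS₂] at E1 E2 E3 E4
    rw [ee]
    generalize err (pr s) ρ φ (W, U) = r0 at *
    generalize err (pr s) ρ φ (S₁, W₁) = r3 at *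
    generalize err (pr s) ρ φ (S₂, W₁) = r4 at *
    set A := φ U - φ (toP l₂.dropLast S₂) - Gam (pr s) ρ φ (l₁ ++ l₂) none with hA
    set B := φ U - φ S₁ - Gam (pr s) ρ φ l₁ none with hB
    set C := φ (toP l₂.dropLast S₂) - φ S₂ - Gam (pr s) ρ φ l₂.dropLast (some (lst l₂)) with hC
    set D := φ S₂ - φ S₁ with hD
    have e4 : Gam (pr s) ρ φ (l₁ ++ l₂) none - Gam (pr s) ρ φ l₁ none +
        Gam (pr s) ρ φ l₂.dropLast (some (lst l₂)) = -A + B - C - D := by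
      rw [hA, hB, hC, hD]; ring
    rw [e4, mul_comm (pr s U)]
    have hx : 0 < pr s W * pr s U := by positivity
    have hy3 : 0 < pr s S₁ * pr s W₁ := by positivity
    have hy4 : 0 < pr s S₂ * pr s W₁ := by positivity
    generalize pr s W * pr s U = x at *
    generalize pr s S₁ * pr s W₁ = y3 at *
    generalize pr s S₂ * pr s W₁ = y4 at *
    generalize β ^ 3 = b at *
    have t1 : (-A + B - C - D) ^ 2 ≤ 4 * (A ^ 2 + B ^ 2 + C ^ 2 + D ^ 2) := by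
      nlinarith [sq_nonneg (A + B), sq_nonneg (A - C), sq_nonneg (A - D), sq_nonneg (B + C),
        sq_nonneg (B + D), sq_nonneg (C - D)]
    have t2 : x * A ^ 2 ≤ x * r0 := mul_le_mul_of_nonneg_left E1 hx.le
    have t3 : x * B ^ 2 ≤ x * r0 := mul_le_mul_of_nonneg_left E2 hx.le
    have t4 : x * C ^ 2 ≤ b * y4 * r4 := mul_le_mul w4 E3 (sq_nonneg _) (by positivity)
    have t5 : x * r0 ≤ b * (x * r0) := le_mul_of_one_le_left (by positivity) hβ3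
    have t6 := mul_le_mul_of_nonneg_left t1 hx.le
    have t7 : 0 ≤ b * (x * r0) := by positivity
    have t8 : 0 ≤ b * (y3 * r3) := by positivity
    have t9 : 0 ≤ b * y4 * r4 := by positivity
    linarith

end Crest.Agent.R304
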