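import Crest.Agent.R304.Close

/-!
# R304/CaseB1: `l₁` and `l₂` even (TASK)

`l = l₁ ++ l₂` is even.  `U` has `Pin l₁`, `Pin l₂`; `S₀ = W° = sw p d W` has `a d`, `b c`, `Qin l₁`, `Qin l₂` (`close_hd`, `close_qin`).
`S₁ = sw b d S₀` (edges `a b`, `c d`), `S₂ = toP l₁.dropLast S₁`, `S₃ = toP l₂.dropLast S₂ = toP l.dropLast S₀` (`flip_eq`).  Take `J = {5, 6, 7}`; `U₂ = toQ l₁.dropLast U`.
`eps = -(φ S₃ - φ S₀ - val l) + (φ S₁ - φ S₀) + (φ S₂ - φ S₁ - val l₁) + (φ S₃ - φ S₂ - val l₂)`: `err_Q` and `err_sw` at `(S₀, U)`, `err_Q` at `(S₁, U)`, `err_Q` at `(S₂, U₂)` (modes `some`; `close_QS`, `close_PS`).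
Weights: `close_pr'` for `S₀`; for `S₁`: `pr S₁ λ(b c) λ(d a) = pr S₀ λ(d c) λ(b a)` (`pr_sw`), `close_pr` with `(u, v) = (c, d)`, and `ρ a b ≤ ρ b c` give `pr W ≤ β³ pr S₁`; `flip_pr` for `(S₂, U₂)`.
-/

set_option autoImplicit false

namespace Crest.Agent.R304

open Finset Crest.Agent.R309

variable {V : Type} [Fintype V] [DecidableEq V] [Inhabited V] {s ρ : V → V → ℝ} {β : ℝ}
  {U W : PM V} {l l₁ l₂ : List V}

private theorem cb1_weight {pW p0 p1 β lad lbc lcd lab rcd rbc rab : ℝ} (hβ : 1 ≤ β)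
    (hW : 0 < pW) (h1 : 0 < p1) (had : 0 < lad) (_hbc : 0 < lbc) (hcd : 0 < lcd) (hab : 0 < lab)
    (hrbc : 0 < rbc)
    (e : p1 * (lbc * lad) = p0 * (lcd * lab)) (c : pW * (lad * rcd) ≤ β * p0)
    (i1 : 1 ≤ β * (lcd * rcd)) (i2 : lbc * rbc ≤ 1) (i3 : 1 ≤ β * (lab * rab)) (i4 : rab ≤ rbc) :
    pW ≤ β ^ 3 * p1 := by
  have hβ0 : 0 < β := by linarith
  have s1 : pW * (rcd * lcd * lab) ≤ β * p1 * lbc := by
    have : lad * (pW * (rcd * lcd * lab)) ≤ lad * (β * p1 * lbc) := by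
      calc lad * (pW * (rcd * lcd * lab)) = pW * (lad * rcd) * (lcd * lab) := by ring
        _ ≤ β * p0 * (lcd * lab) := mul_le_mul_of_nonneg_right c (by positivity)
        _ = β * (p0 * (lcd * lab)) := by ring
        _ = β * (p1 * (lbc * lad)) := by rw [e]
        _ = lad * (β * p1 * lbc) := by ring
    exact le_of_mul_le_mul_left this had
  have s2 : pW * lab ≤ β ^ 2 * p1 * lbc := by
    calc pW * lab = pW * lab * 1 := by ring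
      _ ≤ pW * lab * (β * (lcd * rcd)) := mul_le_mul_of_nonneg_left i1 (by positivity)
      _ = β * (pW * (rcd * lcd * lab)) := by ring
      _ ≤ β * (β * p1 * lbc) := mul_le_mul_of_nonneg_left s1 hβ0.le
      _ = β ^ 2 * p1 * lbc := by ring
  calc pW = pW * 1 := by ring
    _ ≤ pW * (β * (lab * rab)) := mul_le_mul_of_nonneg_left i3 hW.le
    _ ≤ pW * (β * (lab * rbc)) := by gcongr
    _ = β * rbc * (pW * lab) := by ring
    _ ≤ β * rbc * (β ^ 2 * p1 * lbc) := mul_le_mul_of_nonneg_left s2 (by positivity)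
    _ = β ^ 3 * p1 * (lbc * rbc) := by ring
    _ ≤ β ^ 3 * p1 * 1 := mul_le_mul_of_nonneg_left i2 (by positivity)
    _ = β ^ 3 * p1 := by ring

private theorem cb1_final {w k A B C D E₅ E₆ E₇ : ℝ} (hw : 0 ≤ w) (hk : 0 ≤ k) (h5 : 0 ≤ E₅)
    (h6 : 0 ≤ E₆) (h7 : 0 ≤ E₇) (hA : w * A ^ 2 ≤ k * E₅) (hB : w * B ^ 2 ≤ k * E₅)
    (hC : w * C ^ 2 ≤ k * E₆) (hD : w * D ^ 2 ≤ k * E₇) :
    w * (-A + B + C + D) ^ 2 ≤ 16 * k * (E₅ + (E₆ + E₇)) := by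
  have h1 : (-A + B + C + D) ^ 2 ≤ 4 * (A ^ 2 + B ^ 2 + C ^ 2 + D ^ 2) := by
    nlinarith [sq_nonneg (A + B), sq_nonneg (A + C), sq_nonneg (A + D), sq_nonneg (B - C),
      sq_nonneg (B - D), sq_nonneg (C - D)]
  have h2 := mul_le_mul_of_nonneg_left h1 hw
  have k5 := mul_nonneg hk h5
  have k6 := mul_nonneg hk h6
  have k7 := mul_nonneg hk h7
  nlinarith

theorem ctl_even_even (h : Ult s ρ β) (φ : PM V → ℝ) (hs : Split ρ U W l₁ l₂)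
    (h₁ : Even l₁.length) (h₂ : Even l₂.length) : Ctl (pr s) ρ β φ U W l₁ l₂ := by
  have hw : Wt s := h.toWt
  have hg := hs.good
  have hn := hg.nd
  have n1 := hs.ne₁
  have n2 := hs.ne₂
  have h0 : l₁ ++ l₂ ≠ [] := hg.ne
  have he : Even (l₁ ++ l₂).length := by
    rw [List.length_append]; exact h₁.add h₂
  obtain ⟨hn1, hn2, hdis⟩ := List.nodup_append.1 hn
  have L1 : 2 ≤ l₁.length := by
    have := List.length_pos_iff.2 n1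
    obtain ⟨k, hk⟩ := h₁
    omega
  have L2 : 2 ≤ l₂.length := by
    have := List.length_pos_iff.2 n2
    obtain ⟨k, hk⟩ := h₂
    omega
  have ea : hd (l₁ ++ l₂) = hd l₁ := hd_append n1
  have ed : lst (l₁ ++ l₂) = lst l₂ := lst_append n2
  have ma : hd l₁ ∈ l₁ := hd_mem n1
  have mb : lst l₁ ∈ l₁ := lst_mem n1
  have mc : hd l₂ ∈ l₂ := hd_mem n2
  have md : lst l₂ ∈ l₂ := lst_mem n2
  have nab : hd l₁ ≠ lst l₁ := hd_ne_lst hn1 L1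
  have ncd : hd l₂ ≠ lst l₂ := hd_ne_lst hn2 L2
  have nbd : lst l₁ ≠ lst l₂ := hdis _ mb _ md
  have nbc : lst l₁ ≠ hd l₂ := hdis _ mb _ mc
  have d12 : ∀ v ∈ l₁, v ∉ l₂ := fun v hv hv' => hdis v hv v hv' rfl
  have d21 : ∀ v ∈ l₂, v ∉ l₁ := fun v hv hv' => hdis v hv' v hv rfl
  obtain ⟨pU1, pU2⟩ := (pin_append_even h₁).1 hg.pin
  -- the closed matching
  obtain ⟨S₀, hS₀⟩ : ∃ S₀, S₀ = sw (W.f (hd l₁)) (lst l₂) W := ⟨_, rfl⟩
  have hS₀' : S₀ = sw (W.f (hd (l₁ ++ l₂))) (lst (l₁ ++ l₂)) W := by rw [ea, ed, hS₀]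
  have c0 : S₀.f (hd (l₁ ++ l₂)) = lst (l₁ ++ l₂) := hS₀' ▸ close_hd hn he h0
  have q0 : Qin S₀ (l₁ ++ l₂) := hS₀' ▸ close_qin hn he hg.qin
  obtain ⟨q01, s0b, q02⟩ := (qin_append_even h₁ n1 n2).1 q0
  have s0a : S₀.f (hd l₁) = lst l₂ := by rw [← ea, c0, ed]
  have s0d : S₀.f (lst l₂) = hd l₁ := S₀.eq_iff.1 s0a
  -- the switch
  obtain ⟨S₁, hS₁⟩ : ∃ S₁, S₁ = sw (lst l₁) (lst l₂) S₀ := ⟨_, rfl⟩
  have nS : S₀.f (lst l₁) ≠ lst l₂ := by rw [s0b]; exact ncd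
  have s1b : S₁.f (lst l₁) = hd l₁ := by rw [hS₁, sw_left _ _ nbd nS, s0d]
  have s1d : S₁.f (lst l₂) = hd l₂ := by rw [hS₁, sw_right _ _ nbd nS, s0b]
  have s1a : S₁.f (hd l₁) = lst l₁ := S₁.eq_iff.1 s1b
  have s1c : S₁.f (hd l₂) = lst l₂ := S₁.eq_iff.1 s1d
  have s1o : ∀ v, v ≠ hd l₁ → v ≠ lst l₁ → v ≠ hd l₂ → v ≠ lst l₂ → S₁.f v = S₀.f v := by
    intro v v1 v2 v3 v4
    rw [hS₁]
    exact sw_other v2 v4 (by rw [s0b]; exact v3) (by rw [s0d]; exact v1)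
  have q11 : Qin S₁ l₁ := qin_congr_even hn1 q01 fun v hv v1 v2 =>
    s1o v v1 v2 (hdis _ hv _ mc) (hdis _ hv _ md)
  have q12 : Qin S₁ l₂ := qin_congr_even hn2 q02 fun v hv v1 v2 =>
    s1o v (hdis _ ma _ hv).symm (hdis _ mb _ hv).symm v1 v2
  -- first flip
  obtain ⟨S₂, hS₂⟩ : ∃ S₂, S₂ = toP l₁.dropLast S₁ := ⟨_, rfl⟩
  have p21 : Pin S₂ l₁ := hS₂ ▸ flip_pin hn1 h₁ n1 q11 s1a
  have s2o : ∀ v, v ∉ l₁ → S₂.f v = S₁.f v := fun v hv => hS₂ ▸ flip_other hn1 h₁ n1 q11 s1a hv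
  have q22 : Qin S₂ l₂ := qin_congr_even hn2 q12 fun v hv _ _ => s2o v (d21 v hv)
  have s2c : S₂.f (hd l₂) = lst l₂ := by rw [s2o _ (d21 _ mc), s1c]
  -- second flip
  obtain ⟨S₃, hS₃⟩ : ∃ S₃, S₃ = toP l₂.dropLast S₂ := ⟨_, rfl⟩
  have p32 : Pin S₃ l₂ := hS₃ ▸ flip_pin hn2 h₂ n2 q22 s2c
  have s3o : ∀ v, v ∉ l₂ → S₃.f v = S₂.f v := fun v hv => hS₃ ▸ flip_other hn2 h₂ n2 q22 s2c hv
  have p31 : Pin S₃ l₁ := pin_congr_even p21 fun v hv => s3o v (d12 v hv)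
  have e3 : toP (l₁ ++ l₂).dropLast S₀ = S₃ := by
    refine flip_eq hn he h0 q0 c0 ((pin_append_even h₁).2 ⟨p31, p32⟩) fun v hv => ?_
    have v1 : v ∉ l₁ := fun h' => hv (List.mem_append_left _ h')
    have v2 : v ∉ l₂ := fun h' => hv (List.mem_append_right _ h')
    rw [s3o v v2, s2o v v1]
    exact s1o v (fun e => v1 (e ▸ ma)) (fun e => v1 (e ▸ mb)) (fun e => v2 (e ▸ mc))
      (fun e => v2 (e ▸ md))
  obtain ⟨U₂, hU₂⟩ : ∃ U₂, U₂ = toQ l₁.dropLast U := ⟨_, rfl⟩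
  have qU : Qin U₂ l₁ := hU₂ ▸ (unflip_qin hn1 h₁ n1 pU1).1
  have pU22 : Pin U₂ l₂ := pin_congr_even pU2 fun v hv =>
    hU₂ ▸ unflip_other hn1 h₁ n1 pU1 (d21 v hv)
  have T5 : Tr l₁ l₂ (W.f (hd l₁)) 5 (W, U) = (S₀, U) := by rw [hS₀]; rfl
  have T6 : Tr l₁ l₂ (W.f (hd l₁)) 6 (W, U) = (S₁, U) := by rw [hS₁, hS₀]; rfl
  have T7 : Tr l₁ l₂ (W.f (hd l₁)) 7 (W, U) = (S₂, U₂) := by rw [hS₂, hU₂, hS₁, hS₀]; rfl
  -- weights
  have hβ := h.one_le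
  have hβ0 : 0 < β := by linarith
  have hβ3 : 0 < β ^ 3 := by positivity
  have PW := hw.pr_pos W
  have PU := hw.pr_pos U
  have P0 := hw.pr_pos S₀
  have P1 := hw.pr_pos S₁
  have w0 : pr s W ≤ β ^ 3 * pr s S₀ := by
    have a1 : pr s W ≤ β ^ 2 * pr s S₀ := hS₀' ▸ close_pr' h hg he
    have a2 : β ^ 2 ≤ β ^ 3 := pow_le_pow_right₀ hβ (by norm_num)
    exact a1.trans (mul_le_mul_of_nonneg_right a2 P0.le)
  have w1 : pr s W ≤ β ^ 3 * pr s S₁ := by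
    have a1 := pr_sw (W := S₀) hw (lst l₁) (lst l₂) nbd nS
    rw [← hS₁, s0b, s0d, hw.symm (lst l₂) (hd l₁), hw.symm (lst l₂) (hd l₂),
      hw.symm (lst l₁) (hd l₁)] at a1
    have a2 := close_pr h hg he (List.mem_append_right _ mc) (List.mem_append_right _ md)
    rw [← hS₀', ea, ed] at a2
    exact cb1_weight hβ PW P1 (pow_pos (hw.pos _ _) 2) (pow_pos (hw.pos _ _) 2)
      (pow_pos (hw.pos _ _) 2) (pow_pos (hw.pos _ _) 2) (h.rpos _ _ nbc) a1 a2 (h.hi _ _ ncd)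
      (h.lo _ _ nbc) (h.hi _ _ nab) (hs.lt _ ma _ mb).le
  have w2 : pr s S₂ * pr s U₂ = pr s S₁ * pr s U := by
    rw [hS₂, hU₂]; exact flip_pr hw hn1 h₁ n1 q11 s1a pU1
  have W0 : pr s U * pr s W ≤ β ^ 3 * (pr s S₀ * pr s U) := by nlinarith
  have W1 : pr s U * pr s W ≤ β ^ 3 * (pr s S₁ * pr s U) := by nlinarith
  -- errors
  have eA := err_Q (ρ := ρ) (φ := φ) (z := (S₀, U)) hw (hn.sublist (List.dropLast_sublist _))
    (odd_dropLast he h0) (close_QS hn he h0 q0 c0) (close_PS he h0 hg.pin)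
  have eC := err_Q (ρ := ρ) (φ := φ) (z := (S₁, U)) hw (hn1.sublist (List.dropLast_sublist _))
    (odd_dropLast h₁ n1) (close_QS hn1 h₁ n1 q11 s1a) (close_PS h₁ n1 pU1)
  have eD := err_Q (ρ := ρ) (φ := φ) (z := (S₂, U₂)) hw (hn2.sublist (List.dropLast_sublist _))
    (odd_dropLast h₂ n2) (close_QS hn2 h₂ n2 q22 s2c) (close_PS h₂ n2 pU22)
  have eB := err_sw (ρ := ρ) (φ := φ) hw (lst l₁) (lst l₂) (S₀, U)
    (c := pr s U * pr s W / β ^ 3) (by rw [div_le_iff₀' hβ3]; exact W0)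
    (by rw [div_le_iff₀' hβ3]; rw [hS₁] at W1; exact W1)
  dsimp only at eA eB eC eD
  rw [e3] at eA
  rw [← hS₁] at eB
  rw [← hS₂] at eC
  rw [← hS₃] at eD
  have E5 := err_nonneg (ρ := ρ) (φ := φ) hw (S₀, U)
  have E6 := err_nonneg (ρ := ρ) (φ := φ) hw (S₁, U)
  have E7 := err_nonneg (ρ := ρ) (φ := φ) hw (S₂, U₂)
  have hwp : 0 ≤ pr s U * pr s W := by positivity
  have key : eps (pr s) ρ φ l₁ l₂ =
      -(φ S₃ - φ S₀ - Gam (pr s) ρ φ (l₁ ++ l₂).dropLast (some (lst (l₁ ++ l₂)))) +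
        (φ S₁ - φ S₀) + (φ S₂ - φ S₁ - Gam (pr s) ρ φ l₁.dropLast (some (lst l₁))) +
        (φ S₃ - φ S₂ - Gam (pr s) ρ φ l₂.dropLast (some (lst l₂))) := by
    unfold eps val
    rw [if_neg (Nat.not_odd_iff_even.2 he), if_neg (Nat.not_odd_iff_even.2 h₁),
      if_neg (Nat.not_odd_iff_even.2 h₂), h₁.neg_one_pow]
    ring
  refine ⟨{5, 6, 7}, ?_, ?_⟩
  · intro j hj
    simp only [Finset.mem_insert, Finset.mem_singleton] at hj
    rcases hj with rfl | rfl | rfl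
    · rw [T5]; exact ⟨Or.inr ⟨pU1, q01⟩, Or.inr ⟨pU2, q02⟩⟩
    · rw [T6]; exact ⟨Or.inr ⟨pU1, q11⟩, Or.inr ⟨pU2, q12⟩⟩
    · rw [T7]; exact ⟨Or.inl ⟨p21, qU⟩, Or.inr ⟨pU22, q22⟩⟩
  · rw [Finset.sum_insert (by decide), Finset.sum_insert (by decide), Finset.sum_singleton,
      T5, T6, T7, key]
    dsimp only
    rw [w2]
    refine cb1_final hwp hβ3.le (by positivity) (by positivity) (by positivity) ?_ ?_ ?_ ?_
    · calc _ ≤ β ^ 3 * (pr s S₀ * pr s U) * err (pr s) ρ φ (S₀, U) :=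
          mul_le_mul W0 eA (sq_nonneg _) (by positivity)
        _ = _ := by ring
    · have := mul_le_mul_of_nonneg_left eB hβ3.le
      rw [← mul_assoc, mul_div_cancel₀ _ hβ3.ne'] at this
      exact this
    · calc _ ≤ β ^ 3 * (pr s S₁ * pr s U) * err (pr s) ρ φ (S₁, U) :=
          mul_le_mul W1 eC (sq_nonneg _) (by positivity)
        _ = _ := by ring
    · calc _ ≤ β ^ 3 * (pr s S₁ * pr s U) * err (pr s) ρ φ (S₂, U₂) :=
          mul_le_mul W1 eD (sq_nonneg _) (by positivity)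
        _ = _ := by ring

end Crest.Agent.R304
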