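import Crest.Agent.R304.Close

/-!
# R304/CaseB2: `l₁` and `l₂` odd (TASK)

`l = l₁ ++ l₂` is even.  `U` has `Pin l₁`, `b c`, `Qin l₂`; `W` has `p a`, `Qin l₁`, `Pin l₂`; either `p = d` or `p ∉ l`.
States `S₀ = U`, `S₁ = toQ l₁ U` (edge `a c`), `S₂ = toP l₂ S₁ = toQ l.dropLast U` (edge `a d`; `unflip_eq`).  Take `J = {0, 3, 5}`; `W₁ = toP l₁ W`, `W° = sw p d W`.
`eps = val l - val l₁ + val l₂ = -(φ S₀ - φ S₂ - val l) + (φ S₀ - φ S₁ - val l₁) - (φ S₂ - φ S₁ - val l₂)`: `err_P` at `(W°, U)` (mode `some d`), `err_P` at `(W, U)` (mode `none`),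
`err_Q` at `(S₁, W₁)` (mode `none`): `ρ c d ≤ r = ρ a c` (`Split.eq_r`); `W₁ d = W d` if `p ≠ d`, and if `p = d` then `W₁ d = b` and `ρ d b = ρ d a ≥ r` since `ρ a b < r ≤ ρ a d`.
Weights: `close_pr'`, `exch_le`.
-/

set_option autoImplicit false

namespace Crest.Agent.R304

open Finset Crest.Agent.R309

variable {V : Type} [Fintype V] [DecidableEq V] [Inhabited V] {s ρ : V → V → ℝ} {β : ℝ}
  {U W : PM V} {l l₁ l₂ : List V}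

theorem caseB2_num {x y₁ y₂ e₀ e₁ e₂ A B C E b : ℝ} (hx : 0 ≤ x) (hb : 1 ≤ b)
    (hE : E = -A + B - C) (hA : A ^ 2 ≤ e₂) (hB : B ^ 2 ≤ e₀) (hC : C ^ 2 ≤ e₁)
    (w₁ : x ≤ b * y₁) (w₂ : x ≤ b * y₂) :
    x * E ^ 2 ≤ 16 * b * (x * e₀ + (y₁ * e₁ + y₂ * e₂)) := by
  have h1 : E ^ 2 ≤ 3 * (A ^ 2 + B ^ 2 + C ^ 2) := by
    rw [hE]
    nlinarith [sq_nonneg (A + B), sq_nonneg (A - C), sq_nonneg (B + C)]
  have he₀ : 0 ≤ e₀ := (sq_nonneg _).trans hB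
  have he₁ : 0 ≤ e₁ := (sq_nonneg _).trans hC
  have he₂ : 0 ≤ e₂ := (sq_nonneg _).trans hA
  have h2 := mul_le_mul_of_nonneg_left h1 hx
  have h3 := mul_le_mul_of_nonneg_left hA hx
  have h4 := mul_le_mul_of_nonneg_left hB hx
  have h4' := mul_le_mul_of_nonneg_left hC hx
  have h5 : 0 ≤ x * e₀ := mul_nonneg hx he₀
  have h6 : x * e₀ ≤ b * (x * e₀) := le_mul_of_one_le_left h5 hb
  have h7 := mul_le_mul_of_nonneg_right w₁ he₁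
  have h8 := mul_le_mul_of_nonneg_right w₂ he₂
  have h9 := mul_nonneg hx he₁
  have h10 := mul_nonneg hx he₂
  linarith

theorem ctl_odd_odd (h : Ult s ρ β) (φ : PM V → ℝ) (hs : Split ρ U W l₁ l₂)
    (h₁ : Odd l₁.length) (h₂ : Odd l₂.length) : Ctl (pr s) ρ β φ U W l₁ l₂ := by
  have hg := hs.good
  have n₁ := hs.ne₁
  have n₂ := hs.ne₂
  have hw := h.toWt
  have he : Even (l₁ ++ l₂).length := by rw [List.length_append]; exact h₁.add_odd h₂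
  obtain ⟨nd₁, nd₂, hdis⟩ := List.nodup_append.1 hg.nd
  obtain ⟨pU₁, hbc, qU₂⟩ := (pin_append_odd h₁ n₂).1 hg.pin
  obtain ⟨qW₁, pW₂⟩ := (qin_append_odd h₁).1 hg.qin
  have hleft := hg.left
  have hright := hg.right
  rw [if_neg (Nat.not_odd_iff_even.2 he)] at hright
  have ehd : hd (l₁ ++ l₂) = hd l₁ := hd_append n₁
  have elst : lst (l₁ ++ l₂) = lst l₂ := lst_append n₂
  rw [ehd] at hleft
  rw [elst] at hright
  have ma := hd_mem n₁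
  have mb := lst_mem n₁
  have mc := hd_mem n₂
  have md := lst_mem n₂
  have L₁ : ∀ {v}, v ∈ l₁ → v ∈ l₁ ++ l₂ := fun hv => List.mem_append_left _ hv
  have L₂ : ∀ {v}, v ∈ l₂ → v ∈ l₁ ++ l₂ := fun hv => List.mem_append_right _ hv
  have D₁ : ∀ {v}, v ∈ l₁ → v ∉ l₂ := fun hv hv' => hdis _ hv _ hv' rfl
  have D₂ : ∀ {v}, v ∈ l₂ → v ∉ l₁ := fun hv hv' => hdis _ hv' _ hv rfl
  set S₁ := toQ l₁ U with hS₁
  set W₁ := toP l₁ W with hW₁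
  have qS₁ : Qin S₁ l₁ := toQ_qin nd₁ h₁ pU₁
  have S₁a : S₁.f (hd l₁) = hd l₂ := (toQ_hd nd₁ h₁ pU₁).trans hbc
  have S₁c : S₁.f (hd l₂) = hd l₁ := S₁.eq_iff.1 S₁a
  have S₁o : ∀ {v}, v ∉ l₁ → v ≠ hd l₂ → S₁.f v = U.f v := fun h1 h2 =>
    toQ_other nd₁ h₁ pU₁ h1 (by rwa [hbc])
  have qS₁' : Qin S₁ l₂ := qin_congr_odd nd₂ qU₂ fun v hv h2 => S₁o (D₂ hv) h2
  have pW₁ : Pin W₁ l₁ := toP_pin nd₁ h₁ qW₁
  have pW₁' : Pin W₁ l₂ := pin_congr_odd nd₂ pW₂ fun v hv h2 =>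
    toP_other nd₁ h₁ qW₁ (D₂ hv) fun e => D₁ ma (by
      have := (pin_mem_odd nd₂ pW₂ h₂ hv h2).1
      rwa [e, W.inv] at this)
  have S₂o : ∀ {v}, v ∉ l₂ → v ≠ hd l₁ → (toP l₂ S₁).f v = S₁.f v := fun h1 h2 =>
    toP_other nd₂ h₂ qS₁' h1 (by rwa [S₁c])
  have hS₂ : toQ (l₁ ++ l₂).dropLast U = toP l₂ S₁ := by
    refine unflip_eq hg.nd he hg.ne hg.pin ((qin_append_odd h₁).2
      ⟨qin_congr_odd nd₁ qS₁ fun v hv h2 => S₂o (D₁ hv) h2, toP_pin nd₂ h₂ qS₁'⟩) ?_ ?_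
    · rw [ehd, elst]
      exact (toP l₂ S₁).eq_iff.1 ((toP_lst nd₂ h₂ qS₁').trans S₁c)
    · intro v hv
      rw [S₂o (fun h' => hv (L₂ h')) (fun e => hv (e ▸ L₁ ma)),
        S₁o (fun h' => hv (L₁ h')) (fun e => hv (e ▸ L₂ mc))]
  have qW0 := close_qin hg.nd he hg.qin
  have hW0 := close_hd (W := W) hg.nd he hg.ne
  have Q₀ := close_QS (ρ := ρ) hg.nd he hg.ne qW0 hW0
  have P₀ := close_PS (ρ := ρ) he hg.ne hg.pin
  have w₀ := close_pr' h hg he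
  have eA := err_P (φ := φ) (z := (sw (W.f (hd (l₁ ++ l₂))) (lst (l₁ ++ l₂)) W, U)) hw
    (hg.nd.sublist (List.dropLast_sublist _)) (odd_dropLast he hg.ne) Q₀ P₀
  obtain ⟨qW0₁, pW0₂⟩ := (qin_append_odd h₁).1 qW0
  have Q₁ : QS ρ l₁ none W := ⟨qW₁, hleft _ (L₁ ma) _ (L₁ mb)⟩
  have P₁ : PS ρ l₁ none U := by
    refine ⟨pU₁, ?_⟩
    simp only [Option.elim]
    rw [hbc]
    exact (hs.lt _ ma _ mb).le
  have Q₂ : QS ρ l₂ none S₁ := by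
    refine ⟨qS₁', ?_⟩
    simp only [Option.elim]
    rw [S₁c, h.rsymm (hd l₂) (hd l₁), hs.eq_r h ma]
    exact hs.le _ (L₂ mc) _ (L₂ md)
  have P₂ : PS ρ l₂ none W₁ := by
    refine ⟨pW₁', ?_⟩
    simp only [Option.elim]
    by_cases hpd : lst l₂ = W.f (hd l₁)
    · have e : W₁.f (lst l₂) = lst l₁ := W₁.eq_iff.1 ((toP_lst nd₁ h₁ qW₁).trans hpd.symm)
      rw [e, h.rsymm (lst l₂)]
      have a1 := hleft _ (L₁ mb) _ (L₂ mc)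
      rw [← hpd] at a1
      have a2 := hs.lt _ ma _ mb
      have a3 := hs.le _ (L₂ mc) _ (L₂ md)
      rcases le_max_iff.1 (a1.trans (h.ultra (hd l₁) (lst l₁) (lst l₂))) with a4 | a4 <;> linarith
    · rw [toP_other nd₁ h₁ qW₁ (D₂ md) hpd]
      exact hright _ (L₂ mc) _ (L₂ md)
  have eB := err_P (φ := φ) (z := (W, U)) hw nd₁ h₁ Q₁ P₁
  have eC := err_Q (φ := φ) (z := (S₁, W₁)) hw nd₂ h₂ Q₂ P₂
  have hβ := h.one_le
  have hβ3 : 1 ≤ β ^ 3 := one_le_pow₀ hβ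
  have hβ23 : β ^ 2 ≤ β ^ 3 := pow_le_pow_right₀ hβ (by norm_num)
  have pos : ∀ X Y : PM V, 0 < pr s X * pr s Y := fun X Y => mul_pos (hw.pr_pos X) (hw.pr_pos Y)
  have w₁ : pr s W * pr s U ≤ β ^ 3 * (pr s S₁ * pr s W₁) := by
    rw [mul_comm (pr s S₁)]
    exact (exch_le h nd₁ h₁ Q₁ P₁).trans (mul_le_mul_of_nonneg_right hβ23 (pos _ _).le)
  rw [ehd, elst] at w₀ qW0₁ pW0₂
  rw [ehd, hS₂, elst] at eA
  have w₂ : pr s W * pr s U ≤ β ^ 3 * (pr s (sw (W.f (hd l₁)) (lst l₂) W) * pr s U) := by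
    have := mul_le_mul_of_nonneg_right w₀ (hw.pr_pos U).le
    rw [mul_assoc] at this
    exact this.trans (mul_le_mul_of_nonneg_right hβ23 (pos _ _).le)
  refine ⟨{0, 3, 5}, ?_, ?_⟩
  · intro j hj
    simp only [mem_insert, mem_singleton] at hj
    rcases hj with rfl | rfl | rfl
    · exact ⟨Or.inr ⟨pU₁, qW₁⟩, Or.inl ⟨pW₂, qU₂⟩⟩
    · exact ⟨Or.inr ⟨pW₁, qS₁⟩, Or.inr ⟨pW₁', qS₁'⟩⟩
    · exact ⟨Or.inr ⟨pU₁, qW0₁⟩, Or.inl ⟨pW0₂, qU₂⟩⟩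
  · rw [sum_insert (by decide), sum_insert (by decide), sum_singleton, mul_comm (pr s U)]
    refine caseB2_num (pos W U).le hβ3 ?_ eA eB eC w₁ w₂
    rw [eps, val, val, val, if_neg (Nat.not_odd_iff_even.2 he), if_pos h₁, if_pos h₂, h₁.neg_one_pow,
      elst]
    ring

end Crest.Agent.R304
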