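import Crest.Agent.R304.Arc

/-!
# R304/Walk: alternating walks (TASK)
-/

set_option autoImplicit false

namespace Crest.Agent.R304

open Finset Crest.Agent.R309

variable {V : Type} {U W : PM V} {l l' : List V}

/-- the state after `i` steps (auxiliary) -/
def walkSt (U W : PM V) (a : V) (i : ℕ) : V × Bool :=
  (fun s : V × Bool => ((if s.2 = true then U else W).f s.1, !s.2))^[i] (a, true)

theorem walkSt_succ (U W : PM V) (a : V) (i : ℕ) : walkSt U W a (i + 1) =
    ((if (walkSt U W a i).2 = true then U else W).f (walkSt U W a i).1, !(walkSt U W a i).2) := by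
  unfold walkSt
  rw [Function.iterate_succ_apply']

theorem walkSt_snd (U W : PM V) (a : V) (i : ℕ) : (walkSt U W a i).2 = true ↔ i % 2 = 0 := by
  induction i with
  | zero => simp [walkSt]
  | succ i ih =>
    rw [walkSt_succ]
    simp only [Bool.not_eq_eq_eq_not, Bool.not_true, ← Bool.not_eq_true, ih]
    omega

theorem walkSt_even (U W : PM V) (a : V) {i : ℕ} (h : i % 2 = 0) :
    (walkSt U W a (i + 1)).1 = U.f (walkSt U W a i).1 := by
  rw [walkSt_succ, if_pos ((walkSt_snd U W a i).2 h)]

theorem walkSt_odd (U W : PM V) (a : V) {i : ℕ} (h : i % 2 = 1) :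
    (walkSt U W a (i + 1)).1 = W.f (walkSt U W a i).1 := by
  rw [walkSt_succ, if_neg (fun h' => by have := (walkSt_snd U W a i).1 h'; omega)]

theorem walk_arcEl [Inhabited V] (U W : PM V) (a : V) {L i : ℕ} (h : i < L + 1) :
    arcEl (walk U W a L) i = (walkSt U W a i).1 := by
  unfold arcEl walk walkSt
  rw [List.getElem?_map, List.getElem?_range h]
  rfl

theorem length_walk (U W : PM V) (a : V) (L : ℕ) : (walk U W a L).length = L + 1 := by
  simp [walk]

theorem pin_walk (U W : PM V) (a : V) (L : ℕ) : Pin U (walk U W a L) := by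
  have : Inhabited V := ⟨a⟩
  rw [Pin, arc_par_iff]
  intro i hi hl
  rw [length_walk] at hl
  rw [walk_arcEl U W a hl, walk_arcEl U W a (by omega), walkSt_even U W a hi]

theorem qin_walk (U W : PM V) (a : V) (L : ℕ) : Qin W (walk U W a L) := by
  have : Inhabited V := ⟨a⟩
  rw [Qin, arc_par_iff]
  intro i hi hl
  rw [length_walk] at hl
  rw [walk_arcEl U W a hl, walk_arcEl U W a (by omega), walkSt_odd U W a hi]

variable [Inhabited V]

theorem hd_walk (U W : PM V) (a : V) (L : ℕ) : hd (walk U W a L) = a := by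
  rw [arc_hd_eq, walk_arcEl U W a (by omega)]
  rfl

theorem walk_el_eq (hp : Pin U l) (hq : Qin W l) {i : ℕ} (hi : i < l.length) :
    arcEl l i = (walkSt U W (hd l) i).1 := by
  induction i with
  | zero => rw [arc_hd_eq]; rfl
  | succ i ih =>
    rcases Nat.mod_two_eq_zero_or_one i with h | h
    · rw [walkSt_even _ _ _ h, ← ih (by omega), Par.fwd hp h hi]
    · rw [walkSt_odd _ _ _ h, ← ih (by omega), Par.fwd hq h hi]

/-- an alternating list is determined by its first vertex and its length -/
theorem eq_walk (h0 : l ≠ []) (hp : Pin U l) (hq : Qin W l) :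
    l = walk U W (hd l) (l.length - 1) := by
  have hl := List.length_pos_iff.2 h0
  refine List.ext_getElem (by rw [length_walk]; omega) fun i h1 h2 => ?_
  rw [← arcEl_eq h1, ← arcEl_eq h2, walk_el_eq hp hq h1, walk_arcEl _ _ _ (by omega)]

/-- One list is a prefix of the other, and its last vertex occurs only once in the longer one. -/
theorem alt_unique (hn : l.Nodup) (hn' : l'.Nodup) (h0 : l ≠ []) (h0' : l' ≠ []) (hp : Pin U l)
    (hq : Qin W l) (hp' : Pin U l') (hq' : Qin W l') (h1 : hd l = hd l') (h2 : lst l = lst l') :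
    l = l' := by
  have hl := List.length_pos_iff.2 h0
  have hl' := List.length_pos_iff.2 h0'
  have hlen : l.length = l'.length := by
    rcases le_total l.length l'.length with h | h
    · have h3 : arcEl l' (l.length - 1) = arcEl l' (l'.length - 1) := by
        rw [← arc_lst_eq, ← h2, arc_lst_eq, walk_el_eq hp hq (by omega),
          walk_el_eq hp' hq' (by omega), h1]
      rw [arcEl_inj hn' (by omega) (by omega)] at h3
      omega
    · have h3 : arcEl l (l'.length - 1) = arcEl l (l.length - 1) := by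
        rw [← arc_lst_eq, h2, arc_lst_eq, walk_el_eq hp hq (by omega),
          walk_el_eq hp' hq' (by omega), h1]
      rw [arcEl_inj hn (by omega) (by omega)] at h3
      omega
  rw [eq_walk h0 hp hq, eq_walk h0' hp' hq', h1, hlen]

variable [Fintype V] [DecidableEq V]

/-- The cycle through `a`.  Take a longest alternating list without repetition from `a`.  If its length is odd, append `U (lst l)` (`pin_lst_notMem`);
if it is even and `W (lst l) ≠ a`, then `W (lst l) ∉ l` (`qin_mem_even`) can be appended. -/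
theorem exists_cycle (U W : PM V) (a : V) : ∃ l : List V, l.Nodup ∧ l ≠ [] ∧ hd l = a ∧
    Even l.length ∧ Pin U l ∧ Qin W l ∧ W.f (lst l) = a := by
  classical
  obtain ⟨m, hm, hmax⟩ := Finset.exists_max_image
    (univ.filter fun l : NL V => l.1 ≠ [] ∧ hd l.1 = a ∧ Pin U l.1 ∧ Qin W l.1)
    (fun l => l.1.length) ⟨⟨[a], List.nodup_singleton a⟩, by
      rw [mem_filter]
      exact ⟨mem_univ _, by simp, rfl, arc_par_singleton a, arc_par_singleton a⟩⟩
  obtain ⟨l, hn⟩ := m
  rw [mem_filter] at hm
  obtain ⟨-, h0, ha, hp, hq⟩ := hm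
  simp only at h0 ha hp hq
  have hext : ∀ v, v ∉ l → Pin U (l ++ [v]) → Qin W (l ++ [v]) → False := by
    intro v hv h1 h2
    have hn' : (l ++ [v]).Nodup := by
      rw [List.nodup_append]
      refine ⟨hn, List.nodup_singleton v, fun x hx y hy hxy => hv ?_⟩
      rw [List.mem_singleton] at hy
      rw [← hy, ← hxy]
      exact hx
    have := hmax ⟨l ++ [v], hn'⟩ (by
      rw [mem_filter]
      exact ⟨mem_univ _, by simp, by simp only; rw [hd_append h0, ha], h1, h2⟩)
    simp at this
  rcases Nat.even_or_odd l.length with he | ho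
  · refine ⟨l, hn, h0, ha, he, hp, hq, ?_⟩
    by_contra hc
    refine hext (W.f (lst l)) (fun hm => ?_) ?_ ?_
    · exact (qin_mem_even hn hq he hm (by rwa [ha]) (W.ne _)).2.2 (W.inv _)
    · exact (pin_append_even he).2 ⟨hp, arc_par_singleton _⟩
    · exact (qin_append_even he h0 (by simp)).2 ⟨hq, rfl, arc_par_singleton _⟩
  · exfalso
    refine hext (U.f (lst l)) (pin_lst_notMem hn hp ho) ?_ ?_
    · exact (pin_append_odd ho (by simp)).2 ⟨hp, rfl, arc_par_singleton _⟩
    · exact (qin_append_odd ho).2 ⟨hq, arc_par_singleton _⟩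

/-- inject into `V × Fin (card V)` by the first vertex and the length -/
theorem sum_alt_le (U W : PM V) :
    ∑ l : NL V, ind (l.1 ≠ [] ∧ Pin U l.1 ∧ Qin W l.1) ≤ (Fintype.card V : ℝ) ^ 2 := by
  classical
  simp only [ind_eq]
  rw [Finset.sum_boole]
  have h : (univ.filter fun l : NL V => l.1 ≠ [] ∧ Pin U l.1 ∧ Qin W l.1).card
      ≤ ((univ : Finset V) ×ˢ range (Fintype.card V)).card := by
    refine card_le_card_of_injOn (fun l => (hd l.1, l.1.length - 1)) ?_ ?_
    · intro l hl
      rw [mem_coe, mem_filter] at hl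
      rw [mem_coe, mem_product, mem_range]
      have h1 := List.length_pos_iff.2 hl.2.1
      have h2 := l.2.length_le_card
      exact ⟨mem_univ _, by simp only; omega⟩
    · intro l hl l' hl' h
      rw [mem_coe, mem_filter] at hl hl'
      simp only [Prod.mk.injEq] at h
      apply Subtype.ext
      rw [eq_walk hl.2.1 hl.2.2.1 hl.2.2.2, eq_walk hl'.2.1 hl'.2.2.1 hl'.2.2.2, h.1, h.2]
  rw [card_product, card_range, card_univ] at h
  rw [sq]
  exact_mod_cast h

theorem sum_altE_le (z : PM V × PM V) :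
    ∑ l : NL V, ind (l.1 ≠ [] ∧ AltE z l.1) ≤ 2 * (Fintype.card V : ℝ) ^ 2 := by
  have h : ∀ l : NL V, ind (l.1 ≠ [] ∧ AltE z l.1) ≤
      ind (l.1 ≠ [] ∧ Pin z.1 l.1 ∧ Qin z.2 l.1) + ind (l.1 ≠ [] ∧ Pin z.2 l.1 ∧ Qin z.1 l.1) := by
    intro l
    by_cases h : l.1 ≠ [] ∧ AltE z l.1
    · rw [ind_pos h]
      rcases h.2 with h1 | h1
      · rw [ind_pos (And.intro h.1 h1)]
        linarith [ind_nonneg (l.1 ≠ [] ∧ Pin z.2 l.1 ∧ Qin z.1 l.1)]
      · rw [ind_pos (And.intro h.1 h1)]
        linarith [ind_nonneg (l.1 ≠ [] ∧ Pin z.1 l.1 ∧ Qin z.2 l.1)]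
    · rw [ind_neg h]
      exact add_nonneg (ind_nonneg _) (ind_nonneg _)
  refine (sum_le_sum fun l _ => h l).trans ?_
  rw [sum_add_distrib]
  linarith [sum_alt_le z.1 z.2, sum_alt_le z.2 z.1]

end Crest.Agent.R304
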