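import Crest.Agent.R304.CaseA1
import Crest.Agent.R304.CaseA2
import Crest.Agent.R304.CaseB1
import Crest.Agent.R304.CaseB2
import Crest.Agent.R304.Walk

/-!
# R304/Agg: summing the defects (TASK)
-/

set_option autoImplicit false

namespace Crest.Agent.R304

open Finset Crest.Agent.R309

variable {V : Type} [Fintype V] [DecidableEq V] [Inhabited V] {s ρ : V → V → ℝ} {β : ℝ}
  {U W : PM V} {l l₁ l₂ : List V}

theorem ctl (h : Ult s ρ β) (φ : PM V → ℝ) (hs : Split ρ U W l₁ l₂) :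
    Ctl (pr s) ρ β φ U W l₁ l₂ := by
  rcases Nat.even_or_odd l₁.length with h₁ | h₁ <;> rcases Nat.even_or_odd l₂.length with h₂ | h₂
  exacts [ctl_even_even h φ hs h₁ h₂, ctl_even_odd h φ hs h₁ h₂, ctl_odd_even h φ hs h₁ h₂,
    ctl_odd_odd h φ hs h₁ h₂]

omit [Fintype V] [Inhabited V] in
theorem agg_toP_inj {l : List V} {X Y : PM V} : toP l X = toP l Y ↔ X = Y :=
  ⟨fun h => by rw [← toQ_toP l X, h, toQ_toP], fun h => by rw [h]⟩

omit [Fintype V] [Inhabited V] in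
theorem agg_toQ_inj {l : List V} {X Y : PM V} : toQ l X = toQ l Y ↔ X = Y :=
  ⟨fun h => by rw [← toP_toQ l X, h, toP_toQ], fun h => by rw [h]⟩

omit [Fintype V] [Inhabited V] in
theorem agg_sw_inj {a b : V} {X Y : PM V} : sw a b X = sw a b Y ↔ X = Y :=
  ⟨fun h => by rw [← sw_sw a b X, h, sw_sw], fun h => by rw [h]⟩

omit [Fintype V] in
theorem Tr_injective (l₁ l₂ : List V) (c : V) (j : Fin 8) : Function.Injective (Tr l₁ l₂ c j) := by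
  rintro ⟨X, Y⟩ ⟨X', Y'⟩ h
  fin_cases j <;>
    simpa [Tr, agg_toP_inj, agg_toQ_inj, agg_sw_inj, and_comm] using h

/-- By `ctl`, each term is at most `16 β³ ∑_{c : V} ∑_{j : Fin 8} g l₁ l₂ (Tr l₁ l₂ c j (W, U))` with
`g l₁ l₂ z = ind (l₁ ≠ [] ∧ AltE z l₁) * ind (l₂ ≠ [] ∧ AltE z l₂) * (p z.1 * p z.2 * err z) ≥ 0`.  For fixed `l₁, l₂, c, j` the map `Tr` is a bijection of the pairs; then `sum_altE_le` twice and `sum_err_le`:
`16 β³ * n * 8 * (2 n²)² * 2 β²`. -/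
theorem sum_Esp_le (h : Ult s ρ β) (φ : PM V → ℝ) :
    ∑ z : PM V × PM V, pr s z.1 * pr s z.2 * Esp (pr s) ρ φ z.2 z.1 ≤
      1024 * (Fintype.card V : ℝ) ^ 5 * β ^ 5 * (Dsw (pr s) φ + Dex (pr s) φ) := by
  have hw := h.toWt
  have hβ : 0 < β := by linarith [h.one_le]
  obtain ⟨e, he⟩ : ∃ e : PM V × PM V → ℝ, e = fun z => pr s z.1 * pr s z.2 * err (pr s) ρ φ z :=
    ⟨_, rfl⟩
  have he0 : ∀ z, 0 ≤ e z := fun z => by
    rw [he]
    exact mul_nonneg (mul_pos (hw.pr_pos _) (hw.pr_pos _)).le (err_nonneg hw z)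
  obtain ⟨g, hg⟩ : ∃ g : NL V → NL V → PM V × PM V → ℝ, g = fun l₁ l₂ z =>
      ind (l₁.1 ≠ [] ∧ AltE z l₁.1) * ind (l₂.1 ≠ [] ∧ AltE z l₂.1) * e z := ⟨_, rfl⟩
  have hg0 : ∀ l₁ l₂ z, 0 ≤ g l₁ l₂ z := fun l₁ l₂ z => by
    rw [hg]
    exact mul_nonneg (mul_nonneg (ind_nonneg _) (ind_nonneg _)) (he0 z)
  have h1 : ∀ (z : PM V × PM V) (l₁ l₂ : NL V),
      pr s z.1 * pr s z.2 * (ind (Split ρ z.2 z.1 l₁.1 l₂.1) * eps (pr s) ρ φ l₁.1 l₂.1 ^ 2) ≤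
        16 * β ^ 3 * ∑ c : V, ∑ j : Fin 8, g l₁ l₂ (Tr l₁.1 l₂.1 c j z) := by
    rintro ⟨W, U⟩ l₁ l₂
    by_cases hs : Split ρ U W l₁.1 l₂.1
    · obtain ⟨J, hJ, hle⟩ := ctl h φ hs
      rw [ind_pos hs, one_mul, mul_comm (pr s W)]
      refine hle.trans (mul_le_mul_of_nonneg_left ?_ (by positivity))
      refine le_trans ?_ (single_le_sum (f := fun c => ∑ j : Fin 8, g l₁ l₂ (Tr l₁.1 l₂.1 c j (W, U)))
        (fun c _ => sum_nonneg fun j _ => hg0 _ _ _) (mem_univ (W.f (hd l₁.1))))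
      refine le_trans (le_of_eq ?_) (sum_le_sum_of_subset_of_nonneg (subset_univ J)
        fun j _ _ => hg0 _ _ _)
      refine sum_congr rfl fun j hj => ?_
      rw [hg, he]
      dsimp only
      rw [ind_pos ⟨hs.ne₁, (hJ j hj).1⟩, ind_pos ⟨hs.ne₂, (hJ j hj).2⟩, one_mul, one_mul]
    · rw [ind_neg hs, zero_mul, mul_zero]
      exact mul_nonneg (by positivity) (sum_nonneg fun c _ => sum_nonneg fun j _ => hg0 _ _ _)
  have h2 : ∀ l₁ l₂ : NL V, ∑ z, ∑ c : V, ∑ j : Fin 8, g l₁ l₂ (Tr l₁.1 l₂.1 c j z) =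
      Fintype.card V * 8 * ∑ z, g l₁ l₂ z := by
    intro l₁ l₂
    rw [sum_comm]
    have : ∀ c : V, ∑ z, ∑ j : Fin 8, g l₁ l₂ (Tr l₁.1 l₂.1 c j z) = 8 * ∑ z, g l₁ l₂ z := by
      intro c
      rw [sum_comm, sum_congr rfl fun j _ => (Finite.injective_iff_bijective.1
        (Tr_injective l₁.1 l₂.1 c j)).sum_comp (g l₁ l₂)]
      simp
    simp only [this, sum_const, card_univ, nsmul_eq_mul]
    ring
  have h3 : ∑ l₁, ∑ l₂, ∑ z, g l₁ l₂ z ≤ (2 * (Fintype.card V : ℝ) ^ 2) ^ 2 * ∑ z, e z := by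
    have e1 : ∑ l₁, ∑ l₂, ∑ z, g l₁ l₂ z = ∑ z, ∑ l₁, ∑ l₂, g l₁ l₂ z := by
      rw [sum_congr rfl fun l₁ _ => sum_comm, sum_comm]
    rw [e1, mul_sum]
    refine sum_le_sum fun z _ => ?_
    have e2 : ∑ l₁, ∑ l₂, g l₁ l₂ z = (∑ l : NL V, ind (l.1 ≠ [] ∧ AltE z l.1)) ^ 2 * e z := by
      rw [hg, sq, sum_mul_sum, sum_mul]
      exact sum_congr rfl fun l₁ _ => by rw [sum_mul]
    rw [e2]
    exact mul_le_mul_of_nonneg_right (pow_le_pow_left₀ (sum_nonneg fun _ _ => ind_nonneg _)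
      (sum_altE_le z) 2) (he0 z)
  have h4 : ∑ z, e z ≤ 2 * β ^ 2 * (Dsw (pr s) φ + Dex (pr s) φ) := by
    rw [he]; exact sum_err_le h φ
  calc ∑ z : PM V × PM V, pr s z.1 * pr s z.2 * Esp (pr s) ρ φ z.2 z.1
      ≤ ∑ z : PM V × PM V, ∑ l₁ : NL V, ∑ l₂ : NL V,
          16 * β ^ 3 * ∑ c : V, ∑ j : Fin 8, g l₁ l₂ (Tr l₁.1 l₂.1 c j z) := by
        refine sum_le_sum fun z _ => ?_
        rw [Esp, mul_sum]
        refine sum_le_sum fun l₁ _ => ?_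
        rw [mul_sum]
        exact sum_le_sum fun l₂ _ => h1 z l₁ l₂
    _ = 16 * β ^ 3 * (Fintype.card V * 8) * ∑ l₁, ∑ l₂, ∑ z, g l₁ l₂ z := by
        rw [sum_comm, mul_sum]
        refine sum_congr rfl fun l₁ _ => ?_
        rw [sum_comm, mul_sum]
        refine sum_congr rfl fun l₂ _ => ?_
        rw [← mul_sum, h2]; ring
    _ ≤ 16 * β ^ 3 * (Fintype.card V * 8) * ((2 * (Fintype.card V : ℝ) ^ 2) ^ 2 *
          (2 * β ^ 2 * (Dsw (pr s) φ + Dex (pr s) φ))) :=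
        mul_le_mul_of_nonneg_left (h3.trans (mul_le_mul_of_nonneg_left h4 (by positivity)))
          (by positivity)
    _ = _ := by ring

end Crest.Agent.R304
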