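import Crest.Agent.R304.AnnDef

/-!
# R304/Alg: the program (definitions, no task)

`N` is a power of two, `N ≥ 2 ^ 20`, `N ≥ n`.  `G = N ^ 60` is the inverse gap, `Q = 2 ^ pq N = G ^ 4`, `S = G ^ 6` stages, batches of `b = G ^ 21` samples, initial population `2 S b`.
-/

set_option autoImplicit false

namespace Crest.Agent.R304

open Finset Crest.Agent.R309 Crest.Agent.Lib.PT

/-- the size parameter fits -/
structure Fits (N n : ℕ) : Prop where
  pow : N = 2 ^ Nat.log 2 N
  big : 2 ^ 20 ≤ N
  le : n ≤ N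

/-- bits of a vertex label -/
def ph (N : ℕ) : ℕ := Nat.log 2 N
/-- `Q = 2 ^ pq N` -/
def pq (N : ℕ) : ℕ := 240 * ph N
/-- number of stages -/
def pS (N : ℕ) : ℕ := N ^ 360
/-- size of a batch -/
def pb (N : ℕ) : ℕ := N ^ 1260
/-- bits of a population label -/
def pt (N : ℕ) : ℕ := 1620 * ph N + 1
/-- initial population -/
def pK0 (N : ℕ) : ℕ := 2 * N ^ 1620
/-- steps in a stage -/
def pT (N : ℕ) : ℕ := 4 * N ^ 3240
/-- bound for differences of energies -/
def pcap (N : ℕ) : ℕ := 4 * N * pS N
/-- bits of a pair move -/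
def rho1 (N : ℕ) : ℕ := 3 + 2 * ph N + pq N * pcap N
/-- bits of a population move -/
def rho2 (N : ℕ) : ℕ := 2 * pt N + rho1 N
/-- bits of a stage -/
def rho3 (N : ℕ) : ℕ := pT N * rho2 N
/-- bits of an initial sample -/
def rho0 (N : ℕ) : ℕ := N * pq N
/-- bits of a run -/
def plen (N : ℕ) : ℕ := pK0 N * rho0 N + pS N * rho3 N
/-- the real number `Q` -/
noncomputable def pQ (N : ℕ) : ℝ := (N : ℝ) ^ 240

/-- a coin that shows `true` with probability `(1 - 2 ^ (-lg)) ^ min k cap` -/
def coin (lg cap k : ℕ) (ω : List Bool) : Bool :=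
  decide (ofBits (ω.take (lg * cap)) < (2 ^ lg - 1) ^ min k cap * (2 ^ lg) ^ (cap - k))

/-- a table of length `n` with clamped entries -/
def mkL (n : ℕ) (f : ℕ → ℕ) : List ℕ := (List.range n).map fun v => min (f v) n

/-- transposition -/
def swp (a b v : ℕ) : ℕ := if v = a then b else if v = b then a else v

/-- `sw` -/
def swL (n a b : ℕ) (X : List ℕ) : List ℕ := mkL n fun v => swp a b (X.getD (swp a b v) 0)

/-- one step of the walk -/
def wstep (U W : List ℕ) (s : ℕ × Bool) : ℕ × Bool :=
  ((if s.2 = true then U else W).getD s.1 0, !s.2)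

/-- `walk` -/
def walkL (U W : List ℕ) (a L : ℕ) : List ℕ :=
  (List.range (L + 1)).map fun i => ((wstep U W)^[i] (a, true)).1

/-- `toP`, `toQ` -/
def exL (n : ℕ) (l : List ℕ) (p b : ℕ) (X Y : List ℕ) : List ℕ :=
  mkL n fun v => if v = p then b else if v = b then p else if v ∈ l then Y.getD v 0 else X.getD v 0

/-- exchange along `l` -/
def exP (n : ℕ) (l : List ℕ) (z : List ℕ × List ℕ) : List ℕ × List ℕ :=
  if l.Nodup then
    (exL n l (z.1.getD (l.headD 0) 0) (l.getLastD 0) z.1 z.2,
      exL n l (z.2.getD (l.getLastD 0) 0) (l.headD 0) z.2 z.1)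
  else z

/-- `mv` -/
def mvL (n c a b : ℕ) (z : List ℕ × List ℕ) : List ℕ × List ℕ :=
  if c = 4 then (z.2, z.1)
  else if c = 5 ∧ a < n ∧ b < n then (swL n a b z.1, z.2)
  else if c = 6 ∧ a < n then exP n (walkL z.2 z.1 a (2 * b)) z
  else z

/-- an entry of a matrix -/
def ent {α : Type} (d : α) (k : List (List α)) (u v : ℕ) : α := (k.getD u []).getD v d

/-- `en` -/
def enL (n : ℕ) (k : List (List ℤ)) (X : List ℕ) : ℤ :=
  ((List.range n).map fun v => ent 0 k v (X.getD v 0)).sum

/-- the proposal read off the tape -/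
def propL (N n : ℕ) (z : List ℕ × List ℕ) (ω : List Bool) : List ℕ × List ℕ :=
  mvL n (ofBits (ω.take 3)) (ofBits ((ω.drop 3).take (ph N)))
    (ofBits ((ω.drop (3 + ph N)).take (ph N))) z

/-- accept or reject -/
def accL (N n : ℕ) (k : List (List ℤ)) (z z' : List ℕ × List ℕ) (ω : List Bool) : List ℕ × List ℕ :=
  if coin (pq N) (pcap N) (enL n k z'.1 + enL n k z'.2 - (enL n k z.1 + enL n k z.2)).toNat ω = true
  then z' else z

/-- a pair move -/
def pstep (N n : ℕ) (k : List (List ℤ)) (z : List ℕ × List ℕ) (ω : List Bool) : List ℕ × List ℕ :=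
  accL N n k z (propL N n z ω) (ω.drop (3 + 2 * ph N))

/-- write a pair back -/
def set2 (pop : List (List ℕ)) (a b : ℕ) (z : List ℕ × List ℕ) : List (List ℕ) :=
  (pop.set a z.1).set b z.2

/-- a pair move at the positions `a`, `b` -/
def popAt (N n : ℕ) (k : List (List ℤ)) (pop : List (List ℕ)) (a b : ℕ) (ω : List Bool) :
    List (List ℕ) :=
  if a < pop.length ∧ b < pop.length ∧ a ≠ b then
    set2 pop a b (pstep N n k (pop.getD a [], pop.getD b []) ω)
  else pop

/-- a population move -/
def popstep (N n : ℕ) (k : List (List ℤ)) (pop : List (List ℕ)) (ω : List Bool) : List (List ℕ) :=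
  popAt N n k pop (ofBits (ω.take (pt N))) (ofBits ((ω.drop (pt N)).take (pt N))) (ω.drop (2 * pt N))

/-- the chain of a stage -/
def run (N n : ℕ) (k : List (List ℤ)) (pop : List (List ℕ)) (ω : List Bool) : List (List ℕ) :=
  iter (popstep N n k) (rho2 N) (pT N) pop ω

/-- the base as a rational number -/
def rq (N : ℕ) : ℚ := 1 - 1 / 2 ^ pq N

/-- `rq N ^ e` for `|e| ≤ cap` -/
def rp (N cap : ℕ) (e : ℤ) : ℚ := rq N ^ min e.toNat cap / rq N ^ min (-e).toNat cap

/-- average -/
def avg (l : List ℚ) : ℚ := l.sum / l.length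

/-- estimate of the ratio of the partition functions -/
def ratL (N n : ℕ) (kp k : List (List ℤ)) (B : List (List ℕ)) : ℚ :=
  avg (B.map fun X => rp N n (enL n kp X - enL n k X))

/-- `X` is a perfect matching of the graph -/
def okL (n : ℕ) (adj : List (List Bool)) (X : List ℕ) : Bool :=
  (List.range n).all fun v => decide (X.getD v 0 < n) && decide (X.getD (X.getD v 0) 0 = v) &&
    ent false adj v (X.getD v 0)

/-- the final estimate -/
def finL (N n : ℕ) (adj : List (List Bool)) (k : List (List ℤ)) (B : List (List ℕ)) : ℚ :=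
  avg (B.map fun X => if okL n adj X = true then rp N (pcap N) (-enL n k X) else 0)

/-- the estimated marginal is small -/
def smallL (n : ℕ) (B : List (List ℕ)) (u v : ℕ) : Bool :=
  decide (u ≠ v) && decide (16 * n ^ 2 * B.countP (fun X => decide (X.getD u 0 = v)) < B.length)

/-- some estimated marginal is small -/
def anyL (n : ℕ) (B : List (List ℕ)) : Bool :=
  (List.range n).any fun u => (List.range n).any fun v => smallL n B u v

/-- the new exponents -/
def updL (n : ℕ) (adj : List (List Bool)) (k : List (List ℤ)) (B : List (List ℕ)) : List (List ℤ) :=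
  (List.range n).map fun u => (List.range n).map fun v =>
    if anyL n B = true then (if smallL n B u v = true then ent 0 k u v - 1 else ent 0 k u v)
    else (if ent false adj u v = true ∧ ent 0 k u v = 0 then ent 0 k u v else ent 0 k u v + 1)

/-- control state: previous and current exponents, estimate of the previous partition function, output -/
abbrev Ctrl : Type := List (List ℤ) × List (List ℤ) × ℚ × Option ℚ

/-- update of the control state from a batch -/
def ctlL (N n : ℕ) (adj : List (List Bool)) (c : Ctrl) (B : List (List ℕ)) : Ctrl :=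
  if 1 / 2 ≤ finL N n adj c.2.1 B then
    (c.1, c.2.1, c.2.2.1, some (c.2.2.1 / ratL N n c.1 c.2.1 B * finL N n adj c.2.1 B))
  else (c.2.1, updL n adj c.2.1 B, c.2.2.1 / ratL N n c.1 c.2.1 B, none)

/-- use a batch -/
def useL (N n : ℕ) (adj : List (List Bool)) (c : Ctrl) (pop : List (List ℕ)) :
    Ctrl × List (List ℕ) :=
  (ctlL N n adj c (pop.take (pb N)), pop.drop (pb N))

/-- a stage -/
def stage (N n : ℕ) (adj : List (List Bool)) (σ : Ctrl × List (List ℕ)) (ω : List Bool) :
    Ctrl × List (List ℕ) :=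
  if σ.1.2.2.2.isSome = true then σ else useL N n adj σ.1 (run N n σ.1.2.1 σ.2 ω)

/-- match `a` with `b` -/
def ipair (s : List ℕ × List ℕ) (a b : ℕ) : List ℕ × List ℕ :=
  (s.1.tail.erase b, (s.2.set a b).set b a)

/-- match the first free vertex with a random free vertex -/
def istep (s : List ℕ × List ℕ) (ω : List Bool) : List ℕ × List ℕ :=
  ipair s (s.1.headD 0) (s.1.tail.getD (ofBits ω % s.1.tail.length) 0)

/-- an almost uniform perfect matching of the complete graph -/
def init1 (N n : ℕ) (ω : List Bool) : List ℕ :=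
  mkL n fun v => (iter istep (pq N) (n / 2) (List.range n, List.replicate n 0) ω).2.getD v 0

/-- the zero matrix -/
def zeroL (n : ℕ) : List (List ℤ) := List.replicate n (List.replicate n 0)

/-- the number of perfect matchings of the complete graph -/
def dfact (n : ℕ) : ℕ := ((List.range (n / 2)).map fun i => 2 * i + 1).prod

/-- the initial state -/
def start (N n : ℕ) (ω : List Bool) : Ctrl × List (List ℕ) :=
  ((zeroL n, zeroL n, (dfact n : ℚ), none), (chunks (rho0 N) (pK0 N) ω).map (init1 N n))

/-- all stages -/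
def estE (N n : ℕ) (adj : List (List Bool)) (ω : List Bool) : ℚ :=
  (iter (stage N n adj) (rho3 N) (pS N) (start N n ω) (ω.drop (pK0 N * rho0 N))).1.2.2.2.getD 0

/-- the estimator -/
def est (a : Un × List (List Bool) × List Bool) : ℚ :=
  if a.2.1.length % 2 = 1 then 0 else if a.2.1.length = 0 then 1
  else estE a.1.n a.2.1.length a.2.1 a.2.2

/-- the table of a matching -/
def toL {n : ℕ} (X : PM (Fin n)) : List ℕ := List.ofFn fun v => (X.f v).val

/-- the table of the exponents -/
def kL {n : ℕ} (k : Fin n → Fin n → ℤ) : List (List ℤ) := List.ofFn fun u => List.ofFn fun v => k u v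

/-- the adjacency matrix -/
def adjL {n : ℕ} (adj : Fin n → Fin n → Prop) [DecidableRel adj] : List (List Bool) :=
  List.ofFn fun u => List.ofFn fun v => decide (adj u v)

/-- the pairs with a small estimated marginal -/
def Small {n : ℕ} (B : List (PM (Fin n))) (u v : Fin n) : Prop :=
  u ≠ v ∧ 16 * n ^ 2 * B.countP (fun X => decide (X.f u = v)) < B.length

instance {n : ℕ} (B : List (PM (Fin n))) : DecidableRel (Small B) :=
  fun _ _ => inferInstanceAs (Decidable (_ ∧ _))

/-- the batch `B` gives accurate estimates -/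
structure GoodB (N : ℕ) {n : ℕ} (adj : Fin n → Fin n → Prop) (kp k : Fin n → Fin n → ℤ)
    (B : List (PM (Fin n))) : Prop where
  rat : |(B.map fun X => rQ (pQ N) ^ (en kp X - en k X)).sum / pb N - ZK (pQ N) kp / ZK (pQ N) k| ≤
    1 / (24 * N * pS N)
  fin : |(B.map (fin adj (pQ N) k)).sum / pb N - cnt adj / ZK (pQ N) k| ≤ 1 / (16 * N)
  edge : ∀ u v, |(B.map fun X => ind (X.f u = v)).sum / pb N - xm (pK (pQ N) k) u v| ≤
    eta (Fin n) / 20

/-- the control state after `s` accurate stages without output -/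
structure Run (N : ℕ) {n : ℕ} (adj : Fin n → Fin n → Prop) (s : ℕ) (kp k : Fin n → Fin n → ℤ)
    (Zh : ℚ) : Prop where
  inv : Inv adj (pQ N) k
  close : ∀ u v, |kp u v - k u v| ≤ 1
  bd : ∀ u v, |k u v| ≤ s
  psi : Psi (pQ N) k ≤ (n : ℝ) ^ 2 - s * (eta (Fin n) / (4 * pQ N))
  acc : |(Zh : ℝ) - ZK (pQ N) kp| ≤ s / (4 * N * pS N) * ZK (pQ N) kp

end Crest.Agent.R304
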