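import Crest.Agent.R304.Alg

/-!
# R304/AlgPT1: the chain runs in polynomial time

See the user guide `Lib/PT/All.lean`.  `ofBits (ω.take (ph N)) < 2 ^ ph N ≤ N + 1` is polynomially bounded.  In `walkL` the state is `a`, `0` or an entry of `U` or `W` (`PT.iterate_inv`, `PB.idx`).
In `run` the length of the population is constant, and every member is an old member or a table `mkL n _` (`iter_pt`).
-/

set_option autoImplicit false

namespace Crest.Agent.R304

open Finset Crest.Agent.R309 Crest.Agent.Lib.PT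

/-- a table of the population -/
def Tab (n : ℕ) (X : List ℕ) : Prop := X.length ≤ n ∧ ∀ x ∈ X, x ≤ n

theorem tab_mkL (n : ℕ) (f : ℕ → ℕ) : Tab n (mkL n f) := by
  refine ⟨by simp [mkL], fun x hx => ?_⟩
  obtain ⟨v, -, rfl⟩ := List.mem_map.1 hx
  exact min_le_right _ _

theorem Tab.sz_le {n : ℕ} {X : List ℕ} (h : Tab n X) : sz X ≤ 10 * (n + 1) ^ 2 := by
  have h1 := sz_list_le (l := X) (B := 4 * n + 1) fun x hx => by
    have := sz_nat_le_self x
    have := h.2 x hx
    omega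
  have h2 := Nat.mul_le_mul_right (4 * n + 1 + 1) h.1
  nlinarith

/-- old or a table -/
def Old (n : ℕ) (z : List ℕ × List ℕ) (X : List ℕ) : Prop := X = z.1 ∨ X = z.2 ∨ Tab n X

theorem old_mvL (n c a b : ℕ) (z : List ℕ × List ℕ) :
    Old n z (mvL n c a b z).1 ∧ Old n z (mvL n c a b z).2 := by
  unfold mvL exP
  split_ifs
  · exact ⟨Or.inr (Or.inl rfl), Or.inl rfl⟩
  · exact ⟨Or.inr (Or.inr (tab_mkL _ _)), Or.inr (Or.inl rfl)⟩
  · exact ⟨Or.inr (Or.inr (tab_mkL _ _)), Or.inr (Or.inr (tab_mkL _ _))⟩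
  · exact ⟨Or.inl rfl, Or.inr (Or.inl rfl)⟩
  · exact ⟨Or.inl rfl, Or.inr (Or.inl rfl)⟩

theorem old_pstep (N n : ℕ) (k : List (List ℤ)) (z : List ℕ × List ℕ) (ω : List Bool) :
    Old n z (pstep N n k z ω).1 ∧ Old n z (pstep N n k z ω).2 := by
  unfold pstep accL
  split_ifs
  · exact old_mvL _ _ _ _ _
  · exact ⟨Or.inl rfl, Or.inr (Or.inl rfl)⟩

theorem length_popstep (N n : ℕ) (k : List (List ℤ)) (pop : List (List ℕ)) (ω : List Bool) :
    (popstep N n k pop ω).length = pop.length := by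
  unfold popstep popAt set2
  split_ifs <;> simp

theorem mem_popAt {N n a b : ℕ} {k : List (List ℤ)} {pop : List (List ℕ)} {ω : List Bool}
    {X : List ℕ} (h : X ∈ popAt N n k pop a b ω) : X ∈ pop ∨ Tab n X := by
  unfold popAt set2 at h
  split_ifs at h with hc
  · have key : ∀ Y, Old n (pop.getD a [], pop.getD b []) Y → Y ∈ pop ∨ Tab n Y := by
      rintro Y (rfl | rfl | hY)
      · left
        rw [List.getD_eq_getElem _ _ hc.1]
        exact List.getElem_mem _
      · left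
        rw [List.getD_eq_getElem _ _ hc.2.1]
        exact List.getElem_mem _
      · exact Or.inr hY
    rcases List.mem_or_eq_of_mem_set h with h | rfl
    · rcases List.mem_or_eq_of_mem_set h with h | rfl
      · exact Or.inl h
      · exact key _ (old_pstep _ _ _ _ _).1
    · exact key _ (old_pstep _ _ _ _ _).2
  · exact Or.inl h

theorem popstep_inv {N n : ℕ} {k : List (List ℤ)} {pop c : List (List ℕ)} (ω : List Bool)
    (h : c.length = pop.length ∧ ∀ X ∈ c, X ∈ pop ∨ Tab n X) :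
    (popstep N n k c ω).length = pop.length ∧ ∀ X ∈ popstep N n k c ω, X ∈ pop ∨ Tab n X :=
  ⟨(length_popstep _ _ _ _ _).trans h.1, fun X hX => (mem_popAt hX).elim (h.2 X) Or.inr⟩

theorem run_inv (N n : ℕ) (k : List (List ℤ)) (pop : List (List ℕ)) (ω : List Bool) :
    (run N n k pop ω).length = pop.length ∧ ∀ X ∈ run N n k pop ω, X ∈ pop ∨ Tab n X :=
  iter_inv' (popstep N n k) (rho2 N)
    (J := fun _ c => c.length = pop.length ∧ ∀ X ∈ c, X ∈ pop ∨ Tab n X)
    (fun _ _ ω h => popstep_inv ω h) ⟨rfl, fun _ h => Or.inl h⟩ _ _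

theorem length_run (N n : ℕ) (k : List (List ℤ)) (pop : List (List ℕ)) (ω : List Bool) :
    (run N n k pop ω).length = pop.length := (run_inv N n k pop ω).1

theorem mem_run {N n : ℕ} {k : List (List ℤ)} {pop : List (List ℕ)} {ω : List Bool} {X : List ℕ}
    (h : X ∈ run N n k pop ω) : X ∈ pop ∨ Tab n X := (run_inv N n k pop ω).2 X h

variable {α : Type} [Enc α] {N n : α → ℕ}

theorem ph_pt (hN : PT N) : PT fun a => ph (N a) := by
  unfold ph; fun_prop

theorem ph_pb (hN : PB N) : PB fun a => ph (N a) :=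
  hN.mono fun _ => Nat.log_le_self _ _

theorem pq_pt (hN : PT N) : PT fun a => pq (N a) := (PT.const 240).nat_mul (ph_pt hN)

theorem pq_pb (hN : PB N) : PB fun a => pq (N a) := (PB.const 240).mul (ph_pb hN)

theorem pt_pt (hN : PT N) : PT fun a => pt (N a) :=
  ((PT.const 1620).nat_mul (ph_pt hN)).nat_add (PT.const 1)

theorem pt_pb (hN : PB N) : PB fun a => pt (N a) :=
  ((PB.const 1620).mul (ph_pb hN)).add (PB.const 1)

theorem pS_pt (hN : PT N) : PT fun a => pS (N a) := hN.nat_pow (PT.const 360) (PB.const 360)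

theorem pS_pb (hN : PB N) : PB fun a => pS (N a) := hN.pow 360

theorem pb_pt (hN : PT N) : PT fun a => pb (N a) := hN.nat_pow (PT.const 1260) (PB.const 1260)

theorem pb_pb (hN : PB N) : PB fun a => pb (N a) := hN.pow 1260

theorem pK0_pt (hN : PT N) : PT fun a => pK0 (N a) :=
  (PT.const 2).nat_mul (hN.nat_pow (PT.const 1620) (PB.const 1620))

theorem pK0_pb (hN : PB N) : PB fun a => pK0 (N a) := (PB.const 2).mul (hN.pow 1620)

theorem pT_pt (hN : PT N) : PT fun a => pT (N a) :=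
  (PT.const 4).nat_mul (hN.nat_pow (PT.const 3240) (PB.const 3240))

theorem pT_pb (hN : PB N) : PB fun a => pT (N a) := (PB.const 4).mul (hN.pow 3240)

theorem pcap_pt (hN : PT N) : PT fun a => pcap (N a) :=
  ((PT.const 4).nat_mul hN).nat_mul (pS_pt hN)

theorem pcap_pb (hN : PB N) : PB fun a => pcap (N a) := ((PB.const 4).mul hN).mul (pS_pb hN)

theorem rho0_pt (hN : PT N) : PT fun a => rho0 (N a) := hN.nat_mul (pq_pt hN)

theorem rho0_pb (hN : PB N) : PB fun a => rho0 (N a) := hN.mul (pq_pb hN)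

theorem rho1_pt (hN : PT N) : PT fun a => rho1 (N a) :=
  ((PT.const 3).nat_add ((PT.const 2).nat_mul (ph_pt hN))).nat_add ((pq_pt hN).nat_mul (pcap_pt hN))

theorem rho1_pb (hN : PB N) : PB fun a => rho1 (N a) :=
  ((PB.const 3).add ((PB.const 2).mul (ph_pb hN))).add ((pq_pb hN).mul (pcap_pb hN))

theorem rho2_pt (hN : PT N) : PT fun a => rho2 (N a) :=
  ((PT.const 2).nat_mul (pt_pt hN)).nat_add (rho1_pt hN)

theorem rho2_pb (hN : PB N) : PB fun a => rho2 (N a) :=
  ((PB.const 2).mul (pt_pb hN)).add (rho1_pb hN)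

theorem rho3_pt (hN : PT N) : PT fun a => rho3 (N a) := (pT_pt hN).nat_mul (rho2_pt hN)

theorem rho3_pb (hN : PB N) : PB fun a => rho3 (N a) := (pT_pb hN).mul (rho2_pb hN)

theorem coin_pt {lg cap k : α → ℕ} {ω : α → List Bool} (h1 : PT lg) (h1' : PB lg)
    (h2 : PT cap) (h2' : PB cap) (h3 : PT k) (h4 : PT ω) :
    PT fun a => coin (lg a) (cap a) (k a) (ω a) := by
  have e1 : PT fun a => 2 ^ lg a := (PT.const 2).nat_pow h1 h1'
  unfold coin
  exact PT.decide (PT.nat_lt (by fun_prop)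
    (((e1.nat_sub (PT.const 1)).nat_pow (h3.nat_min h2) (PB.min_right _ h2')).nat_mul
      (e1.nat_pow (h2.nat_sub h3) (h2'.sub _))))

theorem mkL_pt {f : α → ℕ → ℕ} (hn : PT n) (hn' : PB n) (hf : PT fun p : α × ℕ => f p.1 p.2) :
    PT fun a => mkL (n a) (f a) :=
  PT.map (hn.range hn') (hf.nat_min (hn.comp PT.id.fst))

theorem ent_pt {β : Type} [Enc β] (d : β) {k : α → List (List β)} {u v : α → ℕ} (hk : PT k)
    (hu : PT u) (hv : PT v) : PT fun a => ent d (k a) (u a) (v a) :=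
  (hk.getD hu (PT.const [])).getD hv (PT.const d)

theorem enL_pt {k : α → List (List ℤ)} {X : α → List ℕ} (hn : PT n) (hn' : PB n) (hk : PT k)
    (hX : PT X) : PT fun a => enL (n a) (k a) (X a) :=
  (PT.map (hn.range hn') (ent_pt 0 (hk.comp PT.id.fst) PT.id.snd
    ((hX.comp PT.id.fst).getD PT.id.snd (PT.const 0)))).int_sum

theorem swp_pt {a b v : α → ℕ} (ha : PT a) (hb : PT b) (hv : PT v) :
    PT fun x => swp (a x) (b x) (v x) := by
  unfold swp; fun_prop

theorem swL_pt {a b : α → ℕ} {X : α → List ℕ} (hn : PT n) (hn' : PB n) (ha : PT a) (hb : PT b)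
    (hX : PT X) : PT fun x => swL (n x) (a x) (b x) (X x) :=
  mkL_pt hn hn' (swp_pt (ha.comp PT.id.fst) (hb.comp PT.id.fst) ((hX.comp PT.id.fst).getD
    (swp_pt (ha.comp PT.id.fst) (hb.comp PT.id.fst) PT.id.snd) (PT.const 0)))

theorem sz_getD_le (U : List ℕ) (i : ℕ) : sz (U.getD i 0) ≤ sz U := by
  by_cases h : i < U.length
  · rw [List.getD_eq_getElem _ _ h]
    exact sz_le_of_mem (List.getElem_mem _)
  · rw [List.getD_eq_default _ _ (not_lt.1 h)]
    have := sz_nat_le_of_lt (n := 0) (k := 0) (by norm_num)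
    have := one_le_sz U
    omega

theorem sz_wstep_le (U W : List ℕ) (s : ℕ × Bool) : sz (wstep U W s) ≤ sz U + sz W + 4 := by
  unfold wstep
  rw [sz_mk]
  have := sz_bool_le (!s.2)
  split_ifs
  · have := sz_getD_le U s.1; omega
  · have := sz_getD_le W s.1; omega

theorem wit_pt {U W : α → List ℕ} {a i : α → ℕ} (hU : PT U) (hW : PT W) (ha : PT a) (hi : PT i)
    (hi' : PB i) : PT fun x => (wstep (U x) (W x))^[i x] (a x, true) := by
  refine PT.iterate hi hi' (by fun_prop) (by unfold wstep; fun_prop)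
    (B := fun x => sz (U x) + sz (W x) + 4 + sz (a x)) (by fun_prop) fun x k _ => ?_
  cases k with
  | zero =>
    have := sz_bool_le true
    simp only [Function.iterate_zero, id, sz_mk]
    omega
  | succ k =>
    rw [Function.iterate_succ_apply']
    exact (sz_wstep_le _ _ _).trans (Nat.le_add_right _ _)

theorem walkL_pt {U W : α → List ℕ} {a L : α → ℕ} (hU : PT U) (hW : PT W) (ha : PT a) (hL : PT L)
    (hL' : PB L) : PT fun x => walkL (U x) (W x) (a x) (L x) :=
  PT.map_range (n := fun x => L x + 1) (f := fun x i => ((wstep (U x) (W x))^[i] (a x, true)).1)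
    (hL.nat_add (PT.const 1)) (hL'.add (PB.const 1))
    (wit_pt (hU.comp PT.id.val.fst) (hW.comp PT.id.val.fst) (ha.comp PT.id.val.fst) PT.id.val.snd
      (PB.idx (n := fun x => L x + 1) (hL'.add (PB.const 1)))).fst

theorem exL_pt {l X Y : α → List ℕ} {p b : α → ℕ} (hn : PT n) (hn' : PB n) (hl : PT l) (hp : PT p)
    (hb : PT b) (hX : PT X) (hY : PT Y) :
    PT fun x => exL (n x) (l x) (p x) (b x) (X x) (Y x) :=
  mkL_pt hn hn' (by fun_prop)

theorem exP_pt {l : α → List ℕ} {z : α → List ℕ × List ℕ} (hn : PT n) (hn' : PB n) (hl : PT l)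
    (hz : PT z) : PT fun x => exP (n x) (l x) (z x) :=
  PT.ite hl.nodup ((exL_pt hn hn' hl (by fun_prop) (by fun_prop) hz.fst hz.snd).pair
    (exL_pt hn hn' hl (by fun_prop) (by fun_prop) hz.snd hz.fst)) hz

theorem mvL_pt {c a b : α → ℕ} {z : α → List ℕ × List ℕ} (hn : PT n) (hn' : PB n) (hc : PT c)
    (ha : PT a) (hb : PT b) (hb' : PB b) (hz : PT z) :
    PT fun x => mvL (n x) (c x) (a x) (b x) (z x) :=
  PT.ite (by fun_prop) (hz.snd.pair hz.fst) (PT.ite (by fun_prop)
    ((swL_pt hn hn' ha hb hz.fst).pair hz.snd) (PT.ite (by fun_prop)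
      (exP_pt hn hn' (walkL_pt hz.snd hz.fst ha ((PT.const 2).nat_mul hb) ((PB.const 2).mul hb')) hz)
      hz))

theorem ofBits_take_le (N : ℕ) (ω : List Bool) : ofBits (ω.take (ph N)) ≤ N + 1 := by
  refine (ofBits_lt _).le.trans ((Nat.pow_le_pow_right (by norm_num)
    (List.length_take_le _ _)).trans ?_)
  rcases Nat.eq_zero_or_pos N with rfl | h
  · simp [ph]
  · exact (Nat.pow_log_le_self 2 h.ne').trans (Nat.le_succ _)

theorem propL_pt {z : α → List ℕ × List ℕ} {ω : α → List Bool} (hN : PT N) (hN' : PB N)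
    (hn : PT n) (hn' : PB n) (hz : PT z) (hω : PT ω) :
    PT fun a => propL (N a) (n a) (z a) (ω a) :=
  mvL_pt hn hn' ((PT.const 3).take hω).ofBits ((ph_pt hN).take ((PT.const 3).drop hω)).ofBits
    ((ph_pt hN).take (((PT.const 3).nat_add (ph_pt hN)).drop hω)).ofBits
    ((hN'.add (PB.const 1)).mono fun _ => ofBits_take_le _ _) hz

theorem accL_pt {k : α → List (List ℤ)} {z z' : α → List ℕ × List ℕ} {ω : α → List Bool}
    (hN : PT N) (hN' : PB N) (hn : PT n) (hn' : PB n) (hk : PT k) (hz : PT z) (hz' : PT z')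
    (hω : PT ω) : PT fun a => accL (N a) (n a) (k a) (z a) (z' a) (ω a) :=
  PT.ite (coin_pt (pq_pt hN) (pq_pb hN') (pcap_pt hN) (pcap_pb hN')
    (((enL_pt hn hn' hk hz'.fst).int_add (enL_pt hn hn' hk hz'.snd)).int_sub
      ((enL_pt hn hn' hk hz.fst).int_add (enL_pt hn hn' hk hz.snd))).int_toNat hω).eq_true hz' hz

theorem pstep_pt {k : α → List (List ℤ)} {z : α → List ℕ × List ℕ} {ω : α → List Bool} (hN : PT N)
    (hN' : PB N) (hn : PT n) (hn' : PB n) (hk : PT k) (hz : PT z) (hω : PT ω) :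
    PT fun a => pstep (N a) (n a) (k a) (z a) (ω a) :=
  accL_pt hN hN' hn hn' hk hz (propL_pt hN hN' hn hn' hz hω)
    (((PT.const 3).nat_add ((PT.const 2).nat_mul (ph_pt hN))).drop hω)

theorem popAt_pt {k : α → List (List ℤ)} {pop : α → List (List ℕ)} {a b : α → ℕ}
    {ω : α → List Bool} (hN : PT N) (hN' : PB N) (hn : PT n) (hn' : PB n) (hk : PT k)
    (hp : PT pop) (ha : PT a) (hb : PT b) (hω : PT ω) :
    PT fun x => popAt (N x) (n x) (k x) (pop x) (a x) (b x) (ω x) :=
  have h := pstep_pt hN hN' hn hn' hk ((hp.getD ha (PT.const [])).pair (hp.getD hb (PT.const []))) hω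
  PT.ite (by fun_prop) ((hp.set ha h.fst).set hb h.snd) hp

theorem popstep_pt {k : α → List (List ℤ)} {pop : α → List (List ℕ)} {ω : α → List Bool}
    (hN : PT N) (hN' : PB N) (hn : PT n) (hn' : PB n) (hk : PT k) (hp : PT pop) (hω : PT ω) :
    PT fun a => popstep (N a) (n a) (k a) (pop a) (ω a) :=
  popAt_pt hN hN' hn hn' hk hp ((pt_pt hN).take hω).ofBits
    ((pt_pt hN).take ((pt_pt hN).drop hω)).ofBits (((PT.const 2).nat_mul (pt_pt hN)).drop hω)

theorem run_pt {k : α → List (List ℤ)} {pop : α → List (List ℕ)} {ω : α → List Bool} (hN : PT N)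
    (hN' : PB N) (hn : PT n) (hn' : PB n) (hk : PT k) (hp : PT pop) (hω : PT ω) :
    PT fun a => run (N a) (n a) (k a) (pop a) (ω a) := by
  refine iter_pt (f := fun a => popstep (N a) (n a) (k a))
    (popstep_pt (hN.comp PT.id.fst) (hN'.comp PT.id.fst) (hn.comp PT.id.fst) (hn'.comp PT.id.fst)
      (hk.comp PT.id.fst) PT.id.snd.fst PT.id.snd.snd) (rho2_pt hN) (pT_pt hN) (pT_pb hN') hp hω
    (fun a _ c => c.length = (pop a).length ∧ ∀ X ∈ c, X ∈ pop a ∨ Tab (n a) X)
    (fun a => ⟨rfl, fun _ h => Or.inl h⟩) (fun a _ c ω h => popstep_inv ω h)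
    (B := fun a => (pop a).length * (sz (pop a) + 10 * (n a + 1) ^ 2 + 1) + 1) (by fun_prop)
    fun a _ c _ h => ?_
  rw [← h.1]
  refine sz_list_le fun X hX => ?_
  rcases h.2 X hX with h | h
  · exact (sz_le_of_mem h).trans (Nat.le_add_right _ _)
  · exact h.sz_le.trans (Nat.le_add_left _ _)

end Crest.Agent.R304
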