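import Crest.Agent.R304.AlgPT1

/-!
# R304/AlgPT2: the estimator runs in polynomial time

`init1`: the first component of the state only shrinks, the table keeps its length and its entries are below `n + 1`.
`estE` (`iter_pt`): after `s` stages the population has at most `pK0 N` members, all `Tab n` (`length_run`, `mem_run`); both matrices have `n` rows of length `n` with entries of absolute value `≤ s`;
the heights satisfy `ratH (rp N cap e) ≤ 2 ^ (2 * pq N * cap)`, `ratH (avg l) ≤ ..` (`ratH_sum_le`, batches have at most `pb N` members), so `ratH Zh < 2 ^ (A * (s + 1))` for a polynomial `A`; the same for the output.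
-/

set_option autoImplicit false

namespace Crest.Agent.R304

open Finset Crest.Agent.R309 Crest.Agent.Lib.PT

theorem ratH_pow_le {q : ℚ} {a : ℕ} (h : ratH q ≤ 2 ^ a) (m : ℕ) :
    ratH (q ^ m) ≤ 2 ^ (a * m + 1) := by
  induction m with
  | zero => simp
  | succ m ih =>
    rw [pow_succ]
    refine (ratH_mul_le _ _).trans ((Nat.mul_le_mul ih h).trans_eq ?_)
    rw [← pow_add]; congr 1; ring

theorem ratH_rq (N : ℕ) : ratH (rq N) ≤ 2 ^ (pq N + 3) := by
  have h1 : ratH ((2 : ℚ) ^ pq N) ≤ 2 ^ (pq N + 1) := by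
    have := ratH_natCast (2 ^ pq N)
    push_cast at this
    have h : 1 ≤ 2 ^ pq N := Nat.one_le_two_pow
    rw [this, pow_succ]; omega
  have h2 := ratH_div_le 1 ((2 : ℚ) ^ pq N)
  have h3 := ratH_sub_le 1 (1 / (2 : ℚ) ^ pq N)
  rw [ratH_one] at h2 h3
  rw [rq, show pq N + 3 = pq N + 1 + 2 from rfl, pow_add]
  omega

/-- bits of the height of `rp` -/
def hp (N cap : ℕ) : ℕ := 2 * ((pq N + 3) * cap + 1)

theorem ratH_rp (N cap : ℕ) (e : ℤ) : ratH (rp N cap e) ≤ 2 ^ hp N cap := by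
  have key : ∀ m, ratH (rq N ^ min m cap) ≤ 2 ^ ((pq N + 3) * cap + 1) := fun m =>
    (ratH_pow_le (ratH_rq N) _).trans (Nat.pow_le_pow_right (by norm_num)
      (Nat.succ_le_succ (Nat.mul_le_mul_left _ (min_le_right _ _))))
  rw [hp, two_mul, pow_add]
  exact (ratH_div_le _ _).trans (Nat.mul_le_mul (key _) (key _))

theorem ratH_avg {l : List ℚ} {a b : ℕ} (h : ∀ q ∈ l, ratH q ≤ 2 ^ a) (hb : l.length ≤ b) :
    ratH (avg l) ≤ 2 ^ ((a + 1) * b) := by
  have h1 : (l.map ratH).prod ≤ (2 ^ a) ^ l.length := by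
    have := List.prod_le_pow_card (l.map ratH) (2 ^ a) fun x hx => by
      obtain ⟨q, hq, rfl⟩ := List.mem_map.1 hx
      exact h q hq
    rwa [List.length_map] at this
  have h2 : ratH (l.length : ℚ) ≤ 2 ^ l.length := by
    rw [ratH_natCast]; exact Nat.lt_two_pow_self
  refine (ratH_div_le _ _).trans ((Nat.mul_le_mul ((ratH_sum_le l).trans h1) h2).trans ?_)
  rw [← pow_mul, ← pow_add, ← Nat.succ_mul]
  exact Nat.pow_le_pow_right (by norm_num) (Nat.mul_le_mul_left _ hb)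

/-- bits of the heights of the estimates -/
def hA (N n : ℕ) : ℕ := (hp N n + 1) * pb N + (hp N (pcap N) + 1) * pb N

theorem ratH_ratL (N n : ℕ) (kp k : List (List ℤ)) {B : List (List ℕ)} (h : B.length ≤ pb N) :
    ratH (ratL N n kp k B) ≤ 2 ^ ((hp N n + 1) * pb N) :=
  ratH_avg (fun q hq => by
    obtain ⟨X, -, rfl⟩ := List.mem_map.1 hq
    exact ratH_rp _ _ _) (by rwa [List.length_map])

theorem ratH_finL (N n : ℕ) (adj : List (List Bool)) (k : List (List ℤ)) {B : List (List ℕ)}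
    (h : B.length ≤ pb N) : ratH (finL N n adj k B) ≤ 2 ^ ((hp N (pcap N) + 1) * pb N) :=
  ratH_avg (fun q hq => by
    obtain ⟨X, -, rfl⟩ := List.mem_map.1 hq
    split_ifs
    · exact ratH_rp _ _ _
    · exact Nat.one_le_two_pow) (by rwa [List.length_map])

/-- a small matrix -/
def Mat (n s : ℕ) (k : List (List ℤ)) : Prop :=
  k.length ≤ n ∧ ∀ r ∈ k, r.length ≤ n ∧ ∀ x ∈ r, x.natAbs ≤ s

theorem Mat.mono {n s s' : ℕ} {k : List (List ℤ)} (h : Mat n s k) (hs : s ≤ s') : Mat n s' k :=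
  ⟨h.1, fun r hr => ⟨(h.2 r hr).1, fun x hx => ((h.2 r hr).2 x hx).trans hs⟩⟩

theorem Mat.ent_le {n s : ℕ} {k : List (List ℤ)} (h : Mat n s k) (u v : ℕ) :
    (ent 0 k u v).natAbs ≤ s := by
  unfold ent
  by_cases hu : u < k.length
  · rw [List.getD_eq_getElem _ _ hu]
    by_cases hv : v < k[u].length
    · rw [List.getD_eq_getElem _ _ hv]
      exact (h.2 _ (List.getElem_mem _)).2 _ (List.getElem_mem _)
    · rw [List.getD_eq_default _ _ (not_lt.1 hv)]; simp
  · rw [List.getD_eq_default _ _ (not_lt.1 hu)]; simp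

theorem Mat.updL {n s : ℕ} {k : List (List ℤ)} (h : Mat n s k) (adj : List (List Bool))
    (B : List (List ℕ)) : Mat n (s + 1) (updL n adj k B) := by
  refine ⟨by simp [R304.updL], fun r hr => ?_⟩
  obtain ⟨u, -, rfl⟩ := List.mem_map.1 hr
  refine ⟨by simp, fun x hx => ?_⟩
  obtain ⟨v, -, rfl⟩ := List.mem_map.1 hx
  have := h.ent_le u v
  split_ifs <;> omega

theorem Mat.sz_le {n s : ℕ} {k : List (List ℤ)} (h : Mat n s k) :
    sz k ≤ n * (n * (4 * s + 6) + 2) + 1 := by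
  refine (sz_list_le (B := n * (4 * s + 6) + 1) fun r hr => ?_).trans
    (Nat.succ_le_succ (Nat.mul_le_mul_right _ h.1))
  refine (sz_list_le (B := 4 * s + 5) fun x hx => ?_).trans
    (Nat.succ_le_succ (Nat.mul_le_mul_right _ (h.2 r hr).1))
  exact sz_int_le_of_lt (((h.2 r hr).2 x hx).trans_lt Nat.lt_two_pow_self)

theorem mat_zeroL (n : ℕ) : Mat n 0 (zeroL n) := by
  refine ⟨by simp [zeroL], fun r hr => ?_⟩
  rw [List.eq_of_mem_replicate hr]
  exact ⟨by simp, fun x hx => by rw [List.eq_of_mem_replicate hx]; rfl⟩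

/-- the size invariant of the control state -/
structure AInv (N n s : ℕ) (c : Ctrl) : Prop where
  m1 : Mat n s c.1
  m2 : Mat n s c.2.1
  h3 : ratH c.2.2.1 ≤ 2 ^ (sz (dfact n : ℚ) + s * hA N n)
  h4 : ∀ z, c.2.2.2 = some z → ratH z ≤ 2 ^ (sz (dfact n : ℚ) + s * hA N n)

theorem AInv.succ {N n s : ℕ} {c : Ctrl} (h : AInv N n s c) : AInv N n (s + 1) c :=
  have e : 2 ^ (sz (dfact n : ℚ) + s * hA N n) ≤ 2 ^ (sz (dfact n : ℚ) + (s + 1) * hA N n) :=
    Nat.pow_le_pow_right (by norm_num) (by rw [Nat.succ_mul]; omega)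
  ⟨h.m1.mono (Nat.le_succ _), h.m2.mono (Nat.le_succ _), h.h3.trans e,
    fun z hz => (h.h4 z hz).trans e⟩

theorem AInv.ctlL {N n s : ℕ} {c : Ctrl} (h : AInv N n s c) (adj : List (List Bool))
    {B : List (List ℕ)} (hB : B.length ≤ pb N) : AInv N n (s + 1) (ctlL N n adj c B) := by
  have h1 := (ratH_div_le _ _).trans (Nat.mul_le_mul h.h3 (ratH_ratL N n c.1 c.2.1 hB))
  have h2 := (ratH_mul_le _ _).trans (Nat.mul_le_mul h1 (ratH_finL N n adj c.2.1 hB))
  rw [← pow_add] at h1 h2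
  rw [← pow_add] at h2
  unfold R304.ctlL
  split_ifs
  · refine ⟨h.succ.m1, h.succ.m2, h.succ.h3, fun z hz => ?_⟩
    rw [← Option.some.inj hz]
    exact h2.trans_eq (by rw [Nat.succ_mul s, hA]; congr 1; omega)
  · refine ⟨h.succ.m2, h.m2.updL _ _, h1.trans (Nat.pow_le_pow_right (by norm_num) ?_),
      fun z hz => by simp at hz⟩
    rw [Nat.succ_mul s, hA]; omega

theorem AInv.sz_le {N n s : ℕ} {c : Ctrl} (h : AInv N n s c) :
    sz c ≤ 2 * (n * (n * (4 * s + 6) + 2) + 1) +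
      2 * (8 * (sz (dfact n : ℚ) + s * hA N n + 1) + 7) + 10 := by
  obtain ⟨c1, c2, c3, c4⟩ := c
  have key : ∀ q : ℚ, ratH q ≤ 2 ^ (sz (dfact n : ℚ) + s * hA N n) →
      sz q ≤ 8 * (sz (dfact n : ℚ) + s * hA N n + 1) + 7 := fun q hq =>
    sz_rat_le_of_lt (hq.trans_lt (Nat.pow_lt_pow_right (by norm_num) (Nat.lt_succ_self _)))
  have h1 : sz c1 ≤ _ := h.m1.sz_le
  have h2 : sz c2 ≤ _ := h.m2.sz_le
  have h3 : sz c3 ≤ _ := key _ h.h3
  cases c4 with
  | none => simp only [sz_mk, sz_none]; omega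
  | some z =>
    have h4 := key z (h.h4 z rfl)
    simp only [sz_mk, sz_some]; omega

/-- the size invariant of the state -/
def SInv (N n s : ℕ) (σ : Ctrl × List (List ℕ)) : Prop :=
  AInv N n s σ.1 ∧ σ.2.length ≤ pK0 N ∧ ∀ X ∈ σ.2, Tab n X

theorem SInv.stage {N n s : ℕ} {σ : Ctrl × List (List ℕ)} (h : SInv N n s σ)
    (adj : List (List Bool)) (ω : List Bool) : SInv N n (s + 1) (stage N n adj σ ω) := by
  unfold R304.stage
  split_ifs
  · exact ⟨h.1.succ, h.2⟩
  · refine ⟨h.1.ctlL adj (List.length_take_le _ _), ?_, fun X hX => ?_⟩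
    · simp only [useL, List.length_drop, length_run]
      exact (Nat.sub_le _ _).trans h.2.1
    · exact (mem_run (List.mem_of_mem_drop hX)).elim (h.2.2 X) id

theorem sInv_start (N n : ℕ) (ω : List Bool) : SInv N n 0 (start N n ω) := by
  refine ⟨⟨mat_zeroL n, mat_zeroL n, ?_, fun z hz => by simp [start] at hz⟩, by simp [start],
    fun X hX => ?_⟩
  · simpa [start] using (ratH_lt_two_pow_sz (dfact n : ℚ)).le
  · obtain ⟨l, -, rfl⟩ := List.mem_map.1 hX
    exact tab_mkL _ _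

variable {α : Type} [Enc α] {N n : α → ℕ}

theorem rq_pt (hN : PT N) (hN' : PB N) : PT fun a => rq (N a) :=
  (PT.const 1).rat_sub ((PT.const 1).rat_div ((PT.const 2).rat_pow (pq_pt hN) (pq_pb hN')))

theorem rp_pt {cap : α → ℕ} {e : α → ℤ} (hN : PT N) (hN' : PB N) (hc : PT cap) (hc' : PB cap)
    (he : PT e) : PT fun a => rp (N a) (cap a) (e a) :=
  ((rq_pt hN hN').rat_pow (he.int_toNat.nat_min hc) (PB.min_right _ hc')).rat_div
    ((rq_pt hN hN').rat_pow (he.int_neg.int_toNat.nat_min hc) (PB.min_right _ hc'))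

theorem avg_pt {l : α → List ℚ} (hl : PT l) : PT fun a => avg (l a) :=
  hl.rat_sum.rat_div hl.length.rat_natCast

theorem ratL_pt {kp k : α → List (List ℤ)} {B : α → List (List ℕ)} (hN : PT N) (hN' : PB N)
    (hn : PT n) (hn' : PB n) (hkp : PT kp) (hk : PT k) (hB : PT B) :
    PT fun a => ratL (N a) (n a) (kp a) (k a) (B a) :=
  avg_pt (PT.map hB (rp_pt (hN.comp PT.id.fst) (hN'.comp PT.id.fst) (hn.comp PT.id.fst)
    (hn'.comp PT.id.fst)
    ((enL_pt (hn.comp PT.id.fst) (hn'.comp PT.id.fst) (hkp.comp PT.id.fst) PT.id.snd).int_sub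
      (enL_pt (hn.comp PT.id.fst) (hn'.comp PT.id.fst) (hk.comp PT.id.fst) PT.id.snd))))

theorem okL_pt {adj : α → List (List Bool)} {X : α → List ℕ} (hn : PT n) (hn' : PB n)
    (ha : PT adj) (hX : PT X) : PT fun a => okL (n a) (adj a) (X a) := by
  have h : PT fun p : α × ℕ => ent false (adj p.1) p.2 ((X p.1).getD p.2 0) :=
    ent_pt false (ha.comp PT.id.fst) PT.id.snd (by fun_prop)
  exact PT.all (hn.range hn') (PT.band (by fun_prop) h)

theorem finL_pt {adj : α → List (List Bool)} {k : α → List (List ℤ)} {B : α → List (List ℕ)}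
    (hN : PT N) (hN' : PB N) (hn : PT n) (hn' : PB n) (ha : PT adj) (hk : PT k) (hB : PT B) :
    PT fun a => finL (N a) (n a) (adj a) (k a) (B a) :=
  avg_pt (PT.map hB (PT.ite
    (okL_pt (hn.comp PT.id.fst) (hn'.comp PT.id.fst) (ha.comp PT.id.fst) PT.id.snd).eq_true
    (rp_pt (hN.comp PT.id.fst) (hN'.comp PT.id.fst) (pcap_pt (hN.comp PT.id.fst))
      (pcap_pb (hN'.comp PT.id.fst))
      (enL_pt (hn.comp PT.id.fst) (hn'.comp PT.id.fst) (hk.comp PT.id.fst) PT.id.snd).int_neg)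
    (PT.const 0)))

theorem smallL_pt {B : α → List (List ℕ)} {u v : α → ℕ} (hn : PT n) (hB : PT B) (hu : PT u)
    (hv : PT v) : PT fun a => smallL (n a) (B a) (u a) (v a) := by
  unfold smallL; fun_prop

theorem anyL_pt {B : α → List (List ℕ)} (hn : PT n) (hn' : PB n) (hB : PT B) :
    PT fun a => anyL (n a) (B a) :=
  PT.any (hn.range hn') (PT.any ((hn.range hn').comp PT.id.fst)
    (smallL_pt (hn.comp PT.id.fst.fst) (hB.comp PT.id.fst.fst) PT.id.fst.snd PT.id.snd))

theorem updL_pt {adj : α → List (List Bool)} {k : α → List (List ℤ)} {B : α → List (List ℕ)}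
    (hn : PT n) (hn' : PB n) (ha : PT adj) (hk : PT k) (hB : PT B) :
    PT fun a => updL (n a) (adj a) (k a) (B a) :=
  have h : PT fun p : (α × ℕ) × ℕ => ent 0 (k p.1.1) p.1.2 p.2 :=
    ent_pt 0 (hk.comp PT.id.fst.fst) PT.id.fst.snd PT.id.snd
  PT.map (hn.range hn') (PT.map ((hn.range hn').comp PT.id.fst)
    (PT.ite ((anyL_pt hn hn' hB).comp PT.id.fst.fst).eq_true
      (PT.ite (smallL_pt (hn.comp PT.id.fst.fst) (hB.comp PT.id.fst.fst) PT.id.fst.snd
        PT.id.snd).eq_true (h.int_sub (PT.const 1)) h)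
      (PT.ite ((ent_pt false (ha.comp PT.id.fst.fst) PT.id.fst.snd PT.id.snd).eq_true.and
        (h.eq (PT.const 0))) h (h.int_add (PT.const 1)))))

theorem ctlL_pt {adj : α → List (List Bool)} {c : α → Ctrl} {B : α → List (List ℕ)} (hN : PT N)
    (hN' : PB N) (hn : PT n) (hn' : PB n) (ha : PT adj) (hc : PT c) (hB : PT B) :
    PT fun a => ctlL (N a) (n a) (adj a) (c a) (B a) :=
  have h1 := finL_pt hN hN' hn hn' ha hc.snd.fst hB
  have h2 := hc.snd.snd.fst.rat_div (ratL_pt hN hN' hn hn' hc.fst hc.snd.fst hB)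
  PT.ite ((PT.const (1 / 2)).rat_le h1)
    (hc.fst.pair (hc.snd.fst.pair (hc.snd.snd.fst.pair (h2.rat_mul h1).some)))
    (hc.snd.fst.pair ((updL_pt hn hn' ha hc.snd.fst hB).pair (h2.pair (PT.const none))))

theorem stage_pt {adj : α → List (List Bool)} {σ : α → Ctrl × List (List ℕ)} {ω : α → List Bool}
    (hN : PT N) (hN' : PB N) (hn : PT n) (hn' : PB n) (ha : PT adj) (hσ : PT σ) (hω : PT ω) :
    PT fun a => stage (N a) (n a) (adj a) (σ a) (ω a) :=
  have h := run_pt hN hN' hn hn' hσ.fst.snd.fst hσ.snd hω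
  PT.ite hσ.fst.snd.snd.snd.isSome.eq_true hσ
    ((ctlL_pt hN hN' hn hn' ha hσ.fst ((pb_pt hN).take h)).pair ((pb_pt hN).drop h))

theorem tab_istep {n : ℕ} {s : List ℕ × List ℕ} (h : Tab n s.1 ∧ Tab n s.2) (ω : List Bool) :
    Tab n (istep s ω).1 ∧ Tab n (istep s ω).2 := by
  have ht : ∀ x ∈ s.1.tail, x ≤ n := fun x hx => h.1.2 x (List.mem_of_mem_tail hx)
  have ha : s.1.headD 0 ≤ n := by
    cases hs : s.1 with
    | nil => simp
    | cons a l => exact h.1.2 a (by simp [hs])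
  have hb : ∀ i, s.1.tail.getD i 0 ≤ n := fun i => by
    by_cases hi : i < s.1.tail.length
    · rw [List.getD_eq_getElem _ _ hi]
      exact ht _ (List.getElem_mem _)
    · rw [List.getD_eq_default _ _ (not_lt.1 hi)]
      exact Nat.zero_le _
  unfold istep ipair
  refine ⟨⟨?_, fun x hx => ht x (List.mem_of_mem_erase hx)⟩, ?_, fun x hx => ?_⟩
  · refine List.length_erase_le.trans (le_trans ?_ h.1.1)
    simp
  · simpa using h.2.1
  · rcases List.mem_or_eq_of_mem_set hx with hx | rfl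
    · rcases List.mem_or_eq_of_mem_set hx with hx | rfl
      · exact h.2.2 x hx
      · exact hb _
    · exact ha

theorem init1_pt {ω : α → List Bool} (hN : PT N) (hN' : PB N) (hn : PT n) (hn' : PB n)
    (hω : PT ω) : PT fun a => init1 (N a) (n a) (ω a) := by
  have h : PT fun a => iter istep (pq (N a)) (n a / 2)
      (List.range (n a), List.replicate (n a) 0) (ω a) := by
    refine iter_pt (f := fun _ => istep) (by unfold istep ipair; fun_prop) (pq_pt hN)
      (by fun_prop) (by fun_prop) (by fun_prop) hω (fun a _ c => Tab (n a) c.1 ∧ Tab (n a) c.2)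
      (fun a => ⟨⟨by simp, fun x hx => (List.mem_range.1 hx).le⟩, by simp, fun x hx => by
        rw [List.eq_of_mem_replicate hx]; exact Nat.zero_le _⟩) (fun a _ c ω h => tab_istep h ω)
      (B := fun a => 20 * (n a + 1) ^ 2 + 1) (by fun_prop) fun a _ c _ h => ?_
    have h1 := h.1.sz_le
    have h2 := h.2.sz_le
    rw [sz_prod]
    omega
  exact mkL_pt hn hn' ((h.comp PT.id.fst).snd.getD PT.id.snd (PT.const 0))

theorem dfact_pt (hn : PT n) (hn' : PB n) : PT fun a => dfact (n a) := by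
  unfold dfact; fun_prop

theorem start_pt {ω : α → List Bool} (hN : PT N) (hN' : PB N) (hn : PT n) (hn' : PB n)
    (hω : PT ω) : PT fun a => start (N a) (n a) (ω a) :=
  have h : PT fun a => zeroL (n a) := hn.replicate hn' (hn.replicate hn' (PT.const 0))
  (h.pair (h.pair ((dfact_pt hn hn').rat_natCast.pair (PT.const none)))).pair
    (PT.map (PT.chunks (rho0_pt hN) (pK0_pt hN) (pK0_pb hN') hω)
      (init1_pt (hN.comp PT.id.fst) (hN'.comp PT.id.fst) (hn.comp PT.id.fst) (hn'.comp PT.id.fst)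
        PT.id.snd))

theorem plen_pt (hN : PT N) (hN' : PB N) : PT fun a => plen (N a) :=
  ((pK0_pt hN).nat_mul (rho0_pt hN)).nat_add ((pS_pt hN).nat_mul (rho3_pt hN))

theorem plen_pb (hN' : PB N) : PB fun a => plen (N a) :=
  ((pK0_pb hN').mul (rho0_pb hN')).add ((pS_pb hN').mul (rho3_pb hN'))

theorem hp_pb {cap : α → ℕ} (hN' : PB N) (hc : PB cap) : PB fun a => hp (N a) (cap a) :=
  (PB.const 2).mul ((((pq_pb hN').add (PB.const 3)).mul hc).add (PB.const 1))

theorem hA_pb (hN' : PB N) (hn' : PB n) : PB fun a => hA (N a) (n a) :=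
  (((hp_pb hN' hn').add (PB.const 1)).mul (pb_pb hN')).add
    (((hp_pb hN' (pcap_pb hN')).add (PB.const 1)).mul (pb_pb hN'))

theorem estE_pt {adj : α → List (List Bool)} {ω : α → List Bool} (hN : PT N) (hN' : PB N)
    (hn : PT n) (hn' : PB n) (ha : PT adj) (hω : PT ω) :
    PT fun a => estE (N a) (n a) (adj a) (ω a) := by
  have b1 := pS_pb hN'
  have b2 := hA_pb hN' hn'
  have b3 := pK0_pb hN'
  have b4 : PB fun a => sz (dfact (n a) : ℚ) := PB.sz (dfact_pt hn hn').rat_natCast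
  refine PT.option_getD (PT.snd (PT.snd (PT.snd (PT.fst (iter_pt
    (f := fun a => stage (N a) (n a) (adj a))
    (stage_pt (hN.comp PT.id.fst) (hN'.comp PT.id.fst) (hn.comp PT.id.fst) (hn'.comp PT.id.fst)
      (ha.comp PT.id.fst) PT.id.snd.fst PT.id.snd.snd) (rho3_pt hN) (pS_pt hN) b1
    (start_pt hN hN' hn hn' hω) (((pK0_pt hN).nat_mul (rho0_pt hN)).drop hω)
    (fun a s σ => SInv (N a) (n a) s σ) (fun a => sInv_start _ _ _)
    (fun a _ c ω h => h.stage _ _)
    (B := fun a => 2 * (n a * (n a * (4 * pS (N a) + 6) + 2) + 1) +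
      2 * (8 * (sz (dfact (n a) : ℚ) + pS (N a) * hA (N a) (n a) + 1) + 7) + 10 +
      (pK0 (N a) * (10 * (n a + 1) ^ 2 + 1) + 1) + 1)
    (((((PB.const 2).mul ((hn'.mul ((hn'.mul (((PB.const 4).mul b1).add (PB.const 6))).add
      (PB.const 2))).add (PB.const 1))).add ((PB.const 2).mul (((PB.const 8).mul
        ((b4.add (b1.mul b2)).add (PB.const 1))).add (PB.const 7)))).add (PB.const 10)).add
      ((b3.mul (((PB.const 10).mul ((hn'.add (PB.const 1)).pow 2)).add (PB.const 1))).add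
        (PB.const 1)) |>.add (PB.const 1))
    fun a s c hs h => ?_))))) (PT.const 0)
  have h1 := h.1.sz_le
  have h2 := (sz_list_le fun X hX => (h.2.2 X hX).sz_le).trans
    (Nat.succ_le_succ (Nat.mul_le_mul_right _ h.2.1))
  have h3 : s * hA (N a) (n a) ≤ pS (N a) * hA (N a) (n a) := Nat.mul_le_mul_right _ hs
  have h4 : n a * (n a * (4 * s + 6) + 2) ≤ n a * (n a * (4 * pS (N a) + 6) + 2) :=
    Nat.mul_le_mul_left _ (Nat.add_le_add_right (Nat.mul_le_mul_left _ (by omega)) _)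
  rw [sz_prod]
  omega

theorem est_pt : PT est :=
  PT.ite (by fun_prop) (PT.const 0) (PT.ite (by fun_prop) (PT.const 1)
    (estE_pt PT.id.fst.un_n (PB.un PT.id.fst) PT.id.snd.fst.length (PB.length PT.id.snd.fst)
      PT.id.snd.fst PT.id.snd.snd))

end Crest.Agent.R304
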