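import Crest.Agent.R304.AnnDef

/-!
# R304/Ann1: weights, estimators, bounds for the potential (TASK)

`n = card V`, `r = rQ Q`, `ξ = 1 / Q ≤ 1 / (100 n)`.
-/

set_option autoImplicit false

namespace Crest.Agent.R304

open Finset Crest.Agent.R309

variable {V : Type} [Fintype V] [DecidableEq V] {adj : V → V → Prop} {Q : ℝ} {k k' : V → V → ℤ}

theorem rQ_pos (hQ : 1 < Q) : 0 < rQ Q := by
  have : 1 / Q < 1 := by rw [div_lt_one (by linarith)]; exact hQ
  unfold rQ
  linarith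

theorem rQ_lt_one (hQ : 1 < Q) : rQ Q < 1 := by
  have : 0 < 1 / Q := by have : 0 < Q := by linarith
                         positivity
  unfold rQ
  linarith

theorem wt_sK (hQ : 1 < Q) (k : V → V → ℤ) (X : PM V) : wt (sK Q k) X = rQ Q ^ en k X := by
  unfold wt sK en
  have h := (rQ_pos hQ).ne'
  induction (univ : Finset V) using Finset.induction_on with
  | empty => simp
  | insert a s ha ih => rw [prod_insert ha, sum_insert ha, ih, zpow_add₀ h]

theorem Wt_sK (hQ : 1 < Q) (h : ∀ u v, k u v = k v u) : Wt (sK Q k) := by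
  exact ⟨fun u v => by unfold sK; rw [h], fun u v => zpow_pos (rQ_pos hQ) _⟩

theorem abs_en_le {B : ℕ} (h : ∀ u v, |k u v| ≤ B) (X : PM V) :
    |en k X| ≤ Fintype.card V * B := by
  unfold en
  refine (abs_sum_le_sum_abs _ _).trans ?_
  simpa using sum_le_card_nsmul univ (fun v => |k v (X.f v)|) (B : ℤ) fun v _ => h _ _

theorem abs_en_sub_le (h : ∀ u v, |k u v - k' u v| ≤ 1) (X : PM V) :
    |en k X - en k' X| ≤ Fintype.card V := by
  unfold en
  rw [← sum_sub_distrib]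
  refine (abs_sum_le_sum_abs _ _).trans ?_
  simpa using sum_le_card_nsmul univ (fun v => |k v (X.f v) - k' v (X.f v)|) (1 : ℤ)
    fun v _ => h _ _

/-- Bernoulli: `r ^ j ≥ 1 - j / Q` -/
theorem rQ_zpow_le (hQ1 : 1 < Q) {m : ℕ} (hQ : 2 * (m : ℝ) ≤ Q) {e : ℤ} (he : |e| ≤ m) :
    1 - m / Q ≤ rQ Q ^ e ∧ rQ Q ^ e ≤ 1 + 2 * m / Q := by
  have h0 := rQ_pos hQ1
  have h1 := (rQ_lt_one hQ1).le
  have hQ0 : 0 < Q := by linarith
  have hq : 1 / Q < 1 := by rw [div_lt_one hQ0]; exact hQ1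
  have hB : 1 - m / Q ≤ rQ Q ^ m := by
    have := one_add_mul_le_pow (a := -(1 / Q)) (by linarith) m
    unfold rQ
    rw [sub_eq_add_neg 1 (1 / Q)]
    refine le_trans (le_of_eq ?_) this
    ring
  have hx : (m : ℝ) / Q ≤ 1 / 2 := by rw [div_le_iff₀ hQ0]; linarith
  have hx0 : 0 ≤ (m : ℝ) / Q := by positivity
  obtain ⟨he1, he2⟩ := abs_le.1 he
  refine ⟨hB.trans ?_, ?_⟩
  · rw [← zpow_natCast]
    exact zpow_le_zpow_right_of_le_one₀ h0 h1 he2
  · refine (zpow_le_zpow_right_of_le_one₀ h0 h1 he1).trans ?_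
    rw [zpow_neg, zpow_natCast, inv_le_iff_one_le_mul₀ (pow_pos h0 _), mul_div_assoc]
    have := mul_le_mul_of_nonneg_left hB (show 0 ≤ 1 + 2 * ((m : ℝ) / Q) by linarith)
    nlinarith

theorem pK_close (hQ1 : 1 < Q) (hQ : 100 * (Fintype.card V : ℝ) ≤ Q)
    (h : ∀ u v, |k u v - k' u v| ≤ 1) (X : PM V) :
    pK Q k X ≤ (1 + 5 * Fintype.card V / Q) * pK Q k' X := by
  have h0 := rQ_pos hQ1
  have hQ0 : 0 < Q := by linarith
  have hn : (0 : ℝ) ≤ Fintype.card V := Nat.cast_nonneg _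
  have hb : ∀ Y : PM V, (1 - Fintype.card V / Q) * wt (sK Q k') Y ≤ wt (sK Q k) Y ∧
      wt (sK Q k) Y ≤ (1 + 2 * Fintype.card V / Q) * wt (sK Q k') Y := by
    intro Y
    obtain ⟨h1, h2⟩ := rQ_zpow_le hQ1 (m := Fintype.card V) (by linarith) (abs_en_sub_le h Y)
    have e : wt (sK Q k) Y = rQ Q ^ (en k Y - en k' Y) * wt (sK Q k') Y := by
      rw [wt_sK hQ1, wt_sK hQ1, ← zpow_add₀ h0.ne', sub_add_cancel]
    have h3 : 0 < wt (sK Q k') Y := by rw [wt_sK hQ1]; exact zpow_pos h0 _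
    rw [e]
    exact ⟨mul_le_mul_of_nonneg_right h1 h3.le, mul_le_mul_of_nonneg_right h2 h3.le⟩
  have hZ : ∀ k : V → V → ℤ, 0 < Zs (sK Q k) := fun k =>
    sum_pos (fun Y _ => by rw [wt_sK hQ1]; exact zpow_pos h0 _) ⟨X, mem_univ _⟩
  have h1 : (1 - Fintype.card V / Q) * Zs (sK Q k') ≤ Zs (sK Q k) := by
    unfold Zs
    rw [mul_sum]
    exact sum_le_sum fun Y _ => (hb Y).1
  have h3 : 0 < wt (sK Q k') X := by rw [wt_sK hQ1]; exact zpow_pos h0 _
  have hx : (Fintype.card V : ℝ) / Q ≤ 1 / 100 := by rw [div_le_iff₀ hQ0]; linarith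
  have hx0 : 0 ≤ (Fintype.card V : ℝ) / Q := by positivity
  have h2 := (hb X).2
  change wt (sK Q k) X / Zs (sK Q k) ≤ _ * (wt (sK Q k') X / Zs (sK Q k'))
  rw [← mul_div_assoc, div_le_div_iff₀ (hZ k) (hZ k')]
  rw [mul_div_assoc] at h2 ⊢
  set x := (Fintype.card V : ℝ) / Q
  have h4 : 1 + 2 * x ≤ (1 + 5 * x) * (1 - x) := by nlinarith
  have h5 := hZ k'
  calc wt (sK Q k) X * Zs (sK Q k') ≤ (1 + 2 * x) * wt (sK Q k') X * Zs (sK Q k') :=
        mul_le_mul_of_nonneg_right h2 h5.le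
    _ ≤ (1 + 5 * x) * (1 - x) * wt (sK Q k') X * Zs (sK Q k') := by gcongr
    _ = (1 + 5 * x) * wt (sK Q k') X * ((1 - x) * Zs (sK Q k')) := by ring
    _ ≤ _ := mul_le_mul_of_nonneg_left h1 (by positivity)

theorem ratio_mean [Nonempty (PM V)] (hQ : 1 < Q) (k k' : V → V → ℤ) :
    ∑ X, pK Q k' X * rQ Q ^ (en k X - en k' X) = ZK Q k / ZK Q k' := by
  have h0 := rQ_pos hQ
  change _ = (∑ X, wt (sK Q k) X) / ZK Q k'
  rw [sum_div]
  refine sum_congr rfl fun X _ => ?_
  change wt (sK Q k') X / ZK Q k' * _ = _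
  rw [wt_sK hQ, wt_sK hQ, div_mul_eq_mul_div, ← zpow_add₀ h0.ne', add_sub_cancel]

theorem ZK_pos [Nonempty (PM V)] (hQ : 1 < Q) (k : V → V → ℤ) : 0 < ZK Q k := by
  exact sum_pos (fun Y _ => by rw [wt_sK hQ]; exact zpow_pos (rQ_pos hQ) _) univ_nonempty

theorem fin_mean (hQ : 1 < Q) (adj : V → V → Prop) (k : V → V → ℤ) :
    ∑ X, pK Q k X * fin adj Q k X = cnt adj / ZK Q k := by
  classical
  have h0 := rQ_pos hQ
  have e : (cnt adj : ℝ) = ∑ X : PM V, ind (∀ v, adj v (X.f v)) := by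
    unfold cnt
    rw [Nat.card_eq_fintype_card, Fintype.card_subtype]
    simp only [ind_eq, sum_boole]
  rw [e, sum_div]
  refine sum_congr rfl fun X _ => ?_
  change wt (sK Q k) X / ZK Q k * _ = _
  rw [wt_sK hQ, fin, div_mul_eq_mul_div, mul_left_comm, ← zpow_add₀ h0.ne', add_neg_cancel,
    zpow_zero, mul_one]

theorem fin_nonneg (hQ : 1 < Q) (adj : V → V → Prop) (k : V → V → ℤ) (X : PM V) :
    0 ≤ fin adj Q k X := by
  exact mul_nonneg (ind_nonneg _) (zpow_pos (rQ_pos hQ) _).le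

theorem fin_le_one (hQ : 1 < Q) (h : ∀ u v, adj u v → k u v ≤ 0) (X : PM V) :
    fin adj Q k X ≤ 1 := by
  unfold fin
  by_cases hX : ∀ v, adj v (X.f v)
  · rw [ind_pos hX, one_mul]
    refine zpow_le_one₀ (rQ_pos hQ) (rQ_lt_one hQ).le ?_
    have : en k X ≤ 0 := sum_nonpos fun v _ => h _ _ (hX v)
    omega
  · rw [ind_neg hX, zero_mul]
    exact zero_le_one

theorem ZK_zero (Q : ℝ) : ZK Q (fun _ _ : V => 0) = Fintype.card (PM V) := by
  simp [ZK, Zs, wt, sK]

/-- The number of matchings with `X u = v` does not depend on `v ≠ u` (relabel by `Equiv.swap v v'`), and these numbers add up to the number of matchings. -/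
theorem card_edge (u v : V) (h : u ≠ v) :
    ((Fintype.card V : ℝ) - 1) * ∑ X : PM V, ind (X.f u = v) = Fintype.card (PM V) := by
  have h1 : ∀ w, w ≠ u → ∑ X : PM V, ind (X.f u = w) = ∑ X : PM V, ind (X.f u = v) := by
    intro w hw
    refine Fintype.sum_equiv (MulAction.toPerm (Equiv.swap w v)) _ _ fun X => ?_
    congr 1
    rw [MulAction.toPerm_apply, smul_f, Equiv.swap_inv,
      Equiv.swap_apply_of_ne_of_ne hw.symm h, Equiv.swap_apply_eq_iff, Equiv.swap_apply_right]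
  have h2 : ∑ w, ∑ X : PM V, ind (X.f u = w) = Fintype.card (PM V) := by
    rw [sum_comm]
    simp [ind_eq]
  have h3 : ∑ X : PM V, ind (X.f u = u) = 0 := sum_eq_zero fun X _ => ind_neg (X.ne u)
  rw [← h2, ← add_sum_erase _ _ (mem_univ u), h3, zero_add,
    sum_congr rfl fun w hw => h1 w (ne_of_mem_erase hw), sum_const, card_erase_of_mem (mem_univ u),
    card_univ, nsmul_eq_mul, Nat.cast_sub (Fintype.card_pos_iff.2 ⟨u⟩), Nat.cast_one]

theorem inv_zero [Nonempty (PM V)] (adj : V → V → Prop) (Q : ℝ) :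
    Inv adj Q (fun _ _ : V => 0) := by
  refine ⟨fun _ _ => rfl, fun _ _ _ => le_rfl, fun u v huv => ?_⟩
  have h1 := card_edge u v huv
  have hn : (2 : ℝ) ≤ Fintype.card V := by
    have : 1 < Fintype.card V := Fintype.one_lt_card_iff.2 ⟨u, v, huv⟩
    exact_mod_cast this
  have hN : (0 : ℝ) < Fintype.card (PM V) := by exact_mod_cast Fintype.card_pos
  have h2 : xm (pK Q fun _ _ : V => 0) u v =
      (∑ X : PM V, ind (X.f u = v)) / Fintype.card (PM V) := by
    unfold xm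
    rw [sum_div]
    refine sum_congr rfl fun X _ => ?_
    change wt (sK Q fun _ _ : V => 0) X / ZK Q (fun _ _ : V => 0) * _ = _
    rw [ZK_zero]
    simp only [wt, sK, zpow_zero, prod_const_one]
    ring
  have h3 : 0 ≤ ∑ X : PM V, ind (X.f u = v) := sum_nonneg fun X _ => ind_nonneg _
  rw [h2, eta, div_div, div_le_div_iff₀ (by positivity) hN, ← h1, one_mul, mul_comm]
  refine mul_le_mul_of_nonneg_left ?_ h3
  nlinarith

/-- `card (PM V) ≤ n ^ n` -/
theorem psi_zero (Q : ℝ) : Psi Q (fun _ _ : V => 0) ≤ (Fintype.card V : ℝ) ^ 2 := by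
  have h1 : Fintype.card (PM V) ≤ Fintype.card V ^ Fintype.card V := by
    rw [← Fintype.card_fun]
    exact Fintype.card_le_of_injective PM.f fun _ _ h => PM.ext h
  have h2 : Psi Q (fun _ _ : V => 0) = Real.log (Fintype.card (PM V)) := by
    unfold Psi
    rw [ZK_zero]
    simp
  rw [h2]
  rcases Nat.eq_zero_or_pos (Fintype.card (PM V)) with h0 | h0
  · rw [h0, Nat.cast_zero, Real.log_zero]
    positivity
  · have h3 : (Fintype.card (PM V) : ℝ) ≤ (Fintype.card V : ℝ) ^ Fintype.card V := by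
      exact_mod_cast h1
    refine (Real.log_le_log (by exact_mod_cast h0) h3).trans ?_
    rw [Real.log_pow, sq]
    exact mul_le_mul_of_nonneg_left (Real.log_le_self (Nat.cast_nonneg _)) (Nat.cast_nonneg _)

/-- Let `σ = ∑_{u ≠ v} k u v`.  A matching of the graph has energy `≤ 0`, so `log Z ≥ 0`; by `card_edge` the mean energy of a uniform matching is `σ / (n - 1)`,
so some matching has energy `≤ σ / (n - 1)` and `log Z ≥ σ log r / (n - 1)`; and `0 ≤ η ≤ 1 / (n - 1)` (for `n = 0` everything vanishes, `n = 1` is impossible). -/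
theorem psi_nonneg (hQ : 1 < Q) (h : ∀ u v, adj u v → k u v ≤ 0) (hc : 0 < cnt adj) :
    0 ≤ Psi Q k := by
  obtain ⟨⟨X0, hX0⟩⟩ := (Nat.card_pos_iff.1 hc).1
  have h0 := rQ_pos hQ
  have h1 := rQ_lt_one hQ
  have hL : Real.log (rQ Q) < 0 := Real.log_neg h0 h1
  have hZ : ∀ X : PM V, (en k X : ℝ) * Real.log (rQ Q) ≤ Real.log (ZK Q k) := by
    intro X
    rw [← Real.log_zpow, ← wt_sK hQ]
    refine Real.log_le_log (by rw [wt_sK hQ]; exact zpow_pos h0 _) ?_
    exact single_le_sum (f := fun Y => wt (sK Q k) Y)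
      (fun Y _ => by rw [wt_sK hQ]; exact (zpow_pos h0 _).le) (mem_univ X)
  have hη : 0 ≤ eta V := by unfold eta; positivity
  unfold Psi
  set σ : ℝ := ∑ u, ∑ v, if u = v then 0 else (k u v : ℝ) with hσ
  rw [sub_nonneg]
  suffices hs : ∃ X : PM V, (en k X : ℝ) ≤ eta V * σ by
    obtain ⟨X, hX⟩ := hs
    exact (mul_le_mul_of_nonpos_right hX hL.le).trans (hZ X)
  rcases le_or_gt 0 σ with hσ0 | hσ0
  · refine ⟨X0, le_trans ?_ (mul_nonneg hη hσ0)⟩
    have : en k X0 ≤ 0 := sum_nonpos fun v _ => h _ _ (hX0 v)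
    exact_mod_cast this
  · have hn : (2 : ℝ) ≤ Fintype.card V := by
      have : 1 < Fintype.card V := by
        by_contra hcon
        have hsub : ∀ u v : V, u = v := Fintype.card_le_one_iff.1 (not_lt.1 hcon)
        have : σ = 0 := sum_eq_zero fun u _ => sum_eq_zero fun v _ => if_pos (hsub u v)
        linarith
      exact_mod_cast this
    have hsum : ∑ X : PM V, ((Fintype.card V : ℝ) - 1) * (en k X : ℝ) = ∑ _X : PM V, σ := by
      have e1 : ∀ X : PM V, (en k X : ℝ) =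
          ∑ u, ∑ v, (if u = v then 0 else (k u v : ℝ)) * ind (X.f u = v) := by
        intro X
        unfold en
        push_cast
        refine sum_congr rfl fun u _ => ?_
        simp [ind_eq, (X.ne u).symm]
      rw [← mul_sum, sum_congr rfl fun X _ => e1 X, sum_const, card_univ, nsmul_eq_mul, hσ,
        sum_comm, mul_sum, mul_sum]
      refine sum_congr rfl fun u _ => ?_
      rw [sum_comm, mul_sum, mul_sum]
      refine sum_congr rfl fun v _ => ?_
      rw [← mul_sum]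
      split_ifs with huv
      · simp
      · rw [← card_edge u v huv]
        ring
    obtain ⟨X, -, hX⟩ := exists_le_of_sum_le ⟨X0, mem_univ _⟩ hsum.le
    refine ⟨X, le_of_mul_le_mul_left (hX.trans ?_) (show 0 < (Fintype.card V : ℝ) - 1 by linarith)⟩
    have h2 : ((Fintype.card V : ℝ) - 1) * eta V ≤ 1 := by
      rw [eta, mul_one_div, div_le_one (by positivity)]
      nlinarith
    rw [← mul_assoc]
    nlinarith

end Crest.Agent.R304
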