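import Crest.Agent.R304.Ann1

/-!
# R304/Ann2: the two annealing steps (TASK)

`n = card V ≥ 1`, `r = rQ Q`, `ξ = 1 / Q ≤ 1 / (100 n)`, `ξ' = -log r`, `ξ ≤ ξ' ≤ 1.02 ξ`, `E` the mean for `pK Q k`.
Up: `N X = #{v | S v (X v)} ≤ n`, the weights are multiplied by `r ^ (-N)`, `r ^ (-N) ≤ 1 + 1.1 ξ N`, `E N = ∑_{S u v} xm u v ≤ 0.55 η |S|`, `|S| ≤ n²`.
Down: `N X = #{v | ¬ (adj v (X v) ∧ k v (X v) = 0)}`, the weights are multiplied by `r ^ N`; if `N X = 0` then `fin X = 1`, so `r ^ N ≤ r + ξ fin`.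
-/

set_option autoImplicit false

namespace Crest.Agent.R304

open Finset Crest.Agent.R309

variable {V : Type} [Fintype V] [DecidableEq V] [Nonempty V] [Nonempty (PM V)] {adj S : V → V → Prop}
  {Q : ℝ} {k : V → V → ℤ}

omit [DecidableEq V] [Nonempty (PM V)] in
theorem a2_n : (1 : ℝ) ≤ Fintype.card V := by exact_mod_cast Fintype.card_pos

omit [DecidableEq V] [Nonempty (PM V)] in
theorem a2_eta : 0 < eta V ∧ eta V * (Fintype.card V : ℝ) ^ 2 = 1 / 8 ∧ eta V ≤ 1 / 8 := by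
  have h := a2_n (V := V)
  unfold eta
  refine ⟨by positivity, by field_simp, ?_⟩
  exact one_div_le_one_div_of_le (by norm_num) (by nlinarith)

omit [Nonempty V] [Nonempty (PM V)] in
theorem a2_pK (hQ : 1 < Q) (k : V → V → ℤ) (X : PM V) : pK Q k X = rQ Q ^ en k X / ZK Q k := by
  rw [← wt_sK hQ]; rfl

omit [Nonempty V] in
theorem a2_pK_pos (hQ : 1 < Q) (k : V → V → ℤ) (X : PM V) : 0 < pK Q k X := by
  rw [a2_pK hQ]; exact div_pos (zpow_pos (rQ_pos hQ) _) (ZK_pos hQ k)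

omit [Nonempty V] in
theorem a2_sum (hQ : 1 < Q) (k : V → V → ℤ) : ∑ X, pK Q k X = 1 := by
  have h := ratio_mean hQ k k
  rw [div_self (ZK_pos hQ k).ne'] at h
  simpa using h

theorem a2_sat (hQ : 100 * (Fintype.card V : ℝ) ≤ Q) {k' : V → V → ℤ}
    (h : ∀ u v, |k u v - k' u v| ≤ 1) {u v : V} (h2 : 0.45 * eta V ≤ xm (pK Q k) u v) :
    eta V / 4 ≤ xm (pK Q k') u v := by
  have hn := a2_n (V := V)
  have hQ1 : 1 < Q := by linarith
  have h3 : xm (pK Q k) u v ≤ 1.05 * xm (pK Q k') u v := by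
    unfold xm
    rw [mul_sum]
    refine sum_le_sum fun X _ => ?_
    rw [← mul_assoc]
    refine mul_le_mul_of_nonneg_right ((pK_close hQ1 hQ h X).trans
      (mul_le_mul_of_nonneg_right ?_ (a2_pK_pos hQ1 k' X).le)) (ind_nonneg _)
    have : 5 * (Fintype.card V : ℝ) / Q ≤ 0.05 := by
      rw [div_le_iff₀ (by linarith)]; linarith
    linarith
  linarith [(a2_eta (V := V)).1]

omit [DecidableEq V] [Nonempty V] [Nonempty (PM V)] in
theorem a2_en_up [DecidableRel S] (X : PM V) :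
    en (kup S k) X - en k X = -((univ.filter fun v => S v (X.f v)).card : ℤ) := by
  unfold en kup
  rw [← sum_sub_distrib, card_filter]
  push_cast
  rw [← sum_neg_distrib]
  refine sum_congr rfl fun v _ => ?_
  split_ifs <;> simp

omit [DecidableEq V] [Nonempty V] [Nonempty (PM V)] in
theorem a2_en_dn [DecidableRel adj] (X : PM V) : en (kdn adj k) X - en k X =
    ((univ.filter fun v => ¬ (adj v (X.f v) ∧ k v (X.f v) = 0)).card : ℤ) := by
  unfold en kdn
  rw [← sum_sub_distrib, card_filter]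
  push_cast
  refine sum_congr rfl fun v _ => ?_
  split_ifs <;> simp

theorem a2_R_up [DecidableRel S] (hQ : 100 * (Fintype.card V : ℝ) ≤ Q)
    (h1 : ∀ u v, S u v → u ≠ v ∧ xm (pK Q k) u v ≤ 0.55 * eta V) :
    ZK Q (kup S k) / ZK Q k ≤ 1 + 0.605 * (1 / Q) * eta V * ∑ u, ∑ v, ind (S u v) := by
  have hn := a2_n (V := V)
  have hQ1 : 1 < Q := by linarith
  have hQ0 : 0 < Q := by linarith
  rw [← ratio_mean hQ1]
  have e1 : ∀ X : PM V, rQ Q ^ (en (kup S k) X - en k X) ≤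
      1 + 1.1 * (1 / Q) * ∑ u, ∑ v, ind (S u v) * ind (X.f u = v) := fun X => by
    have e2 : ∑ u, ∑ v, ind (S u v) * ind (X.f u = v) =
        ((univ.filter fun v => S v (X.f v)).card : ℝ) := by
      rw [card_filter]
      push_cast
      refine sum_congr rfl fun u _ => ?_
      simp [ind_eq]
    rw [e2, a2_en_up]
    have e3 : ((univ.filter fun v => S v (X.f v)).card : ℝ) ≤ Fintype.card V := by
      exact_mod_cast card_le_univ _
    generalize (univ.filter fun v => S v (X.f v)).card = N at e3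
    have e4 := (rQ_zpow_le hQ1 (m := N) (by linarith) (e := N) (by simp)).1
    have e5 : (N : ℝ) / Q ≤ 0.01 := by rw [div_le_iff₀ hQ0]; linarith
    have e6 : 0 ≤ (N : ℝ) / Q := by positivity
    have e7 : 1.1 * (1 / Q) * N = 1.1 * (N / Q) := by ring
    rw [zpow_neg, e7]
    generalize (N : ℝ) / Q = y at e4 e5 e6
    rw [inv_le_comm₀ (by linarith) (by linarith)]
    refine le_trans ?_ e4
    rw [inv_le_iff_one_le_mul₀ (by linarith)]
    nlinarith
  refine (sum_le_sum fun X _ =>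
    mul_le_mul_of_nonneg_left (e1 X) (a2_pK_pos hQ1 k X).le).trans ?_
  have e2 : ∑ X, pK Q k X * ∑ u, ∑ v, ind (S u v) * ind (X.f u = v) =
      ∑ u, ∑ v, ind (S u v) * xm (pK Q k) u v := by
    simp only [xm, mul_sum]
    rw [sum_comm]
    refine sum_congr rfl fun u _ => ?_
    rw [sum_comm]
    exact sum_congr rfl fun v _ => sum_congr rfl fun X _ => by ring
  have e3 : ∑ u, ∑ v, ind (S u v) * xm (pK Q k) u v ≤ 0.55 * eta V * ∑ u, ∑ v, ind (S u v) := by
    simp only [mul_sum]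
    refine sum_le_sum fun u _ => sum_le_sum fun v _ => ?_
    by_cases h : S u v
    · rw [ind_pos h]; linarith [(h1 u v h).2]
    · rw [ind_neg h]; simp
  have e4 : ∑ X, pK Q k X * (1 + 1.1 * (1 / Q) * ∑ u, ∑ v, ind (S u v) * ind (X.f u = v)) =
      1 + 1.1 * (1 / Q) * ∑ u, ∑ v, ind (S u v) * xm (pK Q k) u v := by
    rw [← e2, mul_sum univ (fun X => pK Q k X * _), ← a2_sum hQ1 k, ← sum_add_distrib,
      a2_sum hQ1 k]
    exact sum_congr rfl fun X _ => by ring
  rw [e4]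
  have e5 := mul_le_mul_of_nonneg_left e3 (show 0 ≤ 1.1 * (1 / Q) by positivity)
  linarith

omit [DecidableEq V] [Nonempty V] [Nonempty (PM V)] in
theorem a2_A_le (S : V → V → Prop) : ∑ u, ∑ v, ind (S u v) ≤ (Fintype.card V : ℝ) ^ 2 := by
  refine (sum_le_sum fun u _ => sum_le_sum fun v _ => ind_le_one (S u v)).trans (le_of_eq ?_)
  simp [sq]

omit [Nonempty V] in
theorem a2_psi (hQ : 1 < Q) (k k' : V → V → ℤ) : Psi Q k' ≤ Psi Q k + (ZK Q k' / ZK Q k - 1) -
    eta V * (∑ u, ∑ v, if u = v then 0 else ((k' u v : ℝ) - k u v)) * Real.log (rQ Q) := by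
  have h1 := Real.log_le_sub_one_of_pos (div_pos (ZK_pos hQ k') (ZK_pos hQ k))
  rw [Real.log_div (ZK_pos hQ k').ne' (ZK_pos hQ k).ne'] at h1
  have h2 : (∑ u, ∑ v, if u = v then 0 else ((k' u v : ℝ) - k u v)) =
      (∑ u, ∑ v, if u = v then 0 else (k' u v : ℝ)) -
        ∑ u, ∑ v, if u = v then 0 else (k u v : ℝ) := by
    simp only [← sum_sub_distrib]
    refine sum_congr rfl fun u _ => sum_congr rfl fun v _ => ?_
    split_ifs <;> simp
  unfold Psi
  rw [h2]
  linarith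

/-- On `S`: the new marginal is `E (1_e r ^ (-N)) / E r ^ (-N) ≥ xm * r⁻¹ / (1 + 1.1 ξ * 0.07) ≥ xm`.  Off `S`: `pK_close`. -/
theorem up_inv [DecidableRel S] (hQ : 100 * (Fintype.card V : ℝ) ≤ Q) (h : Inv adj Q k)
    (hS : ∀ u v, S u v → S v u)
    (h1 : ∀ u v, S u v → u ≠ v ∧ xm (pK Q k) u v ≤ 0.55 * eta V)
    (h2 : ∀ u v, u ≠ v → ¬ S u v → 0.45 * eta V ≤ xm (pK Q k) u v) : Inv adj Q (kup S k) := by
  have hn := a2_n (V := V)
  have hQ1 : 1 < Q := by linarith
  have hQ0 : 0 < Q := by linarith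
  refine ⟨fun u v => ?_, fun u v huv => ?_, fun u v huv => ?_⟩
  · unfold kup
    by_cases hs : S u v
    · rw [if_pos hs, if_pos (hS u v hs), h.symm]
    · rw [if_neg hs, if_neg fun h0 => hs (hS v u h0), h.symm]
  · have := h.le u v huv
    unfold kup
    split_ifs <;> omega
  by_cases hs : S u v
  swap
  · refine a2_sat hQ (fun u v => ?_) (h2 u v huv hs)
    unfold kup
    split_ifs <;> simp
  refine (h.sat u v huv).trans (sum_le_sum fun X _ => ?_)
  by_cases hX : X.f u = v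
  swap
  · rw [ind_neg hX]; simp
  rw [ind_pos hX, mul_one, mul_one, a2_pK hQ1, a2_pK hQ1]
  have hZ := ZK_pos hQ1 k
  have hZ' := ZK_pos hQ1 (kup S k)
  have hr := rQ_pos hQ1
  have e1 := a2_R_up hQ h1
  obtain ⟨e2, e3, -⟩ := a2_eta (V := V)
  have e4 := mul_le_mul_of_nonneg_left (a2_A_le S) e2.le
  have e5 : 0 < 1 / Q := by positivity
  have e6 : ZK Q (kup S k) / ZK Q k ≤ 1 + 1 / Q := by nlinarith
  have e7 : 1 + 1 / Q ≤ rQ Q ^ (en (kup S k) X - en k X) := by
    refine le_trans ?_ (zpow_le_zpow_right_of_le_one₀ hr (rQ_lt_one hQ1).le (n := -1) ?_)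
    · rw [zpow_neg_one, le_inv_comm₀ (by linarith) hr, ← one_div, le_div_iff₀ (by linarith)]
      unfold rQ
      nlinarith
    · rw [a2_en_up]
      have : 0 < (univ.filter fun v => S v (X.f v)).card :=
        card_pos.2 ⟨u, mem_filter.2 ⟨mem_univ _, hX ▸ hs⟩⟩
      omega
  have e8 := e6.trans e7
  rw [zpow_sub₀ hr.ne', div_le_div_iff₀ hZ (zpow_pos hr _)] at e8
  rw [div_le_div_iff₀ hZ hZ']
  linarith

/-- `log (Z' / Z) ≤ 1.1 ξ * 0.55 η |S|`, and the second term changes by `-η ξ' |S|`. -/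
theorem up_psi [DecidableRel S] (hQ : 100 * (Fintype.card V : ℝ) ≤ Q)
    (h1 : ∀ u v, S u v → u ≠ v ∧ xm (pK Q k) u v ≤ 0.55 * eta V) (h3 : ∃ u v, S u v) :
    Psi Q (kup S k) ≤ Psi Q k - eta V / (4 * Q) := by
  have hn := a2_n (V := V)
  have hQ1 : 1 < Q := by linarith
  have hQ0 : 0 < Q := by linarith
  have e1 := a2_R_up hQ h1
  have e2 := a2_psi hQ1 k (kup S k)
  have e3 : (∑ u, ∑ v, if u = v then 0 else ((kup S k u v : ℝ) - k u v)) =
      -∑ u, ∑ v, ind (S u v) := by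
    simp only [← sum_neg_distrib]
    refine sum_congr rfl fun u _ => sum_congr rfl fun v _ => ?_
    unfold kup
    by_cases h : S u v
    · rw [if_neg (h1 u v h).1, if_pos h, ind_pos h]; simp
    · rw [if_neg h, ind_neg h]; simp
  have e4 : 1 ≤ ∑ u, ∑ v, ind (S u v) := by
    obtain ⟨u, v, h⟩ := h3
    rw [← ind_pos h]
    exact (single_le_sum (f := fun v => ind (S u v)) (fun _ _ => ind_nonneg _) (mem_univ v)).trans
      (single_le_sum (f := fun u => ∑ v, ind (S u v))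
        (fun _ _ => sum_nonneg fun _ _ => ind_nonneg _) (mem_univ u))
  have e5 : Real.log (rQ Q) ≤ -(1 / Q) := by
    have := Real.log_le_sub_one_of_pos (rQ_pos hQ1)
    unfold rQ at this ⊢
    linarith
  have e6 := (a2_eta (V := V)).1
  rw [e3] at e2
  generalize ∑ u, ∑ v, ind (S u v) = A at e1 e2 e4
  have e7 := mul_le_mul_of_nonneg_left e5 (show 0 ≤ eta V * A by positivity)
  have e8 := mul_le_mul_of_nonneg_left e4 (show 0 ≤ eta V * (1 / Q) by positivity)
  have e9 : eta V / (4 * Q) = eta V * (1 / Q) / 4 := by field_simp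
  have e10 : 0 ≤ eta V * (1 / Q) := by positivity
  rw [e9]
  linarith

theorem dn_inv [DecidableRel adj] (hQ : 100 * (Fintype.card V : ℝ) ≤ Q) (h : Inv adj Q k)
    (ha : ∀ u v, adj u v → adj v u)
    (h2 : ∀ u v, u ≠ v → 0.45 * eta V ≤ xm (pK Q k) u v) : Inv adj Q (kdn adj k) := by
  refine ⟨fun u v => ?_, fun u v huv => ?_, fun u v huv => ?_⟩
  · unfold kdn
    rw [h.symm u v]
    by_cases hs : adj u v
    · simp [hs, ha u v hs]
    · have hs' : ¬ adj v u := fun h0 => hs (ha v u h0)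
      simp [hs, hs']
  · have := h.le u v huv
    unfold kdn
    by_cases h0 : k u v = 0
    · simp [huv, h0]
    · rw [if_neg fun h1 => h0 h1.2]; omega
  · refine a2_sat hQ (fun u v => ?_) (h2 u v huv)
    unfold kdn
    split_ifs <;> simp

/-- `log (Z' / Z) ≤ -0.4 ξ`, and the second term changes by at most `η n² ξ' ≤ 0.13 ξ`. -/
theorem dn_psi [DecidableRel adj] (hQ : 100 * (Fintype.card V : ℝ) ≤ Q)
    (h3 : (cnt adj : ℝ) / ZK Q k ≤ 0.6) : Psi Q (kdn adj k) ≤ Psi Q k - eta V / (4 * Q) := by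
  have hn := a2_n (V := V)
  have hQ1 : 1 < Q := by linarith
  have hQ0 : 0 < Q := by linarith
  have hr := rQ_pos hQ1
  have e0 : 0 < 1 / Q := by positivity
  have e0' : 1 / Q ≤ 0.01 := by rw [div_le_iff₀ hQ0]; linarith
  have e1 : ZK Q (kdn adj k) / ZK Q k ≤ rQ Q + 1 / Q * (cnt adj / ZK Q k) := by
    have a0 : rQ Q + 1 / Q * (cnt adj / ZK Q k) =
        ∑ X, (pK Q k X * rQ Q + 1 / Q * (pK Q k X * fin adj Q k X)) := by
      rw [sum_add_distrib, ← sum_mul, ← mul_sum, a2_sum hQ1 k, one_mul, fin_mean hQ1]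
    rw [← ratio_mean hQ1, a0]
    refine sum_le_sum fun X _ => ?_
    have a1 : rQ Q ^ (en (kdn adj k) X - en k X) ≤ rQ Q + 1 / Q * fin adj Q k X := by
      rw [a2_en_dn]
      rcases (univ.filter fun v => ¬ (adj v (X.f v) ∧ k v (X.f v) = 0)).eq_empty_or_nonempty with
        h0 | h0
      · have a2 : ∀ v, adj v (X.f v) ∧ k v (X.f v) = 0 := fun v =>
          not_not.1 (filter_eq_empty_iff.1 h0 (mem_univ v))
        have a3 : en k X = 0 := sum_eq_zero fun v _ => (a2 v).2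
        rw [h0, fin, a3, ind_pos fun v => (a2 v).1]
        simp [rQ]
      · have a2 := card_pos.2 h0
        have a3 := zpow_le_zpow_right_of_le_one₀ hr (rQ_lt_one hQ1).le
          (show (1 : ℤ) ≤ ((univ.filter fun v => ¬ (adj v (X.f v) ∧ k v (X.f v) = 0)).card : ℤ) by
            omega)
        rw [zpow_one] at a3
        have a4 := mul_nonneg e0.le (fin_nonneg hQ1 adj k X)
        linarith
    have a2 := mul_le_mul_of_nonneg_left a1 (a2_pK_pos hQ1 k X).le
    linarith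
  have e2 := a2_psi hQ1 k (kdn adj k)
  have e3 : (∑ u, ∑ v, if u = v then 0 else ((kdn adj k u v : ℝ) - k u v)) ≤
      (Fintype.card V : ℝ) ^ 2 := by
    refine le_trans (sum_le_sum fun u _ => sum_le_sum fun v _ => ?_) (a2_A_le fun _ _ => True)
    rw [ind_pos trivial]
    unfold kdn
    split_ifs <;> simp
  have e5 : -Real.log (rQ Q) ≤ 1.02 * (1 / Q) := by
    have a1 := Real.log_le_sub_one_of_pos (inv_pos.2 hr)
    rw [Real.log_inv] at a1
    have a2 : (rQ Q)⁻¹ ≤ 1 + 1.02 * (1 / Q) := by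
      rw [inv_le_iff_one_le_mul₀ hr]
      unfold rQ
      nlinarith
    linarith
  have e6 : 0 ≤ -Real.log (rQ Q) := neg_nonneg.2 (Real.log_nonpos hr.le (rQ_lt_one hQ1).le)
  obtain ⟨e7, e8, e9⟩ := a2_eta (V := V)
  have e10 := mul_le_mul_of_nonneg_right (mul_le_mul_of_nonneg_left e3 e7.le) e6
  have e11 : eta V / (4 * Q) = eta V * (1 / Q) / 4 := by field_simp
  have e12 := mul_le_mul_of_nonneg_right e9 e0.le
  have e13 := mul_le_mul_of_nonneg_left h3 e0.le
  have e14 : rQ Q = 1 - 1 / Q := rfl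
  rw [e8] at e10
  rw [e11]
  linarith

end Crest.Agent.R304
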