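import Crest.Agent.R304.Defs

/-!
# R304/AnnDef: annealing, definitions (no task)

The weights are `r ^ k u v` with `r = 1 - 1 / Q` and integer exponents.  On the edges of the graph `k ≤ 0`.  `η = 1 / (8 n²)`.
-/

set_option autoImplicit false

namespace Crest.Agent.R304

open Finset Crest.Agent.R309

variable {V : Type} [Fintype V] [DecidableEq V]

/-- the base -/
noncomputable def rQ (Q : ℝ) : ℝ := 1 - 1 / Q

/-- the weights -/
noncomputable def sK (Q : ℝ) (k : V → V → ℤ) (u v : V) : ℝ := rQ Q ^ k u v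

/-- the energy -/
def en (k : V → V → ℤ) (X : PM V) : ℤ := ∑ v, k v (X.f v)

/-- the law -/
noncomputable abbrev pK (Q : ℝ) (k : V → V → ℤ) : PM V → ℝ := pr (sK Q k)

/-- the partition function -/
noncomputable abbrev ZK (Q : ℝ) (k : V → V → ℤ) : ℝ := Zs (sK Q k)

/-- the target level of the marginals -/
noncomputable def eta (V : Type) [Fintype V] : ℝ := 1 / (8 * (Fintype.card V : ℝ) ^ 2)

/-- the potential -/
noncomputable def Psi (Q : ℝ) (k : V → V → ℤ) : ℝ :=
  Real.log (ZK Q k) - eta V * (∑ u, ∑ v, if u = v then 0 else (k u v : ℝ)) * Real.log (rQ Q)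

/-- the invariant -/
structure Inv (adj : V → V → Prop) (Q : ℝ) (k : V → V → ℤ) : Prop where
  symm : ∀ u v, k u v = k v u
  le : ∀ u v, adj u v → k u v ≤ 0
  sat : ∀ u v, u ≠ v → eta V / 4 ≤ xm (pK Q k) u v

/-- increase the weights on `S` -/
def kup (S : V → V → Prop) [DecidableRel S] (k : V → V → ℤ) (u v : V) : ℤ :=
  if S u v then k u v - 1 else k u v

/-- decrease the weights above the floor -/
def kdn (adj : V → V → Prop) [DecidableRel adj] (k : V → V → ℤ) (u v : V) : ℤ :=
  if adj u v ∧ k u v = 0 then k u v else k u v + 1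

/-- the final estimator -/
noncomputable def fin (adj : V → V → Prop) (Q : ℝ) (k : V → V → ℤ) (X : PM V) : ℝ :=
  ind (∀ v, adj v (X.f v)) * rQ Q ^ (-en k X)

/-- the number of perfect matchings of the graph -/
noncomputable def cnt (adj : V → V → Prop) : ℕ := Nat.card {X : PM V // ∀ v, adj v (X.f v)}

end Crest.Agent.R304
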