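import Crest.Agent.R304.Defs

/-!
# R304/Arc: alternating lists (TASK)

Pure list lemmas about `Pin`, `Qin` (`Par W c l`, index based: `List.getElem?_append`, `omega`), `hd`, `lst`.
-/

set_option autoImplicit false

namespace Crest.Agent.R304

open Finset Crest.Agent.R309

variable {V : Type} [Inhabited V] {W W' : PM V} {l l₁ l₂ : List V}

/-- total indexing (auxiliary) -/
def arcEl (l : List V) (i : ℕ) : V := l[i]?.getD default

theorem arcEl_eq {i : ℕ} (h : i < l.length) : arcEl l i = l[i] := by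
  simp [arcEl, h]

theorem arcEl_some {i : ℕ} (h : i < l.length) : l[i]? = some (arcEl l i) := by
  simp [arcEl, h]

theorem arcEl_mem {i : ℕ} (h : i < l.length) : arcEl l i ∈ l := by
  rw [arcEl_eq h]; exact List.getElem_mem h

theorem arc_mem_iff {v : V} : v ∈ l ↔ ∃ i, i < l.length ∧ arcEl l i = v := by
  constructor
  · intro h
    obtain ⟨i, hi, rfl⟩ := List.getElem_of_mem h
    exact ⟨i, hi, arcEl_eq hi⟩
  · rintro ⟨i, hi, rfl⟩
    exact arcEl_mem hi

theorem arcEl_inj (hn : l.Nodup) {i j : ℕ} (hi : i < l.length) (hj : j < l.length) :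
    arcEl l i = arcEl l j ↔ i = j := by
  rw [arcEl_eq hi, arcEl_eq hj]
  exact hn.getElem_inj_iff

theorem arc_hd_eq (l : List V) : hd l = arcEl l 0 := by
  simp [hd, arcEl, List.head?_eq_getElem?]

theorem arc_lst_eq (l : List V) : lst l = arcEl l (l.length - 1) := by
  simp [lst, arcEl, List.getLast?_eq_getElem?]

theorem arc_par_iff {c : ℕ} : Par W c l ↔
    ∀ i, i % 2 = c → i + 1 < l.length → W.f (arcEl l i) = arcEl l (i + 1) := by
  constructor
  · intro h i hi hl
    exact h i _ _ hi (arcEl_some (by omega)) (arcEl_some hl)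
  · intro h i a b hi ha hb
    have hl : i + 1 < l.length := by
      by_contra hc
      rw [List.getElem?_eq_none (by omega)] at hb
      exact absurd hb (by simp)
    rw [arcEl_some (by omega : i < l.length)] at ha
    rw [arcEl_some hl] at hb
    rw [← Option.some.inj ha, ← Option.some.inj hb]
    exact h i hi hl

theorem arcEl_append_left {i : ℕ} (h : i < l₁.length) : arcEl (l₁ ++ l₂) i = arcEl l₁ i := by
  simp [arcEl, List.getElem?_append_left h]

theorem arcEl_append_right {i : ℕ} (h : l₁.length ≤ i) :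
    arcEl (l₁ ++ l₂) i = arcEl l₂ (i - l₁.length) := by
  simp [arcEl, List.getElem?_append_right h]

theorem arcEl_reverse {i : ℕ} (h : i < l.length) :
    arcEl l.reverse i = arcEl l (l.length - 1 - i) := by
  simp [arcEl, List.getElem?_reverse h]

theorem arcEl_dropLast {i : ℕ} (h : i + 1 < l.length) : arcEl l.dropLast i = arcEl l i := by
  have h1 : i < l.length - 1 := by omega
  simp only [arcEl, List.getElem?_dropLast, if_pos h1]

/-- forward partner -/
theorem Par.fwd {c : ℕ} (h : Par W c l) {i : ℕ} (hi : i % 2 = c) (hl : i + 1 < l.length) :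
    W.f (arcEl l i) = arcEl l (i + 1) := arc_par_iff.1 h i hi hl

/-- backward partner -/
theorem Par.bwd {c : ℕ} (h : Par W c l) {i : ℕ} (h0 : 0 < i) (hi : (i - 1) % 2 = c)
    (hl : i < l.length) : W.f (arcEl l i) = arcEl l (i - 1) := by
  have := h.fwd hi (by omega)
  rw [Nat.sub_add_cancel h0] at this
  exact W.eq_iff.1 this

theorem arc_par_append {c : ℕ} (hc : c < 2) : Par W c (l₁ ++ l₂) ↔ Par W c l₁ ∧
    (l₁ ≠ [] → l₂ ≠ [] → (l₁.length - 1) % 2 = c → W.f (lst l₁) = hd l₂) ∧
    Par W ((c + l₁.length) % 2) l₂ := by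
  simp only [arc_par_iff, List.length_append, arc_hd_eq, arc_lst_eq]
  constructor
  · intro h
    refine ⟨fun i hi hl => ?_, fun h1 h2 h3 => ?_, fun i hi hl => ?_⟩
    · have := h i hi (by omega)
      rwa [arcEl_append_left (by omega), arcEl_append_left hl] at this
    · have h1' := List.length_pos_iff.2 h1
      have h2' := List.length_pos_iff.2 h2
      have := h (l₁.length - 1) h3 (by omega)
      rw [arcEl_append_left (by omega), arcEl_append_right (by omega)] at this
      rw [this]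
      congr 1
      omega
    · have := h (l₁.length + i) (by omega) (by omega)
      rw [arcEl_append_right (by omega), arcEl_append_right (by omega)] at this
      rwa [show l₁.length + i - l₁.length = i by omega,
        show l₁.length + i + 1 - l₁.length = i + 1 by omega] at this
  · rintro ⟨h1, h2, h3⟩ i hi hl
    rcases lt_trichotomy (i + 1) l₁.length with h | h | h
    · rw [arcEl_append_left (by omega), arcEl_append_left h]
      exact h1 i hi h
    · rw [arcEl_append_left (by omega), arcEl_append_right (by omega)]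
      have := h2 (List.length_pos_iff.1 (by omega)) (List.length_pos_iff.1 (by omega)) (by omega)
      rw [show l₁.length - 1 = i by omega] at this
      rw [this]
      congr 1
      omega
    · rw [arcEl_append_right (by omega), arcEl_append_right (by omega),
        show i + 1 - l₁.length = i - l₁.length + 1 by omega]
      exact h3 _ (by omega) (by omega)

theorem arc_par_reverse {c c' : ℕ} (h : (c + c' + l.length) % 2 = 0) (hc : c < 2) (hc' : c' < 2) :
    Par W c l.reverse ↔ Par W c' l := by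
  have key : ∀ (l : List V) (c c' : ℕ), (c + c' + l.length) % 2 = 0 → c < 2 → c' < 2 →
      Par W c' l → Par W c l.reverse := by
    intro l c c' h hc hc' hp
    rw [arc_par_iff]
    intro i hi hl
    rw [List.length_reverse] at hl
    rw [arcEl_reverse (by omega), arcEl_reverse hl,
      hp.bwd (by omega) (by omega) (by omega)]
    congr 1
  refine ⟨fun hp => ?_, key l c c' h hc hc'⟩
  have := key l.reverse c' c (by rw [List.length_reverse]; omega) hc' hc hp
  rwa [List.reverse_reverse] at this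

theorem arc_par_singleton {c : ℕ} (a : V) : Par W c [a] := by
  rw [arc_par_iff]
  intro i _ hl
  simp at hl

theorem hd_mem (h : l ≠ []) : hd l ∈ l := by
  rw [arc_hd_eq]; exact arcEl_mem (List.length_pos_iff.2 h)

theorem lst_mem (h : l ≠ []) : lst l ∈ l := by
  have := List.length_pos_iff.2 h
  rw [arc_lst_eq]; exact arcEl_mem (by omega)

theorem hd_append (h : l₁ ≠ []) : hd (l₁ ++ l₂) = hd l₁ := by
  rw [arc_hd_eq, arc_hd_eq, arcEl_append_left (List.length_pos_iff.2 h)]

theorem lst_append (h : l₂ ≠ []) : lst (l₁ ++ l₂) = lst l₂ := by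
  have := List.length_pos_iff.2 h
  rw [arc_lst_eq, arc_lst_eq, List.length_append, arcEl_append_right (by omega)]
  congr 1
  omega

theorem getElem?_hd (h : l ≠ []) : l[0]? = some (hd l) := by
  rw [arc_hd_eq]; exact arcEl_some (List.length_pos_iff.2 h)

theorem getElem?_lst (h : l ≠ []) : l[l.length - 1]? = some (lst l) := by
  have := List.length_pos_iff.2 h
  rw [arc_lst_eq]; exact arcEl_some (by omega)

theorem dropLast_append_lst (h : l ≠ []) : l.dropLast ++ [lst l] = l := by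
  have h1 : lst l = l.getLast h := by simp [lst, List.getLast?_eq_some_getLast h]
  rw [h1]
  exact List.dropLast_append_getLast h

theorem hd_dropLast (h : 2 ≤ l.length) : hd l.dropLast = hd l := by
  rw [arc_hd_eq, arc_hd_eq, arcEl_dropLast (by omega)]

theorem mem_dropLast (hn : l.Nodup) {v : V} : v ∈ l.dropLast ↔ v ∈ l ∧ v ≠ lst l := by
  rw [arc_mem_iff, arc_mem_iff, arc_lst_eq, List.length_dropLast]
  constructor
  · rintro ⟨i, hi, rfl⟩
    rw [arcEl_dropLast (by omega)]
    refine ⟨⟨i, by omega, rfl⟩, fun h => ?_⟩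
    rw [arcEl_inj hn (by omega) (by omega)] at h
    omega
  · rintro ⟨⟨i, hi, rfl⟩, h⟩
    have : i ≠ l.length - 1 := fun h' => h (by rw [h'])
    exact ⟨i, by omega, arcEl_dropLast (by omega)⟩

theorem hd_ne_lst (hn : l.Nodup) (h : 2 ≤ l.length) : hd l ≠ lst l := by
  rw [arc_hd_eq, arc_lst_eq, Ne, arcEl_inj hn (by omega) (by omega)]
  omega

theorem hd_reverse (l : List V) : hd l.reverse = lst l := by
  simp [hd, lst]

theorem lst_reverse (l : List V) : lst l.reverse = hd l := by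
  simp [hd, lst]

theorem pin_append_even (h : Even l₁.length) : Pin W (l₁ ++ l₂) ↔ Pin W l₁ ∧ Pin W l₂ := by
  obtain ⟨k, hk⟩ := h
  rw [Pin, arc_par_append (by omega), show (0 + l₁.length) % 2 = 0 by omega]
  refine ⟨fun h => ⟨h.1, h.2.2⟩, fun h => ⟨h.1, fun h1 _ h3 => ?_, h.2⟩⟩
  have := List.length_pos_iff.2 h1
  omega

theorem pin_append_odd (h : Odd l₁.length) (h₂ : l₂ ≠ []) :
    Pin W (l₁ ++ l₂) ↔ Pin W l₁ ∧ W.f (lst l₁) = hd l₂ ∧ Qin W l₂ := by
  obtain ⟨k, hk⟩ := h
  rw [Pin, arc_par_append (by omega), show (0 + l₁.length) % 2 = 1 by omega]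
  exact ⟨fun h => ⟨h.1, h.2.1 (List.length_pos_iff.1 (by omega)) h₂ (by omega), h.2.2⟩,
    fun h => ⟨h.1, fun _ _ _ => h.2.1, h.2.2⟩⟩

theorem qin_append_even (h : Even l₁.length) (h₁ : l₁ ≠ []) (h₂ : l₂ ≠ []) :
    Qin W (l₁ ++ l₂) ↔ Qin W l₁ ∧ W.f (lst l₁) = hd l₂ ∧ Qin W l₂ := by
  obtain ⟨k, hk⟩ := h
  have := List.length_pos_iff.2 h₁
  rw [Qin, arc_par_append (by omega), show (1 + l₁.length) % 2 = 1 by omega]
  exact ⟨fun h => ⟨h.1, h.2.1 h₁ h₂ (by omega), h.2.2⟩, fun h => ⟨h.1, fun _ _ _ => h.2.1, h.2.2⟩⟩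

theorem qin_append_odd (h : Odd l₁.length) : Qin W (l₁ ++ l₂) ↔ Qin W l₁ ∧ Pin W l₂ := by
  obtain ⟨k, hk⟩ := h
  rw [Qin, arc_par_append (by omega), show (1 + l₁.length) % 2 = 0 by omega]
  refine ⟨fun h => ⟨h.1, h.2.2⟩, fun h => ⟨h.1, fun _ _ h3 => ?_, h.2⟩⟩
  omega

theorem pin_dropLast (h : Even l.length) (h0 : l ≠ []) :
    Pin W l ↔ Pin W l.dropLast ∧ W.f (lst l.dropLast) = lst l := by
  have ho : Odd l.dropLast.length := by
    obtain ⟨k, hk⟩ := h
    have := List.length_pos_iff.2 h0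
    exact ⟨k - 1, by rw [List.length_dropLast]; omega⟩
  conv_lhs => rw [← dropLast_append_lst h0]
  rw [pin_append_odd ho (by simp)]
  have : hd [lst l] = lst l := rfl
  rw [this]
  exact ⟨fun h => ⟨h.1, h.2.1⟩, fun h => ⟨h.1, h.2, arc_par_singleton _⟩⟩

theorem qin_dropLast (h : Even l.length) : Qin W l ↔ Qin W l.dropLast := by
  by_cases h0 : l = []
  · subst h0; rfl
  have ho : Odd l.dropLast.length := by
    obtain ⟨k, hk⟩ := h
    have := List.length_pos_iff.2 h0
    exact ⟨k - 1, by rw [List.length_dropLast]; omega⟩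
  conv_lhs => rw [← dropLast_append_lst h0]
  rw [qin_append_odd ho]
  exact ⟨fun h => h.1, fun h => ⟨h, arc_par_singleton _⟩⟩

theorem odd_dropLast (h : Even l.length) (h0 : l ≠ []) : Odd l.dropLast.length := by
  obtain ⟨k, hk⟩ := h
  have := List.length_pos_iff.2 h0
  exact ⟨k - 1, by rw [List.length_dropLast]; omega⟩

theorem pin_reverse_odd (h : Odd l.length) : Pin W l.reverse ↔ Qin W l := by
  obtain ⟨k, hk⟩ := h
  exact arc_par_reverse (by omega) (by omega) (by omega)

theorem qin_reverse_odd (h : Odd l.length) : Qin W l.reverse ↔ Pin W l := by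
  obtain ⟨k, hk⟩ := h
  exact arc_par_reverse (by omega) (by omega) (by omega)

/-! Which vertices are matched inside the list. -/

theorem pin_mem_even (hp : Pin W l) (h : Even l.length) {v : V} (hv : v ∈ l) : W.f v ∈ l := by
  obtain ⟨k, hk⟩ := h
  obtain ⟨i, hi, rfl⟩ := arc_mem_iff.1 hv
  rcases Nat.mod_two_eq_zero_or_one i with h | h
  · rw [Par.fwd hp h (by omega)]; exact arcEl_mem (by omega)
  · rw [Par.bwd hp (by omega) (by omega) hi]; exact arcEl_mem (by omega)

theorem pin_mem_odd (hn : l.Nodup) (hp : Pin W l) (h : Odd l.length) {v : V} (hv : v ∈ l)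
    (hv' : v ≠ lst l) : W.f v ∈ l ∧ W.f v ≠ lst l := by
  obtain ⟨k, hk⟩ := h
  obtain ⟨i, hi, rfl⟩ := arc_mem_iff.1 hv
  rw [arc_lst_eq] at hv' ⊢
  have h1 : i ≠ l.length - 1 := fun h' => hv' (by rw [h'])
  rcases Nat.mod_two_eq_zero_or_one i with h | h
  · rw [Par.fwd hp h (by omega), Ne, arcEl_inj hn (by omega) (by omega)]
    exact ⟨arcEl_mem (by omega), by omega⟩
  · rw [Par.bwd hp (by omega) (by omega) hi, Ne, arcEl_inj hn (by omega) (by omega)]
    exact ⟨arcEl_mem (by omega), by omega⟩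

theorem pin_lst_notMem (hn : l.Nodup) (hp : Pin W l) (h : Odd l.length) : W.f (lst l) ∉ l := by
  intro hm
  exact (pin_mem_odd hn hp h hm (W.ne _)).2 (W.inv _)

theorem qin_mem_odd (hn : l.Nodup) (hq : Qin W l) (h : Odd l.length) {v : V} (hv : v ∈ l)
    (hv' : v ≠ hd l) : W.f v ∈ l ∧ W.f v ≠ hd l := by
  obtain ⟨k, hk⟩ := h
  obtain ⟨i, hi, rfl⟩ := arc_mem_iff.1 hv
  rw [arc_hd_eq] at hv' ⊢
  have h1 : i ≠ 0 := fun h' => hv' (by rw [h'])
  rcases Nat.mod_two_eq_zero_or_one i with h | h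
  · rw [Par.bwd hq (by omega) (by omega) hi, Ne, arcEl_inj hn (by omega) (by omega)]
    exact ⟨arcEl_mem (by omega), by omega⟩
  · rw [Par.fwd hq h (by omega), Ne, arcEl_inj hn (by omega) (by omega)]
    exact ⟨arcEl_mem (by omega), by omega⟩

theorem qin_hd_notMem (hn : l.Nodup) (hq : Qin W l) (h : Odd l.length) : W.f (hd l) ∉ l := by
  intro hm
  exact (qin_mem_odd hn hq h hm (W.ne _)).2 (W.inv _)

theorem qin_mem_even (hn : l.Nodup) (hq : Qin W l) (h : Even l.length) {v : V} (hv : v ∈ l)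
    (h1 : v ≠ hd l) (h2 : v ≠ lst l) : W.f v ∈ l ∧ W.f v ≠ hd l ∧ W.f v ≠ lst l := by
  obtain ⟨k, hk⟩ := h
  obtain ⟨i, hi, rfl⟩ := arc_mem_iff.1 hv
  rw [arc_hd_eq] at h1 ⊢
  rw [arc_lst_eq] at h2 ⊢
  have h3 : i ≠ 0 := fun h' => h1 (by rw [h'])
  have h4 : i ≠ l.length - 1 := fun h' => h2 (by rw [h'])
  rcases Nat.mod_two_eq_zero_or_one i with h | h
  · rw [Par.bwd hq (by omega) (by omega) hi, Ne, Ne, arcEl_inj hn (by omega) (by omega),
      arcEl_inj hn (by omega) (by omega)]
    exact ⟨arcEl_mem (by omega), by omega, by omega⟩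
  · rw [Par.fwd hq h (by omega), Ne, Ne, arcEl_inj hn (by omega) (by omega),
      arcEl_inj hn (by omega) (by omega)]
    exact ⟨arcEl_mem (by omega), by omega, by omega⟩

/-! `Pin`, `Qin` depend only on the vertices matched inside, and determine their partners. -/

theorem pin_congr_even (hp : Pin W l) (he : ∀ v ∈ l, W'.f v = W.f v) : Pin W' l := by
  rw [Pin, arc_par_iff]
  intro i hi hl
  rw [he _ (arcEl_mem (by omega))]
  exact Par.fwd hp hi hl

theorem pin_congr_odd (hn : l.Nodup) (hp : Pin W l)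
    (he : ∀ v ∈ l, v ≠ lst l → W'.f v = W.f v) : Pin W' l := by
  rw [Pin, arc_par_iff]
  intro i hi hl
  rw [he _ (arcEl_mem (by omega))
    (by rw [arc_lst_eq, Ne, arcEl_inj hn (by omega) (by omega)]; omega)]
  exact Par.fwd hp hi hl

theorem qin_congr_odd (hn : l.Nodup) (hq : Qin W l)
    (he : ∀ v ∈ l, v ≠ hd l → W'.f v = W.f v) : Qin W' l := by
  rw [Qin, arc_par_iff]
  intro i hi hl
  rw [he _ (arcEl_mem (by omega))
    (by rw [arc_hd_eq, Ne, arcEl_inj hn (by omega) (by omega)]; omega)]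
  exact Par.fwd hq hi hl

theorem qin_congr_even (hn : l.Nodup) (hq : Qin W l)
    (he : ∀ v ∈ l, v ≠ hd l → v ≠ lst l → W'.f v = W.f v) : Qin W' l := by
  rw [Qin, arc_par_iff]
  intro i hi hl
  rw [he _ (arcEl_mem (by omega))
    (by rw [arc_hd_eq, Ne, arcEl_inj hn (by omega) (by omega)]; omega)
    (by rw [arc_lst_eq, Ne, arcEl_inj hn (by omega) (by omega)]; omega)]
  exact Par.fwd hq hi hl

theorem pin_eq_even (hp : Pin W l) (hp' : Pin W' l) (h : Even l.length) {v : V} (hv : v ∈ l) :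
    W.f v = W'.f v := by
  obtain ⟨k, hk⟩ := h
  obtain ⟨i, hi, rfl⟩ := arc_mem_iff.1 hv
  rcases Nat.mod_two_eq_zero_or_one i with h | h
  · rw [Par.fwd hp h (by omega), Par.fwd hp' h (by omega)]
  · rw [Par.bwd hp (by omega) (by omega) hi, Par.bwd hp' (by omega) (by omega) hi]

theorem pin_eq_odd (hp : Pin W l) (hp' : Pin W' l) (h : Odd l.length) {v : V} (hv : v ∈ l)
    (hv' : v ≠ lst l) : W.f v = W'.f v := by
  obtain ⟨k, hk⟩ := h
  obtain ⟨i, hi, rfl⟩ := arc_mem_iff.1 hv
  rw [arc_lst_eq] at hv'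
  have h1 : i ≠ l.length - 1 := fun h' => hv' (by rw [h'])
  rcases Nat.mod_two_eq_zero_or_one i with h | h
  · rw [Par.fwd hp h (by omega), Par.fwd hp' h (by omega)]
  · rw [Par.bwd hp (by omega) (by omega) hi, Par.bwd hp' (by omega) (by omega) hi]

theorem qin_eq_odd (hq : Qin W l) (hq' : Qin W' l) (h : Odd l.length) {v : V} (hv : v ∈ l)
    (hv' : v ≠ hd l) : W.f v = W'.f v := by
  obtain ⟨k, hk⟩ := h
  obtain ⟨i, hi, rfl⟩ := arc_mem_iff.1 hv
  rw [arc_hd_eq] at hv'
  have h1 : i ≠ 0 := fun h' => hv' (by rw [h'])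
  rcases Nat.mod_two_eq_zero_or_one i with h | h
  · rw [Par.bwd hq (by omega) (by omega) hi, Par.bwd hq' (by omega) (by omega) hi]
  · rw [Par.fwd hq h (by omega), Par.fwd hq' h (by omega)]

theorem qin_eq_even (hq : Qin W l) (hq' : Qin W' l) (h : Even l.length) {v : V} (hv : v ∈ l)
    (h1 : v ≠ hd l) (h2 : v ≠ lst l) : W.f v = W'.f v := by
  obtain ⟨k, hk⟩ := h
  obtain ⟨i, hi, rfl⟩ := arc_mem_iff.1 hv
  rw [arc_hd_eq] at h1
  rw [arc_lst_eq] at h2
  have h3 : i ≠ 0 := fun h' => h1 (by rw [h'])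
  have h4 : i ≠ l.length - 1 := fun h' => h2 (by rw [h'])
  rcases Nat.mod_two_eq_zero_or_one i with h | h
  · rw [Par.bwd hq (by omega) (by omega) hi, Par.bwd hq' (by omega) (by omega) hi]
  · rw [Par.fwd hq h (by omega), Par.fwd hq' h (by omega)]

end Crest.Agent.R304
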