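import Mathlib

/-!
# R304/BAna: second differences, entropy inequalities, a trace bound for a rank
-/

set_option autoImplicit false

namespace Crest.Agent.R304

open Finset Module Filter Topology Real
open scoped RealInnerProductSpace

theorem second_diff {f f' : ℝ → ℝ} {y f'' : ℝ} (h1 : ∀ᶠ z in 𝓝 y, HasDerivAt f (f' z) z)
    (h2 : HasDerivAt f' f'' y) (h : ℝ) :
    Tendsto (fun t => (f (y + t * h) + f (y - t * h) - 2 * f y) / t ^ 2) (𝓝[>] 0)
      (𝓝 (f'' * h ^ 2)) := by
  have c1 : Tendsto (fun t : ℝ => y + t * h) (𝓝 0) (𝓝 y) :=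
    Continuous.tendsto' (by fun_prop) _ _ (by simp)
  have c2 : Tendsto (fun t : ℝ => y - t * h) (𝓝 0) (𝓝 y) :=
    Continuous.tendsto' (by fun_prop) _ _ (by simp)
  have d1 : ∀ t : ℝ, HasDerivAt (fun t : ℝ => y + t * h) h t := fun t => by
    simpa using ((hasDerivAt_id t).mul_const h).const_add y
  have d2 : ∀ t : ℝ, HasDerivAt (fun t : ℝ => y - t * h) (-h) t := fun t => by
    simpa using ((hasDerivAt_id t).mul_const h).const_sub y
  have hF : ∀ᶠ t : ℝ in 𝓝 0, HasDerivAt (fun t => f (y + t * h) + f (y - t * h) - 2 * f y)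
      (f' (y + t * h) * h + f' (y - t * h) * (-h)) t := by
    filter_upwards [c1.eventually h1, c2.eventually h1] with t a1 a2
    exact ((a1.comp t (d1 t)).add (a2.comp t (d2 t))).sub_const _
  have hK : HasDerivAt (fun t => f' (y + t * h) * h + f' (y - t * h) * (-h))
      (f'' * h * h + f'' * (-h) * (-h)) 0 := by
    have a1 : HasDerivAt f' f'' (y + 0 * h) := by simpa using h2
    have a2 : HasDerivAt f' f'' (y - 0 * h) := by simpa using h2
    exact ((a1.comp 0 (d1 0)).mul_const h).add ((a2.comp 0 (d2 0)).mul_const (-h))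
  refine HasDerivAt.lhopital_zero_nhdsGT (hF.filter_mono nhdsWithin_le_nhds)
    (g' := fun t => 2 * t) (Eventually.of_forall fun t => by simpa using hasDerivAt_pow 2 t)
    (eventually_mem_nhdsWithin.mono fun t (ht : 0 < t) => by positivity) ?_ ?_ ?_
  · have := hF.self_of_nhds.continuousAt.tendsto
    simp only [zero_mul, add_zero, sub_zero, ← two_mul, sub_self] at this
    exact this.mono_left nhdsWithin_le_nhds
  · exact (Continuous.tendsto' (by fun_prop) _ _ (by simp)).mono_left nhdsWithin_le_nhds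
  · have := hK.tendsto_slope_zero_right.div_const 2
    convert this using 2 with t
    · simp only [zero_add, zero_mul, add_zero, sub_zero, smul_eq_mul]
      ring
    · ring

theorem second_diff_exp (u : ℝ) :
    Tendsto (fun t => (exp (t * u) + exp (-t * u) - 2) / t ^ 2) (𝓝[>] 0) (𝓝 (u ^ 2)) := by
  simpa using second_diff (f := exp) (f' := exp) (y := 0)
    (Eventually.of_forall hasDerivAt_exp) (hasDerivAt_exp 0) u

theorem second_diff_nml {y h : ℝ} (hy : y = 0 → h = 0) :
    Tendsto (fun t => (negMulLog (y + t * h) + negMulLog (y - t * h) - 2 * negMulLog y) / t ^ 2)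
      (𝓝[>] 0) (𝓝 (-y⁻¹ * h ^ 2)) := by
  by_cases h0 : y = 0
  · simp [h0, hy h0]
  · exact second_diff (f' := fun z => -log z - 1)
      ((eventually_ne_nhds h0).mono fun z hz => hasDerivAt_negMulLog hz)
      ((hasDerivAt_log h0).neg.sub_const 1) h

/-- Termwise Gibbs inequality against the weight `p * exp z`. -/
theorem gibbs_term {p q z : ℝ} (hp : 0 ≤ p) (hq : 0 ≤ q) (h : p = 0 → q = 0) :
    negMulLog q ≤ -(q * log p) - q * z + p * exp z - q := by
  rcases hq.eq_or_lt with rfl | hq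
  · simp only [negMulLog_zero, zero_mul, neg_zero, sub_zero, zero_add]
    positivity
  have hp' : 0 < p := lt_of_le_of_ne hp fun h0 => hq.ne' (h h0.symm)
  have h1 := log_le_sub_one_of_pos (x := p * exp z / q) (by positivity)
  rw [log_div (by positivity) hq.ne', log_mul hp'.ne' (exp_pos z).ne', log_exp] at h1
  have h2 := mul_le_mul_of_nonneg_left h1 hq.le
  have h3 : q * (p * exp z / q - 1) = p * exp z - q := by field_simp
  rw [h3] at h2
  rw [negMulLog]
  linarith

/-- Termwise lower bound for the entropy after a small move. -/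
theorem move_term {q α β t : ℝ} (ht : 0 < t) (hq : 0 ≤ q) (hβ : 0 ≤ β) (hβ1 : β ≤ 1)
    (h0 : q = 0 → α = 0) (h1 : q ≠ 0 → 0 < q + t * (β - α)) :
    negMulLog q + t * (-((β - α) * log q) - (β - α) - t * ((β - α) ^ 2 / q) +
      (-log t) * if q = 0 then β else 0) ≤ negMulLog (q + t * (β - α)) := by
  by_cases hq0 : q = 0
  · rw [h0 hq0, hq0, if_pos rfl, zero_add, sub_zero, negMulLog_mul]
    have := negMulLog_nonneg hβ hβ1
    simp only [negMulLog_zero, log_zero, mul_zero, div_zero]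
    rw [show negMulLog t = -t * log t from rfl]
    nlinarith [mul_nonneg ht.le hβ, mul_nonneg ht.le this]
  · have hq' : 0 < q := lt_of_le_of_ne hq (Ne.symm hq0)
    have hy := h1 hq0
    have h2 := log_le_sub_one_of_pos (div_pos hy hq')
    rw [log_div hy.ne' hq0] at h2
    have h3 := mul_le_mul_of_nonneg_left h2 hy.le
    have h4 : (q + t * (β - α)) * ((q + t * (β - α)) / q - 1) =
        t * (β - α) + t * (t * ((β - α) ^ 2 / q)) := by field_simp; ring
    rw [h4] at h3
    rw [if_neg hq0, negMulLog, negMulLog]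
    linarith

theorem la_abs {H E : Type} [NormedAddCommGroup H] [InnerProductSpace ℝ H] [FiniteDimensional ℝ H]
    [Fintype E] (f : E → H) (w : E → ℝ)
    (h : ∀ a : E → ℝ, ‖∑ e, a e • f e‖ ^ 2 ≤ ∑ e, w e * ⟪f e, ∑ e', a e' • f e'⟫ ^ 2)
    (D : Submodule ℝ (E → ℝ)) (hD : ∀ d ∈ D, ∃ v, ∀ e, d e = ⟪f e, v⟫) :
    (finrank ℝ D : ℝ) ≤ ∑ e, w e * ‖f e‖ ^ 2 := by
  set U := Submodule.span ℝ (Set.range f)
  let b := stdOrthonormalBasis ℝ U
  have hf : ∀ e, f e ∈ U := fun e => Submodule.subset_span ⟨e, rfl⟩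
  have h1 : ∀ i, 1 ≤ ∑ e, w e * ⟪f e, (b i : H)⟫ ^ 2 := fun i => by
    obtain ⟨a, ha⟩ := (Submodule.mem_span_range_iff_exists_fun ℝ).1 (b i).2
    have := h a
    rwa [ha, Submodule.norm_coe, b.orthonormal.1 i, one_pow] at this
  have h2 : ∀ e, ∑ i, ⟪f e, (b i : H)⟫ ^ 2 = ‖f e‖ ^ 2 := fun e =>
    b.sum_sq_inner_left ⟨f e, hf e⟩
  have h3 : D ≤ Submodule.span ℝ (Set.range fun i e => ⟪f e, (b i : H)⟫) := fun d hd => by
    obtain ⟨v, hv⟩ := hD d hd
    refine (Submodule.mem_span_range_iff_exists_fun ℝ).2 ⟨fun i => ⟪(b i : H), v⟫, ?_⟩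
    funext e
    have e1 : f e = ∑ i, ⟪f e, (b i : H)⟫ • (b i : H) := by
      have := congrArg Subtype.val (b.sum_repr' ⟨f e, hf e⟩)
      rw [AddSubmonoidClass.coe_finsetSum] at this
      refine this.symm.trans (sum_congr rfl fun i _ => ?_)
      rw [real_inner_comm]
      rfl
    rw [hv, Finset.sum_apply]
    conv_rhs => rw [e1, sum_inner]
    refine sum_congr rfl fun i _ => ?_
    rw [real_inner_smul_left, Pi.smul_apply, smul_eq_mul, mul_comm]
  have h4 : finrank ℝ D ≤ Fintype.card (Fin (finrank ℝ U)) :=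
    (Submodule.finrank_mono h3).trans (finrank_range_le_card _)
  calc (finrank ℝ D : ℝ) ≤ ∑ _i : Fin (finrank ℝ U), (1 : ℝ) := by
        rw [sum_const, card_univ, nsmul_eq_mul, mul_one]
        exact_mod_cast h4
    _ ≤ ∑ i, ∑ e, w e * ⟪f e, (b i : H)⟫ ^ 2 := sum_le_sum fun i _ => h1 i
    _ = _ := by
        rw [sum_comm]
        exact sum_congr rfl fun e _ => by rw [← mul_sum, h2]

theorem la_bound {Ω E : Type} [Fintype Ω] [Fintype E] (f : E → Ω → ℝ) (w : E → ℝ)
    (h : ∀ a : E → ℝ, ∑ M, (∑ e, a e * f e M) ^ 2 ≤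
      ∑ e, w e * (∑ M, f e M * ∑ e', a e' * f e' M) ^ 2)
    (D : Submodule ℝ (E → ℝ)) (hD : ∀ d ∈ D, ∃ v : Ω → ℝ, ∀ e, d e = ∑ M, f e M * v M) :
    (finrank ℝ D : ℝ) ≤ ∑ e, w e * ∑ M, f e M ^ 2 := by
  have := la_abs (H := EuclideanSpace ℝ Ω) (fun e => WithLp.toLp 2 (f e)) w (fun a => by
    simpa [EuclideanSpace.real_norm_sq_eq, PiLp.inner_apply, mul_comm] using h a) D
    fun d hd => by
      obtain ⟨v, hv⟩ := hD d hd
      exact ⟨WithLp.toLp 2 v, fun e => by simp [hv, PiLp.inner_apply, mul_comm]⟩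
  simpa [EuclideanSpace.real_norm_sq_eq] using this

end Crest.Agent.R304
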