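import Mathlib

/-!
# R304/BDefs: odd cuts, uncrossing, contraction

A multigraph is given by two endpoint maps `a b : E → V`; only the edges with `x e ≠ 0` count, and
they live on the vertex set `W`.  `Q W a b x` is Edmonds' system of inequalities.
-/

set_option autoImplicit false

namespace Crest.Agent.R304

open Finset

variable {V E : Type} [DecidableEq V]

/-- Indicator that the edge `e` crosses `S`. -/
noncomputable def chi (a b : E → V) (S : Finset V) (e : E) : ℝ :=
  if a e ∈ S ↔ b e ∈ S then 0 else 1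

/-- The weights of the edges that cross `S`. -/
noncomputable def cv (a b : E → V) (x : E → ℝ) (S : Finset V) : E → ℝ :=
  fun e => chi a b S e * x e

/-- Edmonds' system. -/
structure Q [Fintype E] (W : Finset V) (a b : E → V) (x : E → ℝ) : Prop where
  nonneg : ∀ e, 0 ≤ x e
  ends : ∀ e, x e ≠ 0 → a e ∈ W ∧ b e ∈ W
  ne : ∀ e, x e ≠ 0 → a e ≠ b e
  star : ∀ v ∈ W, ∑ e, cv a b x {v} e = 1
  odd : ∀ S ⊆ W, Odd S.card → 1 ≤ ∑ e, cv a b x S e

/-- A tight odd cut. -/
structure Tight [Fintype E] (W : Finset V) (a b : E → V) (x : E → ℝ) (S : Finset V) : Prop where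
  sub : S ⊆ W
  odd : Odd S.card
  val : ∑ e, cv a b x S e = 1

variable {a b : E → V} {W S T : Finset V} {x : E → ℝ}

theorem chi_nonneg (a b : E → V) (S : Finset V) (e : E) : 0 ≤ chi a b S e := by
  unfold chi; split_ifs <;> norm_num

theorem chi_eq_one {e : E} (h : chi a b S e ≠ 0) : chi a b S e = 1 := by
  unfold chi at h ⊢; split_ifs at h ⊢ <;> simp_all

theorem chi_ne_zero {e : E} : chi a b S e ≠ 0 ↔ ¬(a e ∈ S ↔ b e ∈ S) := by
  unfold chi; split_ifs <;> simp_all

theorem chi_compl {e : E} (ha : a e ∈ W) (hb : b e ∈ W) (S : Finset V) :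
    chi a b (W \ S) e = chi a b S e := by
  unfold chi
  by_cases h1 : a e ∈ S <;> by_cases h2 : b e ∈ S <;> simp [*]

theorem cv_compl (h : ∀ e, x e ≠ 0 → a e ∈ W ∧ b e ∈ W) (S : Finset V) :
    cv a b x (W \ S) = cv a b x S := by
  funext e
  by_cases h0 : x e = 0
  · simp [cv, h0]
  · rw [cv, cv, chi_compl (h e h0).1 (h e h0).2]

theorem chi_single {e : E} (h : a e ≠ b e) (v : V) :
    chi a b {v} e = (if a e = v then 1 else 0) + if b e = v then 1 else 0 := by
  unfold chi
  by_cases h1 : a e = v <;> by_cases h2 : b e = v <;> simp_all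

theorem sum_chi_single {e : E} (h : a e ≠ b e) (S : Finset V) :
    ∑ v ∈ S, chi a b {v} e = (if a e ∈ S then 1 else 0) + if b e ∈ S then 1 else 0 := by
  simp only [chi_single h, sum_add_distrib, sum_ite_eq]

/-- A set that is perfectly matched by `M` and not crossed by `M` is even. -/
theorem even_of_matched {M : Finset E} (hne : ∀ e ∈ M, a e ≠ b e)
    (h1 : ∀ v ∈ S, ∑ e ∈ M, chi a b {v} e = 1) (h2 : ∀ e ∈ M, chi a b S e = 0) : Even S.card := by
  have h : (S.card : ℝ) = ((M.filter fun e => a e ∈ S).card + (M.filter fun e => a e ∈ S).card : ℕ) := by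
    rw [card_eq_sum_ones S, Nat.cast_sum, Nat.cast_one, ← sum_congr rfl h1, sum_comm, Nat.cast_add,
      ← sum_boole, ← sum_add_distrib]
    refine sum_congr rfl fun e he => ?_
    have h3 : a e ∈ S ↔ b e ∈ S := by
      by_contra h3
      exact chi_ne_zero.2 h3 (h2 e he)
    rw [sum_chi_single (hne e he)]
    simp only [h3]
  exact ⟨_, Nat.cast_injective h⟩

variable [Fintype E]

theorem Q.cv_nonneg (h : Q W a b x) (S : Finset V) (e : E) : 0 ≤ cv a b x S e :=
  mul_nonneg (chi_nonneg _ _ _ _) (h.nonneg e)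

theorem Q.even (h : Q W a b x) : Even W.card := by
  by_contra h1
  have h2 := h.odd W Subset.rfl (Nat.not_even_iff_odd.1 h1)
  rw [← cv_compl h.ends W] at h2
  simp [cv, chi] at h2
  linarith

/-- Double counting. -/
theorem Q.two_sum (h : Q W a b x) : 2 * ∑ e, x e = W.card := by
  rw [card_eq_sum_ones W, Nat.cast_sum, Nat.cast_one, ← sum_congr rfl h.star, sum_comm, mul_sum]
  refine sum_congr rfl fun e _ => ?_
  by_cases h0 : x e = 0
  · simp [cv, h0]
  · simp only [cv]
    rw [← sum_mul, sum_chi_single (h.ne e h0), if_pos (h.ends e h0).1, if_pos (h.ends e h0).2]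
    ring

theorem Q.tight_single (h : Q W a b x) {v : V} (hv : v ∈ W) : Tight W a b x {v} :=
  ⟨singleton_subset_iff.2 hv, by simp, h.star v hv⟩

theorem Q.le_one (h : Q W a b x) (e : E) : x e ≤ 1 := by
  by_cases h0 : x e = 0
  · rw [h0]; norm_num
  have h1 := single_le_sum (fun f _ => h.cv_nonneg {a e} f) (mem_univ e)
  rw [h.star _ (h.ends e h0).1, cv, chi_single (h.ne e h0), if_pos rfl,
    if_neg (h.ne e h0).symm] at h1
  linarith

theorem Tight.compl (hT : Tight W a b x T) (h : Q W a b x) : Tight W a b x (W \ T) := by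
  refine ⟨sdiff_subset, ?_, by rw [cv_compl h.ends, hT.val]⟩
  have h1 := card_sdiff_add_card_eq_card hT.sub
  have h2 := h.even
  have h3 := hT.odd
  rw [Nat.odd_iff] at h3 ⊢
  rw [Nat.even_iff] at h2
  omega

theorem Tight.cv_ne_zero (hT : Tight W a b x T) : cv a b x T ≠ 0 := fun h0 => by
  have := hT.val
  rw [h0] at this
  simp at this

theorem Q.uncross (h : Q W a b x) (hS : Tight W a b x S) (hT : Tight W a b x T)
    (ho : Odd (S ∩ T).card) : Tight W a b x (S ∩ T) ∧ Tight W a b x (S ∪ T) ∧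
      cv a b x T + cv a b x S = cv a b x (S ∩ T) + cv a b x (S ∪ T) := by
  have ho' : Odd (S ∪ T).card := by
    have h1 := card_union_add_card_inter S T
    have h2 := hS.odd
    have h3 := hT.odd
    rw [Nat.odd_iff] at *
    omega
  have hi : S ∩ T ⊆ W := inter_subset_left.trans hS.sub
  have hu : S ∪ T ⊆ W := union_subset hS.sub hT.sub
  have hle : ∀ e ∈ (univ : Finset E), cv a b x (S ∩ T) e + cv a b x (S ∪ T) e ≤
      cv a b x T e + cv a b x S e := fun e _ => by
    simp only [cv, ← add_mul]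
    refine mul_le_mul_of_nonneg_right ?_ (h.nonneg e)
    unfold chi
    by_cases h1 : a e ∈ S <;> by_cases h2 : b e ∈ S <;> by_cases h3 : a e ∈ T <;>
      by_cases h4 : b e ∈ T <;> simp [*]
  have h1 := h.odd _ hi ho
  have h2 := h.odd _ hu ho'
  have h3 := sum_le_sum hle
  have h4 : ∑ e, (cv a b x T e + cv a b x S e) = 2 := by
    rw [sum_add_distrib, hS.val, hT.val]; norm_num
  have h5 := sum_add_distrib (s := univ) (f := cv a b x (S ∩ T)) (g := cv a b x (S ∪ T))
  refine ⟨⟨hi, ho, by linarith⟩, ⟨hu, ho', by linarith⟩, funext fun e => ?_⟩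
  exact ((sum_eq_sum_iff_of_le hle).1 (by linarith) e (mem_univ e)).symm

/-- Every tight cut is a combination of tight cuts on the two sides of a tight cut `S`. -/
theorem Q.split (h : Q W a b x) (hS : Tight W a b x S) (hT : Tight W a b x T) :
    ∃ T₁ ⊆ S, ∃ T₂ ⊆ W \ S, Tight W a b x T₁ ∧ Tight W a b x T₂ ∧
      cv a b x T + cv a b x S = cv a b x T₁ + cv a b x T₂ := by
  have key : ∀ T, Tight W a b x T → Odd (S ∩ T).card → ∃ T₁ ⊆ S, ∃ T₂ ⊆ W \ S,
      Tight W a b x T₁ ∧ Tight W a b x T₂ ∧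
        cv a b x T + cv a b x S = cv a b x T₁ + cv a b x T₂ := fun T hT ho => by
    obtain ⟨h1, h2, h3⟩ := h.uncross hS hT ho
    exact ⟨S ∩ T, inter_subset_left, W \ (S ∪ T), sdiff_subset_sdiff Subset.rfl subset_union_left,
      h1, h2.compl h, by rw [cv_compl h.ends, h3]⟩
  by_cases ho : Odd (S ∩ T).card
  · exact key T hT ho
  · rw [← cv_compl h.ends T]
    refine key _ (hT.compl h) ?_
    have h1 : S ∩ (W \ T) = S \ T := by
      ext v
      simp only [mem_inter, mem_sdiff]
      exact ⟨fun hv => ⟨hv.1, hv.2.2⟩, fun hv => ⟨hv.1, hS.sub hv.1, hv.2⟩⟩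
    have h2 := card_sdiff_add_card_inter S T
    have h3 := hS.odd
    rw [h1]
    rw [Nat.odd_iff] at *
    omega

/-- Contraction of a tight set to one of its points. -/
theorem Q.contract (h : Q W a b x) (hS : Tight W a b x S) :
    ∃ (W' : Finset V) (a' b' : E → V) (x' : E → ℝ), Q W' a' b' x' ∧ W'.Nonempty ∧
      W'.card + S.card = W.card + 1 ∧ (∀ e, x' e = if a e ∈ S ∧ b e ∈ S then 0 else x e) ∧
      ∀ T ⊆ W \ S, chi a' b' T = chi a b T ∧ cv a' b' x' T = cv a b x T ∧
        (Tight W a b x T → Tight W' a' b' x' T) := by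
  obtain ⟨s, hs⟩ : S.Nonempty := card_pos.1 hS.odd.pos
  set q : V → V := fun v => if v ∈ S then s else v with hq
  set x' : E → ℝ := fun e => if a e ∈ S ∧ b e ∈ S then 0 else x e with hx'
  set W' := insert s (W \ S) with hW'
  have hsW : s ∉ W \ S := fun h' => (mem_sdiff.1 h').2 hs
  have hqT : ∀ T ⊆ W \ S, ∀ v, q v ∈ T ↔ v ∈ T := fun T hT v => by
    by_cases hv : v ∈ S
    · simp only [hq, if_pos hv]
      exact iff_of_false (fun h' => hsW (hT h')) fun h' => (mem_sdiff.1 (hT h')).2 hv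
    · simp only [hq, if_neg hv]
  have hchi : ∀ T ⊆ W \ S, chi (q ∘ a) (q ∘ b) T = chi a b T := fun T hT => by
    funext e
    simp only [chi, Function.comp_apply, hqT T hT]
  have hcv : ∀ T ⊆ W \ S, cv (q ∘ a) (q ∘ b) x' T = cv a b x T := fun T hT => by
    funext e
    rw [cv, cv, hchi T hT]
    by_cases he : a e ∈ S ∧ b e ∈ S
    · have : chi a b T e = 0 := if_pos (iff_of_false (fun h' => (mem_sdiff.1 (hT h')).2 he.1)
        fun h' => (mem_sdiff.1 (hT h')).2 he.2)
      rw [this, zero_mul, zero_mul]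
    · simp only [hx', if_neg he]
  have hx0 : ∀ e, x' e ≠ 0 → ¬(a e ∈ S ∧ b e ∈ S) ∧ x e ≠ 0 := fun e he => by
    by_cases h' : a e ∈ S ∧ b e ∈ S
    · exact absurd (if_pos h') he
    · exact ⟨h', fun h0 => he ((if_neg h').trans h0)⟩
  have hqW : ∀ v ∈ W, q v ∈ W' := fun v hv => by
    by_cases h' : v ∈ S
    · simp only [hq, if_pos h']; exact mem_insert_self _ _
    · simp only [hq, if_neg h']; exact mem_insert_of_mem (mem_sdiff.2 ⟨hv, h'⟩)
  have hends : ∀ e, x' e ≠ 0 → (q ∘ a) e ∈ W' ∧ (q ∘ b) e ∈ W' := fun e he =>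
    ⟨hqW _ (h.ends e (hx0 e he).2).1, hqW _ (h.ends e (hx0 e he).2).2⟩
  have hcard : W'.card + S.card = W.card + 1 := by
    have := card_sdiff_add_card_eq_card hS.sub
    rw [hW', card_insert_of_notMem hsW]
    omega
  have hsub : ∀ T ⊆ W', s ∉ T → T ⊆ W \ S := fun T hT hsT v hv =>
    (mem_insert.1 (hT hv)).resolve_left fun h' => hsT (h' ▸ hv)
  refine ⟨W', q ∘ a, q ∘ b, x', ⟨fun e => ?_, hends, fun e he => ?_, fun v hv => ?_,
    fun T hT ho => ?_⟩, insert_nonempty _ _, hcard, fun _ => rfl, fun T hT =>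
      ⟨hchi T hT, hcv T hT, fun ht => ⟨hT.trans (subset_insert _ _), ht.odd, by
        rw [hcv T hT, ht.val]⟩⟩⟩
  · simp only [hx']
    split_ifs
    exacts [le_rfl, h.nonneg e]
  · obtain ⟨h1, h2⟩ := hx0 e he
    have h3 := h.ne e h2
    simp only [Function.comp_apply, hq]
    by_cases ha : a e ∈ S <;> by_cases hb : b e ∈ S
    · exact absurd ⟨ha, hb⟩ h1
    · rw [if_pos ha, if_neg hb]; exact fun h' => hb (h' ▸ hs)
    · rw [if_neg ha, if_pos hb]; exact fun h' => ha (h' ▸ hs)
    · rwa [if_neg ha, if_neg hb]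
  · rcases mem_insert.1 hv with rfl | hv'
    · rw [← cv_compl hends, hcv _ (hsub _ sdiff_subset (by simp)), hW',
        insert_sdiff_of_mem _ (mem_singleton_self _), sdiff_singleton_eq_erase,
        erase_eq_of_notMem hsW, (hS.compl h).val]
    · rw [hcv _ (singleton_subset_iff.2 hv'), h.star v (mem_sdiff.1 hv').1]
  · by_cases hsT : s ∈ T
    · have h1 : W' \ T ⊆ W \ S := hsub _ sdiff_subset fun h' => (mem_sdiff.1 h').2 hsT
      rw [← cv_compl hends, hcv _ h1]
      refine h.odd _ (h1.trans sdiff_subset) ?_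
      have h2 := card_sdiff_add_card_eq_card hT
      have h3 := h.even
      have h4 := hS.odd
      rw [Nat.even_iff] at h3
      rw [Nat.odd_iff] at *
      omega
    · rw [hcv _ (hsub T hT hsT)]
      exact h.odd _ ((hsub T hT hsT).trans sdiff_subset) ho

/-- Without nontrivial tight cuts every tight cut is a star. -/
theorem Q.trivial_tight (h : Q W a b x)
    (hno : ¬∃ S, Tight W a b x S ∧ 3 ≤ S.card ∧ 3 ≤ (W \ S).card) (hT : Tight W a b x T) :
    ∃ v ∈ W, cv a b x T = cv a b x {v} := by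
  have key : ∀ T, Tight W a b x T → T.card < 3 → ∃ v ∈ W, cv a b x T = cv a b x {v} :=
    fun T hT h3 => by
      have h1 := hT.odd
      rw [Nat.odd_iff] at h1
      obtain ⟨v, rfl⟩ := card_eq_one.1 (show T.card = 1 by omega)
      exact ⟨v, singleton_subset_iff.1 hT.sub, rfl⟩
  by_cases h3 : T.card < 3
  · exact key T hT h3
  · rw [← cv_compl h.ends T]
    refine key _ (hT.compl h) ?_
    by_contra h4
    exact hno ⟨T, hT, by omega, by omega⟩

end Crest.Agent.R304
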