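import Crest.Agent.R304.BPoly
import Crest.Agent.R304.BAna

/-!
# R304/BEnt: the closed exponential family of laws on perfect matchings, the entropy bound
-/

set_option autoImplicit false

namespace Crest.Agent.R304

open Finset Module Filter Topology Real Crest.Matchings

variable {v k : ℕ} {ends : Fin k → Fin v × Fin v} {p q α β : Finset (Fin k) → ℝ}

theorem law_le_one (hp : IsMatchingLaw ends p) (M : Finset (Fin k)) : p M ≤ 1 :=
  (single_le_sum (fun N _ => hp.1 N) (mem_univ M)).trans_eq hp.2.1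

theorem continuous_marginal (e : Fin k) :
    Continuous fun p : Finset (Fin k) → ℝ => marginal p e := by
  unfold marginal
  fun_prop

theorem continuous_lawEntropy : Continuous (lawEntropy (k := k)) := by
  unfold lawEntropy
  fun_prop

theorem isCompact_law : IsCompact {p | IsMatchingLaw ends p} := by
  refine (isCompact_Icc (a := (0 : Finset (Fin k) → ℝ)) (b := 1)).of_isClosed_subset ?_
    fun p hp => ⟨hp.1, law_le_one hp⟩
  have : {p | IsMatchingLaw ends p} = (⋂ M, {p : Finset (Fin k) → ℝ | 0 ≤ p M}) ∩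
      ({p | ∑ M, p M = 1} ∩ ⋂ M : {M // ¬IsPerfectMatching ends M}, {p | p M.1 = 0}) := by
    ext p
    simp only [Set.mem_inter_iff, Set.mem_iInter]
    exact ⟨fun h => ⟨h.1, h.2.1, fun M => by_contra fun h' => M.2 (h.2.2 M h')⟩,
      fun h => ⟨h.1, h.2.1, fun M hM => by_contra fun h' => hM (h.2.2 ⟨M, h'⟩)⟩⟩
  rw [this]
  exact (isClosed_iInter fun M => isClosed_le continuous_const (continuous_apply M)).inter
    ((isClosed_eq (by fun_prop) continuous_const).inter
      (isClosed_iInter fun M => isClosed_eq (continuous_apply _) continuous_const))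

/-- The closed exponential family. -/
def EE (ends : Fin k → Fin v × Fin v) : Set (Finset (Fin k) → ℝ) :=
  {p | IsMatchingLaw ends p ∧ ∀ α β, IsMatchingLaw ends α → IsMatchingLaw ends β →
    marginal α = marginal β → ∏ M, p M ^ α M = ∏ M, p M ^ β M}

theorem isCompact_EE : IsCompact (EE ends) := by
  have hc : ∀ α : Finset (Fin k) → ℝ, IsMatchingLaw ends α →
      Continuous fun p : Finset (Fin k) → ℝ => ∏ M, p M ^ α M := fun α hα =>
    continuous_finsetProd _ fun M _ => (continuous_apply M).rpow_const fun _ => Or.inr (hα.1 M)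
  have : EE ends = {p | IsMatchingLaw ends p} ∩ ⋂ α, ⋂ β, ⋂ (_ : IsMatchingLaw ends α),
      ⋂ (_ : IsMatchingLaw ends β), ⋂ (_ : marginal α = marginal β),
        {p | ∏ M, p M ^ α M = ∏ M, p M ^ β M} := by
    ext p
    simp only [Set.mem_inter_iff, Set.mem_iInter]
    rfl
  rw [this]
  exact isCompact_law.inter_right (isClosed_iInter fun α => isClosed_iInter fun β =>
    isClosed_iInter fun hα => isClosed_iInter fun hβ => isClosed_iInter fun _ =>
      isClosed_eq (hc α hα) (hc β hβ))

theorem prod_rpow_eq (hp : ∀ M, 0 ≤ p M) (hs : ∀ M, p M = 0 → α M = 0) :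
    ∏ M, p M ^ α M = exp (∑ M, α M * log (p M)) := by
  rw [exp_sum]
  refine prod_congr rfl fun M _ => ?_
  by_cases h0 : p M = 0
  · simp [hs M h0]
  · rw [rpow_def_of_pos (lt_of_le_of_ne (hp M) (Ne.symm h0)), mul_comm]

theorem prod_rpow_zero (hs : ¬∀ M, p M = 0 → α M = 0) : ∏ M, p M ^ α M = 0 := by
  push Not at hs
  obtain ⟨M, h1, h2⟩ := hs
  exact prod_eq_zero (mem_univ M) (by rw [h1, zero_rpow h2])

theorem EE_prop (hp : p ∈ EE ends) (hα : IsMatchingLaw ends α) (hβ : IsMatchingLaw ends β)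
    (hm : marginal α = marginal β) (hs : ∀ M, p M = 0 → α M = 0) :
    (∀ M, p M = 0 → β M = 0) ∧ ∑ M, α M * log (p M) = ∑ M, β M * log (p M) := by
  have h1 := hp.2 α β hα hβ hm
  rw [prod_rpow_eq hp.1.1 hs] at h1
  have h2 : ∀ M, p M = 0 → β M = 0 := by
    by_contra h2
    exact (exp_pos _).ne' (h1.trans (prod_rpow_zero h2))
  rw [prod_rpow_eq hp.1.1 h2] at h1
  exact ⟨h2, exp_injective h1⟩

theorem maxent_prop (hq : IsMatchingLaw ends q)
    (hmax : ∀ r, IsMatchingLaw ends r → marginal r = marginal q → lawEntropy r ≤ lawEntropy q)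
    (hα : IsMatchingLaw ends α) (hβ : IsMatchingLaw ends β) (hm : marginal α = marginal β)
    (hs : ∀ M, q M = 0 → α M = 0) :
    (∀ M, q M = 0 → β M = 0) ∧ ∑ M, α M * log (q M) ≤ ∑ M, β M * log (q M) := by
  set A := ∑ M, (β M - α M) * log (q M) with hA
  set K := ∑ M, (β M - α M) ^ 2 / q M with hK
  set B := ∑ M, if q M = 0 then β M else 0 with hB
  have hd : ∑ M, (β M - α M) = 0 := by rw [sum_sub_distrib, hα.2.1, hβ.2.1, sub_self]
  have h1 : ∀ᶠ t : ℝ in 𝓝[>] 0, ∀ M, q M ≠ 0 → 0 < q M + t * (β M - α M) := by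
    refine (eventually_all.2 fun M => ?_).filter_mono nhdsWithin_le_nhds
    by_cases h0 : q M = 0
    · exact Eventually.of_forall fun t h' => absurd h0 h'
    · have : Tendsto (fun t : ℝ => q M + t * (β M - α M)) (𝓝 0) (𝓝 (q M)) :=
        Continuous.tendsto' (by fun_prop) _ _ (by simp)
      exact (this.eventually (eventually_gt_nhds (lt_of_le_of_ne (hq.1 M) (Ne.symm h0)))).mono
        fun t ht _ => ht
  have h2 : ∀ᶠ t : ℝ in 𝓝[>] 0, -log t * B ≤ A + t * K := by
    filter_upwards [h1, self_mem_nhdsWithin] with t h1 (ht : 0 < t)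
    have h3 := hmax (fun M => q M + t * (β M - α M)) ⟨fun M => ?_, ?_, fun M hM => ?_⟩ ?_
    · have h4 := sum_le_sum fun M (_ : M ∈ univ) =>
        move_term ht (hq.1 M) (hβ.1 M) (law_le_one hβ M) (hs M) (h1 M)
      rw [sum_add_distrib, ← mul_sum, sum_add_distrib, sum_sub_distrib, sum_sub_distrib,
        sum_neg_distrib, ← mul_sum, ← mul_sum, hd, ← hA, ← hK, ← hB] at h4
      unfold lawEntropy at h3
      have h5 : t * (-A - 0 - t * K + -log t * B) ≤ t * 0 := by linarith
      linarith [le_of_mul_le_mul_left h5 ht]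
    · by_cases h0 : q M = 0
      · beta_reduce
        rw [h0, hs M h0, zero_add, sub_zero]
        exact mul_nonneg ht.le (hβ.1 M)
      · exact (h1 M h0).le
    · rw [sum_add_distrib, ← mul_sum, hd, hq.2.1, mul_zero, add_zero]
    · by_contra h'
      have e1 : q M = 0 := by_contra fun h1 => h' (hq.2.2 M h1)
      have e2 : β M = 0 := by_contra fun h2 => h' (hβ.2.2 M h2)
      exact hM (by simp [e1, e2, hs M e1])
    · funext e
      have := congrFun hm e
      simp only [marginal] at this ⊢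
      rw [sum_add_distrib, ← mul_sum, sum_sub_distrib, this, sub_self, mul_zero, add_zero]
  have h3 : Tendsto (fun t : ℝ => A + t * K) (𝓝[>] 0) (𝓝 A) :=
    (Continuous.tendsto' (by fun_prop) _ _ (by simp)).mono_left nhdsWithin_le_nhds
  have hB0 : ∀ M ∈ univ, 0 ≤ if q M = 0 then β M else 0 := fun M _ => by
    split_ifs
    exacts [hβ.1 M, le_rfl]
  have h4 : B = 0 := by
    by_contra h4
    have h5 : 0 < B := lt_of_le_of_ne (sum_nonneg hB0) (Ne.symm h4)
    exact not_tendsto_atTop_of_tendsto_nhds h3 (tendsto_atTop_mono' _ h2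
      ((tendsto_neg_atBot_atTop.comp tendsto_log_nhdsGT_zero).atTop_mul_const h5))
  refine ⟨fun M h0 => ?_, ?_⟩
  · have := (sum_eq_zero_iff_of_nonneg hB0).1 h4 M (mem_univ M)
    rwa [if_pos h0] at this
  · have h5 : 0 ≤ A := ge_of_tendsto h3 (h2.mono fun t ht => by rwa [h4, mul_zero] at ht)
    simpa only [hA, sub_mul, sum_sub_distrib, sub_nonneg] using h5

theorem exists_EE (hp : IsMatchingLaw ends p) : ∃ q ∈ EE ends, marginal q = marginal p := by
  have hK : IsCompact ({q | IsMatchingLaw ends q} ∩ {q | marginal q = marginal p}) :=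
    isCompact_law.inter_right (isClosed_eq (continuous_pi continuous_marginal) continuous_const)
  obtain ⟨q, hq, hmax⟩ := hK.exists_isMaxOn ⟨p, hp, rfl⟩ continuous_lawEntropy.continuousOn
  have hmax' : ∀ r, IsMatchingLaw ends r → marginal r = marginal q →
      lawEntropy r ≤ lawEntropy q := fun r hr hm => hmax ⟨hr, hm.trans hq.2⟩
  refine ⟨q, ⟨hq.1, fun α β hα hβ hm => ?_⟩, hq.2⟩
  by_cases h1 : ∀ M, q M = 0 → α M = 0
  · obtain ⟨h2, h3⟩ := maxent_prop hq.1 hmax' hα hβ hm h1
    rw [prod_rpow_eq hq.1.1 h1, prod_rpow_eq hq.1.1 h2,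
      le_antisymm h3 (maxent_prop hq.1 hmax' hβ hα hm.symm h2).2]
  · rw [prod_rpow_zero h1, prod_rpow_zero fun h2 => h1 (maxent_prop hq.1 hmax' hβ hα hm.symm h2).1]

/-- The function to be minimised. -/
noncomputable def GG (c : ℝ) (p : Finset (Fin k) → ℝ) : ℝ :=
  lawEntropy p + ∑ e, (c * negMulLog (1 - marginal p e) - negMulLog (marginal p e))

theorem sum_centered (hq : IsMatchingLaw ends q) (x : Fin k → ℝ) (e : Fin k) :
    ∑ M, q M * (pmIndicator M e - x e) = marginal q e - x e := by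
  simp only [mul_sub, sum_sub_distrib, ← sum_mul, hq.2.1, one_mul, marginal_eq]

theorem centered_zero (hp : IsMatchingLaw ends p) {e : Fin k}
    (he : marginal p e = 0 ∨ 1 - marginal p e = 0) (M : Finset (Fin k)) :
    p M * (pmIndicator M e - marginal p e) = 0 := by
  have h1 := sum_centered hp (marginal p) e
  rw [sub_self] at h1
  rcases he with he | he
  · refine (sum_eq_zero_iff_of_nonneg fun N _ => mul_nonneg (hp.1 N) ?_).1 h1 M (mem_univ M)
    rw [he, pmIndicator]
    split_ifs <;> norm_num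
  · refine (sum_eq_zero_iff_of_nonpos fun N _ => mul_nonpos_of_nonneg_of_nonpos (hp.1 N) ?_).1 h1 M
      (mem_univ M)
    rw [← sub_eq_zero.1 he, pmIndicator]
    split_ifs <;> norm_num

theorem second_order {c : ℝ} (hp : p ∈ EE ends) (hmin : ∀ q ∈ EE ends, GG c p ≤ GG c q)
    (a : Fin k → ℝ) {u : Finset (Fin k) → ℝ}
    (hu : ∀ M, u M = ∑ e, a e * (pmIndicator M e - marginal p e)) {h : Fin k → ℝ}
    (hh : ∀ e, h e = ∑ M, p M * (pmIndicator M e - marginal p e) * u M) :
    ∑ M, p M * u M ^ 2 ≤ ∑ e, ((marginal p e)⁻¹ - c * (1 - marginal p e)⁻¹) * h e ^ 2 := by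
  set x := marginal p with hx
  set s := ∑ M, p M * u M ^ 2 with hs
  set L := ∑ M, p M * u M * log (p M) with hL
  have hqu : ∀ q, IsMatchingLaw ends q → ∑ M, q M * u M = ∑ e, a e * (marginal q e - x e) :=
    fun q hq => by
      simp only [hu, mul_sum]
      rw [sum_comm]
      refine sum_congr rfl fun e _ => ?_
      rw [← sum_centered hq, mul_sum]
      exact sum_congr rfl fun M _ => by ring
  have hpu : ∑ M, p M * u M = 0 := by rw [hqu p hp.1]; simp [hx]
  have hah : ∑ e, a e * h e = s := by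
    simp only [hh, mul_sum]
    rw [sum_comm]
    refine sum_congr rfl fun M _ => ?_
    have e1 : p M * u M ^ 2 = p M * u M * ∑ e, a e * (pmIndicator M e - x e) := by
      rw [← hu M]; ring
    rw [e1, mul_sum]
    exact sum_congr rfl fun e _ => by ring
  have h1 : ∀ᶠ t : ℝ in 𝓝 0, ∀ M, 0 ≤ 1 + t * u M := eventually_all.2 fun M => by
    have : Tendsto (fun t : ℝ => 1 + t * u M) (𝓝 0) (𝓝 1) :=
      Continuous.tendsto' (by fun_prop) _ _ (by simp)
    exact this.eventually (eventually_ge_nhds one_pos)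
  have h2 : ∀ᶠ t : ℝ in 𝓝 0, 0 ≤ -(t * L) - t ^ 2 * s + (∑ M, p M * exp (t * u M) - 1) +
      ∑ e, (c * negMulLog (1 - (x e + t * h e)) - negMulLog (x e + t * h e)) -
        ∑ e, (c * negMulLog (1 - x e) - negMulLog (x e)) := by
    filter_upwards [h1] with t h1
    have hl : IsMatchingLaw ends fun M => p M * (1 + t * u M) := by
      refine ⟨fun M => mul_nonneg (hp.1.1 M) (h1 M), ?_,
        fun M hM => hp.1.2.2 M (left_ne_zero_of_mul hM)⟩
      simp only [mul_add, mul_one, sum_add_distrib, hp.1.2.1, mul_left_comm _ t, ← mul_sum, hpu,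
        mul_zero, add_zero]
    obtain ⟨q, hq, hm⟩ := exists_EE hl
    have hm' : ∀ e, marginal q e = x e + t * h e := fun e => by
      rw [hm, ← sub_eq_iff_eq_add', ← sum_centered hl, hh, mul_sum]
      have := sum_centered hp.1 x e
      rw [sub_self] at this
      rw [← zero_add (∑ M, t * _), ← this, ← sum_add_distrib]
      exact sum_congr rfl fun M _ => by ring
    obtain ⟨h3, h4⟩ := EE_prop hp hl hq.1 hm.symm fun M h0 => by rw [h0, zero_mul]
    have h5 := sum_le_sum fun M (_ : M ∈ univ) =>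
      gibbs_term (z := t * u M) (hp.1.1 M) (hq.1.1 M) (h3 M)
    have h6 : ∑ M, q M * (t * u M) = t ^ 2 * s := by
      simp only [mul_left_comm _ t, ← mul_sum]
      rw [hqu q hq.1]
      simp only [hm', add_sub_cancel_left, mul_left_comm _ t, ← mul_sum, hah]
      ring
    have h7 : ∑ M, p M * (1 + t * u M) * log (p M) = -lawEntropy p + t * L := by
      rw [lawEntropy, ← sum_neg_distrib, hL, mul_sum, ← sum_add_distrib]
      exact sum_congr rfl fun M _ => by rw [negMulLog]; ring
    rw [sum_sub_distrib, sum_add_distrib, sum_sub_distrib, sum_neg_distrib, ← h4, h6, h7,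
      hq.1.2.1] at h5
    have h8 := hmin q hq
    simp only [GG, hm', ← hx] at h8
    rw [lawEntropy.eq_1 q] at h8
    linarith
  have h3 : Tendsto (fun t : ℝ => -2 * s +
      ∑ M, p M * ((exp (t * u M) + exp (-t * u M) - 2) / t ^ 2) +
      ∑ e, (c * ((negMulLog (1 - x e + t * -h e) + negMulLog (1 - x e - t * -h e) -
        2 * negMulLog (1 - x e)) / t ^ 2) - (negMulLog (x e + t * h e) +
          negMulLog (x e - t * h e) - 2 * negMulLog (x e)) / t ^ 2)) (𝓝[>] 0)
      (𝓝 (-2 * s + ∑ M, p M * u M ^ 2 +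
        ∑ e, (c * (-(1 - x e)⁻¹ * (-h e) ^ 2) - -(x e)⁻¹ * h e ^ 2))) := by
    have h0 : ∀ e, x e = 0 ∨ 1 - x e = 0 → h e = 0 := fun e he => by
      rw [hh]
      exact sum_eq_zero fun M _ => by rw [centered_zero hp.1 he, zero_mul]
    refine (tendsto_const_nhds.add (tendsto_finsetSum _ fun M _ =>
      (second_diff_exp _).const_mul _)).add (tendsto_finsetSum _ fun e _ =>
        ((second_diff_nml fun he => ?_).const_mul _).sub (second_diff_nml fun he => ?_))
    · rw [h0 e (Or.inr he), neg_zero]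
    · exact h0 e (Or.inl he)
  have h4 := ge_of_tendsto h3 (b := 0) (by
    have h5 : ∀ᶠ t : ℝ in 𝓝 0, _ := (show Tendsto (fun t : ℝ => -t) (𝓝 0) (𝓝 0) from
      Continuous.tendsto' continuous_neg _ _ neg_zero).eventually h2
    filter_upwards [h2.filter_mono nhdsWithin_le_nhds, h5.filter_mono nhdsWithin_le_nhds,
      self_mem_nhdsWithin] with t a1 a2 (ht : 0 < t)
    refine le_of_mul_le_mul_left (a := t ^ 2) ?_ (by positivity)
    have e1 : t ^ 2 * ∑ M, p M * ((exp (t * u M) + exp (-t * u M) - 2) / t ^ 2) =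
        ∑ M, p M * exp (t * u M) + ∑ M, p M * exp (-t * u M) - 2 * ∑ M, p M := by
      rw [mul_sum, mul_sum, ← sum_add_distrib, ← sum_sub_distrib]
      exact sum_congr rfl fun M _ => by field_simp
    have e2 : t ^ 2 * ∑ e, (c * ((negMulLog (1 - x e + t * -h e) + negMulLog (1 - x e - t * -h e) -
        2 * negMulLog (1 - x e)) / t ^ 2) - (negMulLog (x e + t * h e) +
          negMulLog (x e - t * h e) - 2 * negMulLog (x e)) / t ^ 2) =
        ∑ e, (c * negMulLog (1 - (x e + t * h e)) - negMulLog (x e + t * h e)) +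
        ∑ e, (c * negMulLog (1 - (x e + -t * h e)) - negMulLog (x e + -t * h e)) -
          2 * ∑ e, (c * negMulLog (1 - x e) - negMulLog (x e)) := by
      rw [mul_sum, mul_sum, ← sum_add_distrib, ← sum_sub_distrib]
      refine sum_congr rfl fun e _ => ?_
      rw [show 1 - (x e + t * h e) = 1 - x e + t * -h e by ring,
        show 1 - (x e + -t * h e) = 1 - x e - t * -h e by ring,
        show x e + -t * h e = x e - t * h e by ring]
      field_simp
      ring
    rw [mul_zero, mul_add, mul_add, e1, e2, hp.1.2.1]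
    nlinarith)
  rw [← hs] at h4
  have h5 : ∑ e, (c * (-(1 - x e)⁻¹ * (-h e) ^ 2) - -(x e)⁻¹ * h e ^ 2) =
      ∑ e, ((x e)⁻¹ - c * (1 - x e)⁻¹) * h e ^ 2 := sum_congr rfl fun e _ => by ring
  linarith

theorem rank_bound (hends : ∀ e, (ends e).1 ≠ (ends e).2) {c : ℝ} (hp : p ∈ EE ends)
    (hmin : ∀ q ∈ EE ends, GG c p ≤ GG c q) (D : Submodule ℝ (Fin k → ℝ))
    (hD : ∀ d ∈ D, Dir univ (ea ends) (eb ends) (marginal p) d) :
    (finrank ℝ D : ℝ) ≤ ∑ e, ((marginal p e)⁻¹ - c * (1 - marginal p e)⁻¹) *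
      (marginal p e * (1 - marginal p e)) := by
  have hQ : Q univ (ea ends) (eb ends) (marginal p) :=
    (mem_pmPolytope_iff_Q hends).1 (mem_pmPolytope_iff_law.2 ⟨p, hp.1, fun _ => rfl⟩)
  have hsq : ∀ M, √(p M) * √(p M) = p M := fun M => mul_self_sqrt (hp.1.1 M)
  refine (la_bound (fun e M => √(p M) * (pmIndicator M e - marginal p e))
    (fun e => (marginal p e)⁻¹ - c * (1 - marginal p e)⁻¹) (fun a => ?_) D
      fun d hd => ?_).trans_eq (sum_congr rfl fun e _ => ?_)
  · have e1 : ∀ M, ∑ e, a e * (√(p M) * (pmIndicator M e - marginal p e)) =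
        √(p M) * ∑ e, a e * (pmIndicator M e - marginal p e) := fun M => by
      rw [mul_sum]
      exact sum_congr rfl fun e _ => by ring
    simp only [e1]
    convert second_order hp hmin a (fun M => rfl) (fun e => rfl) using 2 with M _ e _
    · rw [mul_pow, sq_sqrt (hp.1.1 M)]
    · congr 2
      refine sum_congr rfl fun M _ => ?_
      conv_rhs => rw [← hsq M]
      ring
  · obtain ⟨t, ht, h1, h2⟩ := exists_pos_both (hQ.eventually_add (hD d hd))
    obtain ⟨α, hα, mα⟩ := mem_pmPolytope_iff_law.1 ((mem_pmPolytope_iff_Q hends).2 h1)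
    obtain ⟨β, hβ, mβ⟩ := mem_pmPolytope_iff_law.1 ((mem_pmPolytope_iff_Q hends).2 h2)
    have hl : IsMatchingLaw ends fun M => (α M + β M) / 2 := by
      refine ⟨fun M => div_nonneg (add_nonneg (hα.1 M) (hβ.1 M)) zero_le_two, ?_, fun M hM => ?_⟩
      · rw [← sum_div, sum_add_distrib, hα.2.1, hβ.2.1]; norm_num
      · by_contra h'
        have e1 : α M = 0 := by_contra fun h1 => h' (hα.2.2 M h1)
        have e2 : β M = 0 := by_contra fun h2 => h' (hβ.2.2 M h2)
        exact hM (by simp [e1, e2])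
    have h3 := (EE_prop hp hp.1 hl (funext fun e => by
      have a1 := mα e
      have a2 := mβ e
      simp only [Pi.add_apply, Pi.smul_apply, smul_eq_mul] at a1 a2
      have a3 : marginal (fun M => (α M + β M) / 2) e = (marginal α e + marginal β e) / 2 := by
        simp only [marginal, ← sum_div, sum_add_distrib]
      rw [a3, a1, a2]
      ring) fun M h0 => h0).1
    refine ⟨fun M => α M / (t * √(p M)), fun e => ?_⟩
    have h4 := sum_centered hα (marginal p) e
    rw [mα, Pi.add_apply, add_sub_cancel_left, Pi.smul_apply, smul_eq_mul] at h4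
    refine mul_left_cancel₀ ht.ne' ?_
    rw [← h4, mul_sum]
    refine sum_congr rfl fun M _ => ?_
    by_cases h0 : p M = 0
    · have h5 : α M = 0 := by linarith [h3 M h0, hα.1 M, hβ.1 M]
      simp [h5]
    · have h5 : √(p M) ≠ 0 := (sqrt_ne_zero (hp.1.1 M)).2 h0
      field_simp
  · congr 1
    have e1 : ∀ M, (√(p M) * (pmIndicator M e - marginal p e)) ^ 2 =
        (1 - 2 * marginal p e) * (p M * pmIndicator M e) + marginal p e ^ 2 * p M := fun M => by
      rw [mul_pow, sq_sqrt (hp.1.1 M), pmIndicator]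
      split_ifs <;> ring
    simp only [e1]
    rw [sum_add_distrib, ← mul_sum, ← mul_sum, ← marginal_eq, hp.1.2.1]
    ring

theorem GG_nonneg {m : ℕ} {ends : Fin k → Fin (2 * m) × Fin (2 * m)}
    (hends : ∀ e, (ends e).1 ≠ (ends e).2) {c : ℝ} (hc : (2 - c) * m < 2) (hq : q ∈ EE ends) :
    0 ≤ GG c q := by
  classical
  have hcont : Continuous (GG (k := k) c) := continuous_lawEntropy.add
    (continuous_finsetSum _ fun e _ => ((continuous_negMulLog.comp
      (continuous_const.sub (continuous_marginal e))).const_mul c).sub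
        (continuous_negMulLog.comp (continuous_marginal e)))
  obtain ⟨p, hp, hmin⟩ := isCompact_EE.exists_isMinOn ⟨q, hq⟩ hcont.continuousOn
  refine le_trans ?_ (hmin hq)
  have hQ : Q univ (ea ends) (eb ends) (marginal p) :=
    (mem_pmPolytope_iff_Q hends).1 (mem_pmPolytope_iff_law.2 ⟨p, hp.1, fun _ => rfl⟩)
  by_cases hf : ∃ e, marginal p e ≠ 0 ∧ marginal p e ≠ 1
  · exfalso
    obtain ⟨D, hD, h1⟩ := hQ.exists_dirs_frac hf
    have h2 := rank_bound hends hp (fun q hq => hmin hq) D hD
    set F := univ.filter fun e => marginal p e ≠ 0 ∧ marginal p e ≠ 1 with hF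
    set σ := ∑ e ∈ F, marginal p e with hσ
    have h3 : ∑ e, ((marginal p e)⁻¹ - c * (1 - marginal p e)⁻¹) *
        (marginal p e * (1 - marginal p e)) = F.card - (1 + c) * σ := by
      rw [← sum_filter_of_ne (p := fun e => marginal p e ≠ 0 ∧ marginal p e ≠ 1) fun e _ he =>
        ⟨fun h0 => he (by simp [h0]), fun h0 => he (by simp [h0])⟩, ← hF, hσ, mul_sum,
        card_eq_sum_ones F, Nat.cast_sum, ← sum_sub_distrib]
      refine sum_congr rfl fun e he => ?_
      have a1 := (mem_filter.1 he).2.1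
      have a2 := sub_ne_zero.2 (mem_filter.1 he).2.2.symm
      field_simp
      push_cast
      ring
    have h4 : σ ≤ m := by
      have a1 := hQ.two_sum
      rw [card_univ, Fintype.card_fin] at a1
      push_cast at a1
      have a2 : σ ≤ ∑ e, marginal p e :=
        sum_le_sum_of_subset_of_nonneg (subset_univ _) fun e _ _ => hQ.nonneg e
      linarith
    have h5 : 0 ≤ σ := sum_nonneg fun e _ => hQ.nonneg e
    have h6 : 2 ≤ (2 - c) * σ := by linarith
    rcases le_total (2 - c) 0 with h7 | h7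
    · linarith [mul_nonpos_of_nonpos_of_nonneg h7 h5]
    · linarith [mul_le_mul_of_nonneg_left h4 h7]
  · push Not at hf
    refine add_nonneg (sum_nonneg fun M _ => negMulLog_nonneg (hp.1.1 M) (law_le_one hp.1 M))
      (sum_nonneg fun e _ => ?_)
    by_cases h0 : marginal p e = 0
    · simp [h0]
    · simp [hf e h0]

theorem entropy_bound (m : ℕ) (hm : 1 ≤ m) (k : ℕ)
    (ends : Fin k → Fin (2 * m) × Fin (2 * m)) (hends : ∀ e, (ends e).1 ≠ (ends e).2)
    (p : Finset (Fin k) → ℝ) (hp : IsMatchingLaw ends p) :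
    ∃ q : Finset (Fin k) → ℝ, IsMatchingLaw ends q ∧ (∀ e, marginal q e = marginal p e) ∧
      ∑ e, Real.negMulLog (marginal p e) - (2 - 2 / (m : ℝ)) * ∑ e, Real.negMulLog (1 - marginal p e)
        ≤ lawEntropy q := by
  obtain ⟨q, hq, hm'⟩ := exists_EE hp
  refine ⟨q, hq.1, congrFun hm', ?_⟩
  have hm0 : (0 : ℝ) < m := by exact_mod_cast hm
  have h1 : Tendsto (fun c : ℝ => ∑ e, negMulLog (marginal p e) -
      c * ∑ e, negMulLog (1 - marginal p e)) (𝓝[>] (2 - 2 / (m : ℝ)))
      (𝓝 (∑ e, negMulLog (marginal p e) - (2 - 2 / (m : ℝ)) * ∑ e, negMulLog (1 - marginal p e))) :=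
    (Continuous.tendsto (by fun_prop) _).mono_left nhdsWithin_le_nhds
  refine le_of_tendsto h1 (eventually_mem_nhdsWithin.mono fun c (hc : 2 - 2 / (m : ℝ) < c) => ?_)
  have h2 := GG_nonneg hends (c := c) ((lt_div_iff₀ hm0).1 (by linarith)) hq
  rw [GG, hm', sum_sub_distrib, ← mul_sum] at h2
  linarith

end Crest.Agent.R304
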