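import Crest.Agent.R304.BEnt

/-!
# R304/BIfc: the perfect matching polytope, interface of part B (owner: see the task `R304/partB`)

The two theorems below are used by part C (`S0467`); keep their statements.
-/

set_option autoImplicit false

namespace Crest.Agent.R304

open Finset Crest.Matchings

/-- Edmonds' description of the perfect matching polytope. -/
theorem edmonds {v k : ℕ} (ends : Fin k → Fin v × Fin v) (hends : ∀ e, (ends e).1 ≠ (ends e).2)
    (x : Fin k → ℝ) (h0 : ∀ e, 0 ≤ x e)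
    (h1 : ∀ u, ∑ e ∈ univ.filter (fun e => (ends e).1 = u ∨ (ends e).2 = u), x e = 1)
    (h2 : ∀ S : Finset (Fin v), Odd S.card →
      1 ≤ ∑ e ∈ univ.filter (fun e => ¬ ((ends e).1 ∈ S ↔ (ends e).2 ∈ S)), x e) :
    ∃ p, IsMatchingLaw ends p ∧ ∀ e, marginal p e = x e := by
  refine mem_pmPolytope_iff_law.1 ((mem_pmPolytope_iff_Q hends).2
    ⟨h0, fun e _ => ⟨mem_univ _, mem_univ _⟩, fun e _ => hends e, fun u _ => ?_, fun S _ ho => ?_⟩)
  · rw [← h1 u, sum_filter]
    exact sum_congr rfl fun e _ => by rw [cv, chi_star hends, ite_mul, one_mul, zero_mul]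
  · refine (h2 S ho).trans_eq ?_
    rw [sum_filter]
    exact sum_congr rfl fun e _ => by rw [cv, chi, ite_not, ite_mul, one_mul, zero_mul]

/-- The statement `S0465`. -/
theorem entropy_lb (m : ℕ) (hm : 1 ≤ m) (k : ℕ)
    (ends : Fin k → Fin (2 * m) × Fin (2 * m)) (hends : ∀ e, (ends e).1 ≠ (ends e).2)
    (p : Finset (Fin k) → ℝ) (hp : IsMatchingLaw ends p) :
    ∃ q : Finset (Fin k) → ℝ, IsMatchingLaw ends q ∧ (∀ e, marginal q e = marginal p e) ∧
      ∑ e, Real.negMulLog (marginal p e) - (2 - 2 / (m : ℝ)) * ∑ e, Real.negMulLog (1 - marginal p e)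
        ≤ lawEntropy q :=
  entropy_bound m hm k ends hends p hp

end Crest.Agent.R304
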