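import Crest.Agent.R304.BTutte

/-!
# R304/BKL: a matching that crosses all tight cuts once; the rank of the tight cuts
-/

set_option autoImplicit false

namespace Crest.Agent.R304

open Finset Module Filter Topology

variable {V E : Type} [DecidableEq V] {a b : E → V} {W S T : Finset V} {x : E → ℝ}

theorem kl_uniq {M : Finset E} (h : ∑ e ∈ M, chi a b S e = 1) {e f : E} (he : e ∈ M) (hf : f ∈ M)
    (he' : chi a b S e ≠ 0) (hf' : chi a b S f ≠ 0) : e = f := by
  classical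
  by_contra hne
  have h1 : ∑ g ∈ {e, f}, chi a b S g ≤ ∑ g ∈ M, chi a b S g :=
    sum_le_sum_of_subset_of_nonneg (insert_subset he (singleton_subset_iff.2 hf))
      fun g _ _ => chi_nonneg _ _ _ _
  rw [sum_pair hne, chi_eq_one he', chi_eq_one hf', h] at h1
  linarith

theorem kl_half [DecidableEq E] {M₁ M₂ : Finset E} {f : E} (h1 : f ∈ M₁) (h2 : f ∈ M₂)
    (hS : ∑ e ∈ M₂, chi a b S e = 1) (hf : chi a b S f ≠ 0)
    (hin : ∀ e ∈ M₂, ¬(a e ∈ S ∧ b e ∈ S)) (hT : T ⊆ S) :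
    ∑ e ∈ M₁ ∪ M₂, chi a b T e = ∑ e ∈ M₁, chi a b T e := by
  refine (sum_subset subset_union_left fun e he he' => ?_).symm
  have he2 := (mem_union.1 he).resolve_left he'
  by_contra h0
  refine he' (kl_uniq hS he2 h2 (chi_ne_zero.2 fun h3 => ?_) hf ▸ h1)
  have h4 := hin e he2
  refine chi_ne_zero.1 h0 (iff_of_false (fun h5 => ?_) fun h5 => ?_)
  · exact h4 ⟨hT h5, h3.1 (hT h5)⟩
  · exact h4 ⟨h3.2 (hT h5), hT h5⟩

variable [Fintype E]

/-- The conclusion of the key lemma. -/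
def KL (W : Finset V) (a b : E → V) (x : E → ℝ) (e₀ : E) : Prop :=
  ∃ M : Finset E, e₀ ∈ M ∧ (∀ e ∈ M, x e ≠ 0) ∧ ∀ T, Tight W a b x T → ∑ e ∈ M, chi a b T e = 1

theorem kl_side (h : Q W a b x) (hS : Tight W a b x S) (h3 : 3 ≤ S.card)
    (ih : ∀ (W' : Finset V) (a' b' : E → V) (x' : E → ℝ) (e : E), W'.card < W.card →
      Q W' a' b' x' → x' e ≠ 0 → KL W' a' b' x' e)
    {e₀ : E} (he : x e₀ ≠ 0) (hin : ¬(a e₀ ∈ S ∧ b e₀ ∈ S)) :
    ∃ M : Finset E, e₀ ∈ M ∧ (∀ e ∈ M, x e ≠ 0 ∧ ¬(a e ∈ S ∧ b e ∈ S)) ∧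
      ∀ T ⊆ W \ S, Tight W a b x T → ∑ e ∈ M, chi a b T e = 1 := by
  obtain ⟨W', a', b', x', hQ, -, hc, hx, hT⟩ := h.contract hS
  obtain ⟨M, h1, h2, h4⟩ := ih W' a' b' x' e₀ (by omega) hQ (by rwa [hx, if_neg hin])
  refine ⟨M, h1, fun e he' => ?_, fun T hTs ht => ?_⟩
  · have := h2 e he'
    rw [hx] at this
    by_cases h5 : a e ∈ S ∧ b e ∈ S
    · exact absurd (if_pos h5) this
    · exact ⟨by rwa [if_neg h5] at this, h5⟩
  · rw [← (hT T hTs).1]
    exact h4 T ((hT T hTs).2.2 ht)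

theorem kl_glue (h : Q W a b x) (hS : Tight W a b x S) (h3 : 3 ≤ S.card)
    (h3' : 3 ≤ (W \ S).card)
    (ih : ∀ (W' : Finset V) (a' b' : E → V) (x' : E → ℝ) (e : E), W'.card < W.card →
      Q W' a' b' x' → x' e ≠ 0 → KL W' a' b' x' e)
    {e₀ : E} (he : x e₀ ≠ 0) (hin : ¬(a e₀ ∈ S ∧ b e₀ ∈ S)) : KL W a b x e₀ := by
  classical
  have hS' := hS.compl h
  have hSS : S ⊆ W \ (W \ S) := by rw [Finset.sdiff_sdiff_eq_self hS.sub]
  obtain ⟨M₁, h11, h12, h13⟩ := kl_side h hS h3 ih he hin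
  have h14 := h13 _ Subset.rfl hS'
  obtain ⟨f, hf, hf'⟩ := exists_ne_zero_of_sum_ne_zero (h14.trans_ne one_ne_zero)
  obtain ⟨M₂, h21, h22, h23⟩ := kl_side h hS' h3' ih (h12 f hf).1
    fun h' => chi_ne_zero.1 hf' (iff_of_true h'.1 h'.2)
  have h24 := h23 _ hSS hS
  have hc : ∀ e, x e ≠ 0 → chi a b (W \ S) e = chi a b S e := fun e h0 =>
    chi_compl (h.ends e h0).1 (h.ends e h0).2 S
  have h15 : ∑ e ∈ M₁, chi a b S e = 1 := by
    rw [← h14]
    exact sum_congr rfl fun e he' => (hc e (h12 e he').1).symm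
  have h25 : ∑ e ∈ M₂, chi a b (W \ S) e = 1 := by
    rw [← h24]
    exact sum_congr rfl fun e he' => hc e (h22 e he').1
  have hA : ∀ T ⊆ W \ S, Tight W a b x T → ∑ e ∈ M₁ ∪ M₂, chi a b T e = 1 := fun T hT ht => by
    rw [kl_half hf h21 h25 hf' (fun e he' => (h22 e he').2) hT, h13 T hT ht]
  have hB : ∀ T ⊆ S, Tight W a b x T → ∑ e ∈ M₁ ∪ M₂, chi a b T e = 1 := fun T hT ht => by
    rw [union_comm, kl_half h21 hf h15 (by rwa [← hc f (h12 f hf).1])
      (fun e he' => (h12 e he').2) hT, h23 T (hT.trans hSS) ht]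
  have hM : ∀ e ∈ M₁ ∪ M₂, x e ≠ 0 := fun e he' =>
    (mem_union.1 he').elim (fun h' => (h12 e h').1) fun h' => (h22 e h').1
  refine ⟨M₁ ∪ M₂, mem_union_left _ h11, hM, fun T hT => ?_⟩
  obtain ⟨T₁, s1, T₂, s2, t1, t2, e⟩ := h.split hS hT
  have h5 : ∑ e ∈ M₁ ∪ M₂, (chi a b T e + chi a b S e) =
      ∑ e ∈ M₁ ∪ M₂, (chi a b T₁ e + chi a b T₂ e) := sum_congr rfl fun g hg => by
    refine mul_right_cancel₀ (hM g hg) ?_
    rw [add_mul, add_mul]
    exact congrFun e g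
  rw [sum_add_distrib, sum_add_distrib, hB S Subset.rfl hS, hB T₁ s1 t1, hA T₂ s2 t2] at h5
  linarith

/-- Key lemma: a perfect matching of the support through `e₀` crossing every tight cut once. -/
theorem Q.kl (h : Q W a b x) {e₀ : E} (he : x e₀ ≠ 0) : KL W a b x e₀ := by
  induction hn : W.card using Nat.strong_induction_on generalizing W a b x e₀ with
  | _ n ih =>
    subst hn
    have ih' : ∀ (W' : Finset V) (a' b' : E → V) (x' : E → ℝ) (e : E), W'.card < W.card →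
        Q W' a' b' x' → x' e ≠ 0 → KL W' a' b' x' e :=
      fun W' a' b' x' e hlt hQ hx => ih _ hlt hQ hx rfl
    by_cases hno : ∃ S, Tight W a b x S ∧ 3 ≤ S.card ∧ 3 ≤ (W \ S).card
    · obtain ⟨S, hS, h3, h3'⟩ := hno
      by_cases hin : a e₀ ∈ S ∧ b e₀ ∈ S
      · exact kl_glue h (hS.compl h) h3' (by rwa [Finset.sdiff_sdiff_eq_self hS.sub]) ih' he
          fun h' => (mem_sdiff.1 h'.1).2 hin.1
      · exact kl_glue h hS h3 h3' ih' he hin
    · obtain ⟨M, h1, h2, h3⟩ := h.exists_pm he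
      refine ⟨M, h1, h2, fun T hT => ?_⟩
      obtain ⟨v, hv, e⟩ := h.trivial_tight hno hT
      rw [← h3 v hv]
      exact sum_congr rfl fun g hg => mul_right_cancel₀ (h2 g hg) (congrFun e g)

/-- The span of the tight cuts. -/
def tspan (W : Finset V) (a b : E → V) (x : E → ℝ) : Submodule ℝ (E → ℝ) :=
  Submodule.span ℝ (cv a b x '' {T | Tight W a b x T})

theorem Tight.mem_tspan (hT : Tight W a b x T) : cv a b x T ∈ tspan W a b x :=
  Submodule.subset_span ⟨T, hT, rfl⟩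

theorem rank_base (h : Q W a b x) (hW : W.Nonempty)
    (hno : ¬∃ S, Tight W a b x S ∧ 3 ≤ S.card ∧ 3 ≤ (W \ S).card) :
    2 * finrank ℝ (tspan W a b x) + 4 ≤ 3 * W.card := by
  classical
  have key : ∀ W₁ : Finset V, (∀ v ∈ W, ∃ u ∈ W₁, cv a b x {v} = cv a b x {u}) →
      finrank ℝ (tspan W a b x) ≤ W₁.card := fun W₁ h1 => by
    have h2 : tspan W a b x ≤
        Submodule.span ℝ (W₁.image fun v => cv a b x {v} : Finset (E → ℝ)) := by
      refine Submodule.span_le.2 ?_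
      rintro _ ⟨T, hT, rfl⟩
      obtain ⟨v, hv, e⟩ := h.trivial_tight hno hT
      obtain ⟨u, hu, e'⟩ := h1 v hv
      rw [e, e']
      exact Submodule.subset_span (mem_coe.2 (mem_image_of_mem (fun v => cv a b x {v}) hu))
    exact (Submodule.finrank_mono h2).trans ((finrank_span_finset_le_card _).trans card_image_le)
  have hev := h.even
  have hpos := card_pos.2 hW
  rw [Nat.even_iff] at hev
  by_cases h2 : W.card = 2
  · obtain ⟨u, v, huv, rfl⟩ := card_eq_two.1 h2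
    have := key {u} fun w hw => ⟨u, mem_singleton_self _, by
      rcases mem_insert.1 hw with rfl | hw
      · rfl
      · rw [mem_singleton.1 hw, ← cv_compl h.ends {u}, sdiff_singleton_eq_erase,
          erase_insert (by simpa using huv)]⟩
    rw [card_singleton] at this
    omega
  · have := key W fun v hv => ⟨v, hv, rfl⟩
    omega

theorem Q.rank_le (h : Q W a b x) (hW : W.Nonempty) :
    2 * finrank ℝ (tspan W a b x) + 4 ≤ 3 * W.card := by
  induction hn : W.card using Nat.strong_induction_on generalizing W a b x with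
  | _ n ih =>
    subst hn
    by_cases hno : ∃ S, Tight W a b x S ∧ 3 ≤ S.card ∧ 3 ≤ (W \ S).card
    swap
    · exact rank_base h hW hno
    obtain ⟨S, hS, h3, h3'⟩ := hno
    have hS' := hS.compl h
    have hSS : S ⊆ W \ (W \ S) := by rw [Finset.sdiff_sdiff_eq_self hS.sub]
    obtain ⟨W₁, a₁, b₁, x₁, q₁, n₁, c₁, -, t₁⟩ := h.contract hS
    obtain ⟨W₂, a₂, b₂, x₂, q₂, n₂, c₂, -, t₂⟩ := h.contract hS'
    have r₁ := ih _ (by omega) q₁ n₁ rfl
    have r₂ := ih _ (by omega) q₂ n₂ rfl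
    have m₁ : ∀ T ⊆ W \ S, Tight W a b x T → cv a b x T ∈ tspan W₁ a₁ b₁ x₁ := fun T hT ht => by
      rw [← (t₁ T hT).2.1]
      exact ((t₁ T hT).2.2 ht).mem_tspan
    have m₂ : ∀ T ⊆ S, Tight W a b x T → cv a b x T ∈ tspan W₂ a₂ b₂ x₂ := fun T hT ht => by
      rw [← (t₂ T (hT.trans hSS)).2.1]
      exact ((t₂ T (hT.trans hSS)).2.2 ht).mem_tspan
    have h1 : tspan W a b x ≤ tspan W₁ a₁ b₁ x₁ ⊔ tspan W₂ a₂ b₂ x₂ := by
      refine Submodule.span_le.2 ?_
      rintro _ ⟨T, hT, rfl⟩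
      obtain ⟨T₁, s1, T₂, s2, t1, t2, e⟩ := h.split hS hT
      rw [eq_sub_of_add_eq e]
      exact sub_mem (add_mem (Submodule.mem_sup_right (m₂ T₁ s1 t1))
        (Submodule.mem_sup_left (m₁ T₂ s2 t2))) (Submodule.mem_sup_right (m₂ S Subset.rfl hS))
    have h2 : 0 < finrank ℝ ↥(tspan W₁ a₁ b₁ x₁ ⊓ tspan W₂ a₂ b₂ x₂) := by
      refine Nat.pos_of_ne_zero fun h0 => hS.cv_ne_zero ?_
      refine (Submodule.eq_bot_iff _).1 (Submodule.finrank_eq_zero.1 h0) _
        ⟨?_, m₂ S Subset.rfl hS⟩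
      rw [← cv_compl h.ends S]
      exact m₁ _ Subset.rfl hS'
    have h4 := Submodule.finrank_sup_add_finrank_inf_eq (tspan W₁ a₁ b₁ x₁) (tspan W₂ a₂ b₂ x₂)
    have h5 := Submodule.finrank_mono h1
    have h6 := card_sdiff_add_card_eq_card hS.sub
    omega

/-- Directions supported on the support of `x` and orthogonal to the tight cuts. -/
def Dir (W : Finset V) (a b : E → V) (x d : E → ℝ) : Prop :=
  (∀ e, x e = 0 → d e = 0) ∧ ∀ T, Tight W a b x T → ∑ e, cv a b d T e = 0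

theorem cv_add_smul (a b : E → V) (x d : E → ℝ) (t : ℝ) (T : Finset V) :
    ∑ e, cv a b (x + t • d) T e = ∑ e, cv a b x T e + t * ∑ e, cv a b d T e := by
  rw [mul_sum, ← sum_add_distrib]
  refine sum_congr rfl fun e _ => ?_
  simp only [cv, Pi.add_apply, Pi.smul_apply, smul_eq_mul]
  ring

/-- Such directions are two-sided feasible. -/
theorem Q.eventually_add (h : Q W a b x) {d : E → ℝ} (hd : Dir W a b x d) :
    ∀ᶠ t : ℝ in 𝓝 0, Q W a b (x + t • d) := by
  have lin : ∀ c u v : ℝ, c < u → ∀ᶠ t : ℝ in 𝓝 0, c ≤ u + t * v := fun c u v hc => by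
    have : Tendsto (fun t : ℝ => u + t * v) (𝓝 0) (𝓝 (u + 0 * v)) :=
      Continuous.tendsto (by fun_prop) 0
    exact this.eventually (eventually_ge_nhds (by simpa using hc))
  have h1 : ∀ᶠ t : ℝ in 𝓝 0, ∀ e, 0 ≤ x e + t * d e := eventually_all.2 fun e => by
    by_cases h0 : x e = 0
    · exact Eventually.of_forall fun t => by rw [h0, hd.1 e h0]; simp
    · exact lin _ _ _ (lt_of_le_of_ne (h.nonneg e) (Ne.symm h0))
  have h2 : ∀ᶠ t : ℝ in 𝓝 0, ∀ S ∈ W.powerset, Odd S.card →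
      1 ≤ ∑ e, cv a b x S e + t * ∑ e, cv a b d S e := (eventually_all_finset _).2 fun S hS => by
    by_cases ho : Odd S.card
    · by_cases h0 : ∑ e, cv a b x S e = 1
      · exact Eventually.of_forall fun t _ => by
          rw [h0, hd.2 S ⟨mem_powerset.1 hS, ho, h0⟩]; simp
      · exact (lin _ _ _ (lt_of_le_of_ne (h.odd S (mem_powerset.1 hS) ho) (Ne.symm h0))).mono
          fun t ht _ => ht
    · exact Eventually.of_forall fun t h' => absurd h' ho
  filter_upwards [h1, h2] with t h1 h2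
  have h0 : ∀ e, (x + t • d) e ≠ 0 → x e ≠ 0 := fun e he h0 => he (by simp [h0, hd.1 e h0])
  refine ⟨h1, fun e he => h.ends e (h0 e he), fun e he => h.ne e (h0 e he), fun v hv => ?_,
    fun S hS ho => ?_⟩
  · rw [cv_add_smul, h.star v hv, hd.2 _ (h.tight_single hv), mul_zero, add_zero]
  · rw [cv_add_smul]
    exact h2 S (mem_powerset.2 hS) ho

open Classical in
/-- A large space of directions. -/
theorem Q.exists_dirs (h : Q W a b x) (hW : W.Nonempty) :
    ∃ D : Submodule ℝ (E → ℝ), (∀ d ∈ D, Dir W a b x d) ∧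
      2 * (univ.filter fun e => x e ≠ 0).card + 4 ≤ 2 * finrank ℝ D + 3 * W.card := by
  let F : Submodule ℝ (E → ℝ) := Submodule.span ℝ
    (Set.range fun e : {e // e ∈ univ.filter fun e => x e ≠ 0} => Pi.basisFun ℝ E e.1)
  have hF : finrank ℝ F = (univ.filter fun e => x e ≠ 0).card := by
    exact (finrank_span_eq_card ((Pi.basisFun ℝ E).linearIndependent.comp _
      Subtype.val_injective)).trans (Fintype.card_coe _)
  have hF0 : ∀ d ∈ F, ∀ e, x e = 0 → d e = 0 := fun d hd e he => by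
    induction hd using Submodule.span_induction with
    | mem d hd =>
      obtain ⟨f, rfl⟩ := hd
      have : e ≠ f.1 := fun h' => (mem_filter.1 f.2).2 (h' ▸ he)
      simp [Pi.single_eq_of_ne this]
    | zero => rfl
    | add d d' _ _ h1 h2 => simp [h1, h2]
    | smul c d _ h1 => simp [h1]
  let L : F →ₗ[ℝ] Module.Dual ℝ (tspan W a b x) := LinearMap.mk₂ ℝ
    (fun d u => ∑ e, u.1 e * (d.1 e / x e))
    (fun d d' u => by simp [add_div, mul_add, sum_add_distrib])
    (fun c d u => by simp [mul_sum, mul_div_assoc, mul_left_comm])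
    (fun d u u' => by simp [add_mul, sum_add_distrib])
    (fun c d u => by simp [mul_sum, mul_assoc])
  refine ⟨(LinearMap.ker L).map F.subtype, ?_, ?_⟩
  · rintro _ ⟨d, hd, rfl⟩
    refine ⟨hF0 d.1 d.2, fun T hT => ?_⟩
    have h1 : ∑ e, cv a b x T e * (d.1 e / x e) = 0 :=
      LinearMap.congr_fun (LinearMap.mem_ker.1 hd) ⟨_, hT.mem_tspan⟩
    rw [← h1]
    refine sum_congr rfl fun e _ => ?_
    by_cases h0 : x e = 0
    · simp [cv, h0, hF0 d.1 d.2 e h0]
    · simp only [cv, Submodule.coe_subtype]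
      field_simp
  · have h1 := LinearMap.finrank_range_add_finrank_ker L
    have h2 := Submodule.finrank_le (LinearMap.range L)
    have h3 := h.rank_le hW
    rw [Subspace.dual_finrank_eq] at h2
    rw [Submodule.finrank_map_subtype_eq]
    omega

end Crest.Agent.R304
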