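import Crest.Agent.R304.BKL
import Crest.Prelude.Def_MatchingPolytope

/-!
# R304/BPoly: Edmonds' theorem, the dimension of the faces
-/

set_option autoImplicit false

namespace Crest.Agent.R304

open Finset Module Filter Topology Crest.Matchings

section General
variable {V E : Type} [DecidableEq V] [Fintype E] {a b : E → V} {W S T : Finset V} {x : E → ℝ}

theorem Q.exists_M (h : Q W a b x) : ∃ M : Finset E, (∀ e ∈ M, x e ≠ 0) ∧
    ∀ T, Tight W a b x T → ∑ e ∈ M, chi a b T e = 1 := by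
  by_cases h0 : ∃ e, x e ≠ 0
  · obtain ⟨e, he⟩ := h0
    obtain ⟨M, -, h1, h2⟩ := h.kl he
    exact ⟨M, h1, h2⟩
  · push Not at h0
    exact ⟨∅, by simp, fun T hT => absurd (funext fun e => by simp [cv, h0]) hT.cv_ne_zero⟩

theorem Q.one_edge (h : Q W a b x) (hT : ∑ e, cv a b x T e = 1) {f e : E} (hf : x f = 1)
    (hf' : chi a b T f ≠ 0) (h0 : x e ≠ 0) (h1 : x e ≠ 1) : chi a b T e = 0 := by
  classical
  by_contra h2
  have hne : f ≠ e := fun h' => h1 (h' ▸ hf)
  have h3 : ∑ g ∈ {f, e}, cv a b x T g ≤ ∑ g, cv a b x T g :=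
    sum_le_sum_of_subset_of_nonneg (subset_univ _) fun g _ _ => h.cv_nonneg _ _
  rw [sum_pair hne, hT, cv, cv, chi_eq_one hf', chi_eq_one h2, hf] at h3
  exact h0 (le_antisymm (by linarith) (h.nonneg e))

open Classical in
/-- The rank bound for the fractional part. -/
theorem Q.exists_dirs_frac (h : Q W a b x) (hf : ∃ e, x e ≠ 0 ∧ x e ≠ 1) :
    ∃ D : Submodule ℝ (E → ℝ), (∀ d ∈ D, Dir W a b x d) ∧
      ((univ.filter fun e => x e ≠ 0 ∧ x e ≠ 1).card : ℝ) + 2 ≤
        finrank ℝ D + 3 * ∑ e ∈ univ.filter (fun e => x e ≠ 0 ∧ x e ≠ 1), x e := by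
  set x' : E → ℝ := fun e => if x e = 1 then 0 else x e with hx'
  set W' := W.filter fun v => ∀ e, x e = 1 → a e ≠ v ∧ b e ≠ v with hW'
  have hx0 : ∀ e, x' e ≠ 0 ↔ x e ≠ 0 ∧ x e ≠ 1 := fun e => by
    by_cases h1 : x e = 1 <;> simp [hx', h1]
  have hne1 : ∀ {e}, x e = 1 → x e ≠ 0 := fun h1 => h1.trans_ne one_ne_zero
  have hout : ∀ v ∈ W, v ∉ W' → ∃ f, x f = 1 ∧ chi a b {v} f ≠ 0 := fun v hv hv' => by
    by_contra h1
    push Not at h1
    refine hv' (mem_filter.2 ⟨hv, fun e he => ?_⟩)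
    have h2 := h1 e he
    rw [chi_single (h.ne e (hne1 he))] at h2
    constructor <;> intro h3 <;> split_ifs at h2 <;> simp_all
  have hends : ∀ e, x' e ≠ 0 → a e ∈ W' ∧ b e ∈ W' := fun e he => by
    obtain ⟨h0, h1⟩ := (hx0 e).1 he
    constructor
    · by_contra h2
      obtain ⟨f, hf, hf'⟩ := hout _ (h.ends e h0).1 h2
      have := h.one_edge (h.star _ (h.ends e h0).1) hf hf' h0 h1
      rw [chi_single (h.ne e h0), if_pos rfl, if_neg (h.ne e h0).symm] at this
      norm_num at this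
    · by_contra h2
      obtain ⟨f, hf, hf'⟩ := hout _ (h.ends e h0).2 h2
      have := h.one_edge (h.star _ (h.ends e h0).2) hf hf' h0 h1
      rw [chi_single (h.ne e h0), if_pos rfl, if_neg (h.ne e h0)] at this
      norm_num at this
  have hone : ∀ e, x e = 1 → a e ∉ W' ∧ b e ∉ W' := fun e he =>
    ⟨fun h' => ((mem_filter.1 h').2 e he).1 rfl, fun h' => ((mem_filter.1 h').2 e he).2 rfl⟩
  have hcv : ∀ S, (∀ e, x e = 1 → chi a b S e = 0) → cv a b x' S = cv a b x S := fun S hS => by
    funext e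
    by_cases h1 : x e = 1
    · simp [cv, hS e h1]
    · simp [cv, hx', h1]
  have hcv' : ∀ S ⊆ W', cv a b x' S = cv a b x S := fun S hS => hcv S fun e he =>
    if_pos (iff_of_false (fun h' => (hone e he).1 (hS h')) fun h' => (hone e he).2 (hS h'))
  have hQ : Q W' a b x' := by
    refine ⟨fun e => ?_, hends, fun e he => h.ne e ((hx0 e).1 he).1, fun v hv => ?_,
      fun S hS ho => ?_⟩
    · simp only [hx']
      split_ifs
      exacts [le_rfl, h.nonneg e]
    · rw [hcv' _ (singleton_subset_iff.2 hv), h.star v (mem_filter.1 hv).1]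
    · rw [hcv' _ hS]
      exact h.odd S (hS.trans (filter_subset _ _)) ho
  obtain ⟨e₀, he₀⟩ := hf
  obtain ⟨D, hD, hdim⟩ := hQ.exists_dirs ⟨_, (hends e₀ ((hx0 e₀).2 he₀)).1⟩
  refine ⟨D, fun d hd => ⟨fun e he => (hD d hd).1 e (by simp [hx', he]), fun T hT => ?_⟩, ?_⟩
  · by_cases hc : ∃ f, x f = 1 ∧ chi a b T f ≠ 0
    · obtain ⟨f, hf, hf'⟩ := hc
      refine sum_eq_zero fun e _ => ?_
      by_cases he : x' e = 0
      · rw [cv, (hD d hd).1 e he, mul_zero]
      · rw [cv, h.one_edge hT.val hf hf' ((hx0 e).1 he).1 ((hx0 e).1 he).2, zero_mul]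
    · push Not at hc
      have h1 : ∀ y : E → ℝ, (∀ e, x' e = 0 → y e = 0) → cv a b y (T ∩ W') = cv a b y T :=
        fun y hy => funext fun e => by
          by_cases he : x' e = 0
          · simp [cv, hy e he]
          · simp [cv, chi, (hends e he).1, (hends e he).2]
      have h2 : Even (T \ W').card := by
        refine even_of_matched (a := a) (b := b) (M := univ.filter fun e => x e = 1)
          (fun e he => h.ne e (hne1 (mem_filter.1 he).2)) (fun v hv => ?_) fun e he => ?_
        · have hvW := hT.sub (mem_sdiff.1 hv).1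
          obtain ⟨f, hf, hf'⟩ := hout v hvW (mem_sdiff.1 hv).2
          refine Eq.trans ?_ (h.star v hvW)
          rw [sum_filter]
          refine sum_congr rfl fun e _ => ?_
          by_cases h3 : x e = 1
          · rw [if_pos h3, cv, h3, mul_one]
          · rw [if_neg h3]
            by_cases h4 : x e = 0
            · rw [cv, h4, mul_zero]
            · rw [cv, h.one_edge (h.star v hvW) hf hf' h4 h3, zero_mul]
        · have h3 := (mem_filter.1 he).2
          have h4 : a e ∈ T ↔ b e ∈ T := by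
            by_contra h4
            exact chi_ne_zero.2 h4 (hc e h3)
          simp [chi, (hone e h3).1, (hone e h3).2, h4]
      rw [← h1 d (hD d hd).1]
      refine (hD d hd).2 _ ⟨inter_subset_right, ?_, ?_⟩
      · have h3 := card_sdiff_add_card_inter T W'
        have h4 := hT.odd
        rw [Nat.even_iff] at h2
        rw [Nat.odd_iff] at *
        omega
      · rw [h1 x' fun _ he => he, hcv T hc, hT.val]
  · have h1 := hQ.two_sum
    have h2 : ∑ e, x' e = ∑ e ∈ univ.filter (fun e => x e ≠ 0 ∧ x e ≠ 1), x e := by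
      rw [sum_filter]
      refine sum_congr rfl fun e _ => ?_
      by_cases h3 : x e = 1
      · simp [hx', h3]
      · by_cases h4 : x e = 0 <;> simp [hx', h3, h4]
    have h3 : (univ.filter fun e => x' e ≠ 0) = univ.filter fun e => x e ≠ 0 ∧ x e ≠ 1 :=
      filter_congr fun e _ => hx0 e
    rw [h3] at hdim
    have h4 : (2 * (univ.filter fun e => x e ≠ 0 ∧ x e ≠ 1).card + 4 : ℝ) ≤
        2 * finrank ℝ D + 3 * W'.card := by exact_mod_cast hdim
    linarith

theorem exists_pos_both {P : ℝ → Prop} (h : ∀ᶠ t in 𝓝 (0 : ℝ), P t) :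
    ∃ t, 0 < t ∧ P t ∧ P (-t) := by
  obtain ⟨ε, hε, h⟩ := Metric.eventually_nhds_iff.1 h
  refine ⟨ε / 2, by positivity, h ?_, h ?_⟩
  · rw [Real.dist_eq, sub_zero, abs_of_pos (by positivity)]; linarith
  · rw [Real.dist_eq, sub_zero, abs_neg, abs_of_pos (by positivity)]; linarith

end General

variable {v k : ℕ} {ends : Fin k → Fin v × Fin v}

/-- First endpoint. -/
abbrev ea (ends : Fin k → Fin v × Fin v) : Fin k → Fin v := fun e => (ends e).1

/-- Second endpoint. -/
abbrev eb (ends : Fin k → Fin v × Fin v) : Fin k → Fin v := fun e => (ends e).2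

theorem chi_star (hends : ∀ e, (ends e).1 ≠ (ends e).2) (w : Fin v) (e : Fin k) :
    chi (ea ends) (eb ends) {w} e = if (ends e).1 = w ∨ (ends e).2 = w then 1 else 0 := by
  have := hends e
  unfold chi
  by_cases h1 : (ends e).1 = w <;> by_cases h2 : (ends e).2 = w <;> simp_all

theorem isPM_iff (hends : ∀ e, (ends e).1 ≠ (ends e).2) {M : Finset (Fin k)} :
    IsPerfectMatching ends M ↔ ∀ w, ∑ e ∈ M, chi (ea ends) (eb ends) {w} e = 1 := by
  refine forall_congr' fun w => ?_
  simp only [chi_star hends, sum_boole, Nat.cast_eq_one]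

theorem sum_cv_ind (a b : Fin k → Fin v) (M : Finset (Fin k)) (T : Finset (Fin v)) :
    ∑ e, cv a b (pmIndicator M) T e = ∑ e ∈ M, chi a b T e := by
  simp [cv, pmIndicator]

theorem Q_ind (hends : ∀ e, (ends e).1 ≠ (ends e).2) {M : Finset (Fin k)}
    (hM : IsPerfectMatching ends M) : Q univ (ea ends) (eb ends) (pmIndicator M) := by
  rw [isPM_iff hends] at hM
  refine ⟨fun e => ?_, fun e _ => ⟨mem_univ _, mem_univ _⟩, fun e _ => hends e,
    fun w _ => by rw [sum_cv_ind, hM], fun S _ ho => ?_⟩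
  · unfold pmIndicator
    split_ifs <;> norm_num
  · rw [sum_cv_ind]
    by_contra h1
    refine Nat.not_even_iff_odd.2 ho (even_of_matched (fun e _ => hends e) (fun w _ => hM w)
      fun e he => ?_)
    by_contra h2
    exact h1 ((chi_eq_one h2).symm.trans_le (single_le_sum (fun f _ => chi_nonneg _ _ _ f) he))

theorem convex_Q (hends : ∀ e, (ends e).1 ≠ (ends e).2) :
    Convex ℝ {x | Q univ (ea ends) (eb ends) x} := by
  intro x hx y hy s t hs ht hst
  have h1 : ∀ T, ∑ e, cv (ea ends) (eb ends) (s • x + t • y) T e =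
      s * ∑ e, cv (ea ends) (eb ends) x T e + t * ∑ e, cv (ea ends) (eb ends) y T e := fun T => by
    rw [cv_add_smul, mul_sum _ _ s]
    congr 1
    exact sum_congr rfl fun e _ => by simp only [cv, Pi.smul_apply, smul_eq_mul]; ring
  refine ⟨fun e => add_nonneg (mul_nonneg hs (hx.nonneg e)) (mul_nonneg ht (hy.nonneg e)),
    fun e _ => ⟨mem_univ _, mem_univ _⟩, fun e _ => hends e, fun w hw => ?_, fun S hS ho => ?_⟩
  · rw [h1, hx.star w hw, hy.star w hw]; linarith
  · rw [h1]
    nlinarith [mul_le_mul_of_nonneg_left (hx.odd S hS ho) hs,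
      mul_le_mul_of_nonneg_left (hy.odd S hS ho) ht]

theorem isCompact_Q (hends : ∀ e, (ends e).1 ≠ (ends e).2) :
    IsCompact {x | Q univ (ea ends) (eb ends) x} := by
  refine (isCompact_Icc (a := (0 : Fin k → ℝ)) (b := 1)).of_isClosed_subset ?_
    fun x hx => ⟨hx.nonneg, hx.le_one⟩
  have hc : ∀ T, Continuous fun x : Fin k → ℝ => ∑ e, cv (ea ends) (eb ends) x T e := fun T => by
    unfold cv
    fun_prop
  have : {x | Q univ (ea ends) (eb ends) x} = (⋂ e, {x : Fin k → ℝ | 0 ≤ x e}) ∩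
      ((⋂ w, {x | ∑ e, cv (ea ends) (eb ends) x {w} e = 1}) ∩
        ⋂ S : {S : Finset (Fin v) // Odd S.card}, {x | 1 ≤ ∑ e, cv (ea ends) (eb ends) x S.1 e}) := by
    ext x
    simp only [Set.mem_inter_iff, Set.mem_iInter]
    exact ⟨fun h => ⟨h.nonneg, fun w => h.star w (mem_univ _), fun S => h.odd S (subset_univ _) S.2⟩,
      fun h => ⟨h.1, fun e _ => ⟨mem_univ _, mem_univ _⟩, fun e _ => hends e, fun w _ => h.2.1 w,
        fun S _ ho => h.2.2 ⟨S, ho⟩⟩⟩
  rw [this]
  exact (isClosed_iInter fun e => isClosed_le continuous_const (continuous_apply e)).inter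
    ((isClosed_iInter fun w => isClosed_eq (hc _) continuous_const).inter
      (isClosed_iInter fun S => isClosed_le continuous_const (hc _)))

/-- Edmonds' perfect matching polytope theorem. -/
theorem mem_pmPolytope_iff_Q (hends : ∀ e, (ends e).1 ≠ (ends e).2) {x : Fin k → ℝ} :
    x ∈ pmPolytope ends ↔ Q univ (ea ends) (eb ends) x := by
  refine ⟨fun h => convexHull_min (t := {x | Q univ (ea ends) (eb ends) x}) ?_ (convex_Q hends) h,
    fun h => ?_⟩
  · rintro _ ⟨M, hM, rfl⟩
    exact Q_ind hends hM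
  have h1 : x ∈ closure (convexHull ℝ (Set.extremePoints ℝ {x | Q univ (ea ends) (eb ends) x})) := by
    rw [closure_convexHull_extremePoints (isCompact_Q hends) (convex_Q hends)]
    exact h
  refine closure_minimal (convexHull_mono fun y hy => ?_)
    (((Set.toFinite _).image _).isClosed_convexHull ℝ) h1
  obtain ⟨hy, hy'⟩ := mem_extremePoints_iff_left.1 hy
  obtain ⟨M, h2, h3⟩ := Q.exists_M hy
  have hd : Dir univ (ea ends) (eb ends) y (pmIndicator M + (-1 : ℝ) • y) := by
    refine ⟨fun e he => ?_, fun T hT => ?_⟩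
    · have : e ∉ M := fun h' => h2 e h' he
      simp [pmIndicator, this, he]
    · rw [cv_add_smul, sum_cv_ind, h3 T hT, hT.val]; norm_num
  obtain ⟨t, ht, h4, h5⟩ := exists_pos_both (Q.eventually_add hy hd)
  have h6 := hy' _ h4 _ h5 (by
    rw [neg_smul t, ← sub_eq_add_neg]
    exact mem_openSegment_add_sub _ _)
  rw [add_eq_left, smul_eq_zero_iff_right ht.ne', neg_one_smul, add_neg_eq_zero] at h6
  exact ⟨M, (isPM_iff hends).2 fun w => h3 _ (Q.tight_single hy (mem_univ w)), h6⟩

theorem marginal_eq (p : Finset (Fin k) → ℝ) (e : Fin k) :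
    marginal p e = ∑ M, p M * pmIndicator M e := by
  simp [marginal, pmIndicator, sum_filter]

theorem mem_pmPolytope_iff_law {x : Fin k → ℝ} :
    x ∈ pmPolytope ends ↔ ∃ p, IsMatchingLaw ends p ∧ ∀ e, marginal p e = x e := by
  classical
  constructor
  · refine fun h => convexHull_min
      (t := {y : Fin k → ℝ | ∃ p, IsMatchingLaw ends p ∧ ∀ e, marginal p e = y e}) ?_ ?_ h
    · rintro _ ⟨M, hM, rfl⟩
      refine ⟨Pi.single M 1, ⟨fun N => ?_, by simp, fun N hN => ?_⟩, fun e => ?_⟩
      · by_cases h' : N = M <;> simp [h']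
      · by_cases h' : N = M
        · exact h' ▸ hM
        · simp [h'] at hN
      · rw [marginal_eq]
        simp [Pi.single_apply]
    · rintro x ⟨p, hp, hx⟩ y ⟨q, hq, hy⟩ s t hs ht hst
      refine ⟨s • p + t • q, ⟨fun M => add_nonneg (mul_nonneg hs (hp.1 M)) (mul_nonneg ht (hq.1 M)),
        ?_, fun M hM => ?_⟩, fun e => ?_⟩
      · simp only [Pi.add_apply, Pi.smul_apply, smul_eq_mul, sum_add_distrib, ← mul_sum, hp.2.1,
          hq.2.1, mul_one, hst]
      · by_contra h'
        have h1 : p M = 0 := by_contra fun h1 => h' (hp.2.2 M h1)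
        have h2 : q M = 0 := by_contra fun h2 => h' (hq.2.2 M h2)
        simp [h1, h2] at hM
      · simp only [Pi.add_apply, Pi.smul_apply, smul_eq_mul, ← hx, ← hy, marginal, sum_add_distrib,
          mul_sum]
  · rintro ⟨p, hp, hx⟩
    have h1 : x = ∑ M ∈ univ.filter (fun M => p M ≠ 0), p M • pmIndicator M := by
      funext e
      rw [← hx, marginal_eq, Finset.sum_apply]
      exact (sum_filter_of_ne fun M _ hM => left_ne_zero_of_mul hM).symm
    rw [h1]
    exact (convex_convexHull ℝ _).sum_mem (fun M _ => hp.1 M) (by rw [sum_filter_ne_zero, hp.2.1])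
      fun M hM => subset_convexHull ℝ _ ⟨M, hp.2.2 M (mem_filter.1 hM).2, rfl⟩

/-- The statement `S0466`. -/
theorem face_bound (m : ℕ) (hm : 1 ≤ m) (k : ℕ)
    (ends : Fin k → Fin (2 * m) × Fin (2 * m)) (hends : ∀ e, (ends e).1 ≠ (ends e).2)
    (x : Fin k → ℝ) (hx : x ∈ pmPolytope ends) :
    ((Finset.univ.filter fun e => 0 < x e).card : ℤ) - (pmFaceDim ends x : ℤ) ≤ 3 * (m : ℤ) - 2 := by
  have h := (mem_pmPolytope_iff_Q hends).1 hx
  obtain ⟨D, hD, hdim⟩ := h.exists_dirs ⟨⟨0, by omega⟩, mem_univ _⟩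
  have h1 : finrank ℝ D ≤ pmFaceDim ends x := by
    refine Submodule.finrank_mono fun d hd => Submodule.subset_span ?_
    obtain ⟨ε, hε, h2⟩ := Metric.eventually_nhds_iff.1 (h.eventually_add (hD d hd))
    exact ⟨ε, hε, fun t ht => (mem_pmPolytope_iff_Q hends).2
      (h2 (by rwa [Real.dist_eq, sub_zero]))⟩
  have h2 : (univ.filter fun e => 0 < x e).card ≤ (univ.filter fun e => x e ≠ 0).card :=
    card_le_card fun e he => by simpa using (mem_filter.1 he).2.ne'
  rw [card_univ, Fintype.card_fin] at hdim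
  omega

end Crest.Agent.R304
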