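import Crest.Agent.R304.BDefs

/-!
# R304/BTutte: every edge of the support of a point of `Q` lies in a perfect matching (Tutte)
-/

set_option autoImplicit false

namespace Crest.Agent.R304

open Finset

variable {V E : Type} [DecidableEq V]

/-- Tutte's theorem for a relation on a finite set of even size. -/
theorem tutte_fin (W : Finset V) (R : V → V → Prop) (hs : ∀ s t, R s t → R t s)
    (hi : ∀ s, ¬R s s) (hev : Even W.card)
    (h : ∀ (U : Finset V) (I : Type) (C : Finset I) (S : I → Finset V), U ⊆ W →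
      (∀ c ∈ C, S c ⊆ W \ U ∧ Odd (S c).card ∧ ∀ s ∈ S c, ∀ t ∈ W \ U, R s t → t ∈ S c) →
      (∀ v, ∀ c ∈ C, ∀ d ∈ C, v ∈ S c → v ∈ S d → c = d) → C.card < U.card + 2) :
    ∃ μ : V → V, ∀ s ∈ W, μ s ∈ W ∧ R s (μ s) ∧ μ (μ s) = s := by
  classical
  let G : SimpleGraph W :=
    { Adj := fun s t => R s t
      symm := ⟨fun s t => hs s t⟩
      loopless := ⟨fun s => hi s⟩ }
  have key : ∀ u, ¬G.IsTutteViolator u := by
    intro u hu
    unfold SimpleGraph.IsTutteViolator at hu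
    set H := ((⊤ : G.Subgraph).deleteVerts u).coe with hH
    let ι : ((⊤ : G.Subgraph).deleteVerts u).verts → V := fun z => z.1.1
    have hι : Function.Injective ι := fun z w hzw => Subtype.ext (Subtype.ext hzw)
    let U : Finset V := u.toFinite.toFinset.image Subtype.val
    have hU : U.card = u.ncard := by
      rw [card_image_of_injective _ Subtype.val_injective, Set.ncard_eq_toFinset_card u]
    have hmem : ∀ z : W, z.1 ∈ U ↔ z ∈ u := fun z => by
      simp only [U, mem_image, Set.Finite.mem_toFinset]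
      exact ⟨fun ⟨w, hw, e⟩ => Subtype.ext e ▸ hw, fun hz => ⟨z, hz, rfl⟩⟩
    have h1 := h U H.ConnectedComponent H.oddComponents.toFinite.toFinset
      (fun c => c.supp.toFinite.toFinset.image ι) (fun v hv => by
        obtain ⟨z, -, rfl⟩ := mem_image.1 hv
        exact z.2) (fun c hc => ⟨fun v hv => by
          obtain ⟨z, -, rfl⟩ := mem_image.1 hv
          exact mem_sdiff.2 ⟨z.1.2, fun h' => z.2.2 ((hmem z.1).1 h')⟩, by
          rw [card_image_of_injective _ hι, ← Set.ncard_eq_toFinset_card c.supp]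
          exact (H.oddComponents.toFinite.mem_toFinset).1 hc, fun s hs t ht hst => by
          obtain ⟨z, hz, rfl⟩ := mem_image.1 hs
          obtain ⟨ht1, ht2⟩ := mem_sdiff.1 ht
          let w : ((⊤ : G.Subgraph).deleteVerts u).verts :=
            ⟨⟨t, ht1⟩, trivial, fun h' => ht2 ((hmem ⟨t, ht1⟩).2 h')⟩
          have hadj : H.Adj z w := by
            refine SimpleGraph.Subgraph.deleteVerts_adj.2 ⟨trivial, z.2.2, trivial, w.2.2, hst⟩
          exact mem_image.2 ⟨w, (Set.Finite.mem_toFinset _).2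
            (c.mem_supp_of_adj_mem_supp ((Set.Finite.mem_toFinset _).1 hz) hadj), rfl⟩⟩)
      (fun v c _ d _ hc hd => by
        obtain ⟨z, hz, rfl⟩ := mem_image.1 hc
        obtain ⟨w, hw, e⟩ := mem_image.1 hd
        obtain rfl := hι e
        exact SimpleGraph.ConnectedComponent.eq_of_common_vertex
          ((Set.Finite.mem_toFinset _).1 hz) ((Set.Finite.mem_toFinset _).1 hw))
    rw [← Set.ncard_eq_toFinset_card H.oddComponents, hU] at h1
    have h2 := H.odd_ncard_oddComponents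
    have h3 : Nat.card ((⊤ : G.Subgraph).deleteVerts u).verts + u.ncard = W.card := by
      have e : ((⊤ : G.Subgraph).deleteVerts u).verts = uᶜ := by
        ext z
        simp
      rw [Nat.card_coe_set_eq, e, add_comm, Set.ncard_add_ncard_compl, Nat.card_eq_fintype_card,
        Fintype.card_coe]
    rw [Nat.odd_iff, Nat.odd_iff] at h2
    rw [Nat.even_iff] at hev
    omega
  obtain ⟨M, hM⟩ := SimpleGraph.tutte.2 key
  choose μ hμ hμ' using SimpleGraph.Subgraph.isPerfectMatching_iff.1 hM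
  refine ⟨fun s => if hs : s ∈ W then μ ⟨s, hs⟩ else s, fun s hs => ?_⟩
  simp only [dif_pos hs, dif_pos (μ ⟨s, hs⟩).2]
  refine ⟨(μ ⟨s, hs⟩).2, M.adj_sub (hμ ⟨s, hs⟩), ?_⟩
  exact (congrArg Subtype.val (hμ' (μ ⟨s, hs⟩) ⟨s, hs⟩ (hμ ⟨s, hs⟩).symm)).symm

variable [Fintype E] {a b : E → V} {W : Finset V} {x : E → ℝ}

theorem Q.tutte_cond (h : Q W a b x) {e₀ : E} (he : x e₀ ≠ 0) (U : Finset V) (I : Type)
    (C : Finset I) (S : I → Finset V) (hU : U ⊆ W \ {a e₀, b e₀})
    (hS : ∀ c ∈ C, S c ⊆ (W \ {a e₀, b e₀}) \ U ∧ Odd (S c).card ∧ ∀ s ∈ S c,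
      ∀ t ∈ (W \ {a e₀, b e₀}) \ U, (∃ e, x e ≠ 0 ∧ s(a e, b e) = s(s, t)) → t ∈ S c)
    (hd : ∀ v, ∀ c ∈ C, ∀ d ∈ C, v ∈ S c → v ∈ S d → c = d) : C.card < U.card + 2 := by
  classical
  set U' := U ∪ {a e₀, b e₀} with hU'
  have hP : ({a e₀, b e₀} : Finset V) ⊆ W := by
    intro v hv
    rcases mem_insert.1 hv with rfl | hv
    · exact (h.ends e₀ he).1
    · rw [mem_singleton.1 hv]; exact (h.ends e₀ he).2
  have hU'W : U' ⊆ W := union_subset (hU.trans sdiff_subset) hP
  have hcard : (U'.card : ℝ) ≤ U.card + 2 := by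
    have h1 := card_union_le U {a e₀, b e₀}
    have h2 : ({a e₀, b e₀} : Finset V).card ≤ 2 := card_le_two
    exact_mod_cast h1.trans (by omega)
  have hout : ∀ v ∈ W, v ∉ U' → v ∈ (W \ {a e₀, b e₀}) \ U := fun v hv hv' =>
    mem_sdiff.2 ⟨mem_sdiff.2 ⟨hv, fun h' => hv' (mem_union_right _ h')⟩,
      fun h' => hv' (mem_union_left _ h')⟩
  have hone : ∀ (v : V) (β : ℝ), 0 ≤ β → ∑ c ∈ C, (if v ∈ S c then β else 0) ≤ β := by
    intro v β hβ
    rw [← sum_filter, sum_const, nsmul_eq_mul]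
    refine mul_le_of_le_one_left hβ ?_
    exact_mod_cast card_le_one.2 fun c hc d hd' => hd v c (mem_filter.1 hc).1 d (mem_filter.1 hd').1
      (mem_filter.1 hc).2 (mem_filter.1 hd').2
  have hle : ∀ e ∈ (univ : Finset E), ∑ c ∈ C, cv a b x (S c) e ≤ ∑ w ∈ U', cv a b x {w} e := by
    intro e _
    by_cases h0 : x e = 0
    · simp [cv, h0]
    simp only [cv, ← sum_mul]
    refine mul_le_mul_of_nonneg_right ?_ (h.nonneg e)
    rw [sum_chi_single (h.ne e h0)]
    refine le_trans (sum_le_sum (g := fun c =>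
      (if b e ∈ S c then (if a e ∈ U' then (1 : ℝ) else 0) else 0) +
        if a e ∈ S c then (if b e ∈ U' then (1 : ℝ) else 0) else 0) fun c hc => ?_) ?_
    · unfold chi
      by_cases h1 : a e ∈ S c <;> by_cases h2 : b e ∈ S c
      · rw [if_pos (iff_of_true h1 h2)]; positivity
      · have h3 : b e ∈ U' := by
          by_contra h3
          exact h2 ((hS c hc).2.2 _ h1 _ (hout _ (h.ends e h0).2 h3) ⟨e, h0, rfl⟩)
        simp [h1, h2, h3]
      · have h3 : a e ∈ U' := by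
          by_contra h3
          exact h1 ((hS c hc).2.2 _ h2 _ (hout _ (h.ends e h0).1 h3) ⟨e, h0, Sym2.eq_swap⟩)
        simp [h1, h2, h3]
      · simp [h1, h2]
    · rw [sum_add_distrib]
      exact add_le_add (hone _ _ (by positivity)) (hone _ _ (by positivity))
  have hlt : ∑ c ∈ C, cv a b x (S c) e₀ < ∑ w ∈ U', cv a b x {w} e₀ := by
    have h1 : a e₀ ∈ U' := mem_union_right _ (by simp)
    have h2 : b e₀ ∈ U' := mem_union_right _ (by simp)
    simp only [cv, ← sum_mul]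
    refine mul_lt_mul_of_pos_right ?_ (lt_of_le_of_ne (h.nonneg _) he.symm)
    rw [sum_chi_single (h.ne e₀ he), if_pos h1, if_pos h2, sum_eq_zero fun c hc => ?_]
    · norm_num
    · exact if_pos (iff_of_false
        (fun h' => (mem_sdiff.1 (mem_sdiff.1 ((hS c hc).1 h')).1).2 (by simp))
        fun h' => (mem_sdiff.1 (mem_sdiff.1 ((hS c hc).1 h')).1).2 (by simp))
  have h1 := sum_lt_sum hle ⟨e₀, mem_univ _, hlt⟩
  rw [sum_comm, sum_comm (s := univ), sum_congr rfl fun w hw => h.star w (hU'W hw), sum_const,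
    nsmul_eq_mul, mul_one] at h1
  have h2 : (C.card : ℝ) ≤ ∑ c ∈ C, ∑ e, cv a b x (S c) e := by
    rw [card_eq_sum_ones C, Nat.cast_sum, Nat.cast_one]
    exact sum_le_sum fun c hc =>
      h.odd _ ((hS c hc).1.trans (sdiff_subset.trans sdiff_subset)) (hS c hc).2.1
  exact_mod_cast (h2.trans_lt h1).trans_le hcard

theorem Q.exists_pm (h : Q W a b x) {e₀ : E} (he : x e₀ ≠ 0) :
    ∃ M : Finset E, e₀ ∈ M ∧ (∀ e ∈ M, x e ≠ 0) ∧ ∀ v ∈ W, ∑ e ∈ M, chi a b {v} e = 1 := by
  classical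
  set W₀ := W \ {a e₀, b e₀} with hW₀
  have hP : ({a e₀, b e₀} : Finset V) ⊆ W := by
    intro v hv
    rcases mem_insert.1 hv with rfl | hv
    · exact (h.ends e₀ he).1
    · rw [mem_singleton.1 hv]; exact (h.ends e₀ he).2
  have hev : Even W₀.card := by
    have h1 := card_sdiff_add_card_eq_card hP
    have h2 := h.even
    rw [card_pair (h.ne e₀ he), ← hW₀] at h1
    rw [Nat.even_iff] at *
    omega
  obtain ⟨μ, hμ⟩ := tutte_fin W₀ (fun s t => ∃ e, x e ≠ 0 ∧ s(a e, b e) = s(s, t))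
    (fun s t ⟨e, h1, h2⟩ => ⟨e, h1, h2.trans Sym2.eq_swap⟩)
    (fun s ⟨e, h1, h2⟩ => h.ne e h1 (by
      rcases Sym2.eq_iff.1 h2 with h3 | h3 <;> rw [h3.1, h3.2])) hev (h.tutte_cond he)
  have hpick : ∀ z : Sym2 V, ∃ e, (∃ e, x e ≠ 0 ∧ s(a e, b e) = z) → x e ≠ 0 ∧ s(a e, b e) = z :=
    fun z => by
      by_cases hz : ∃ e, x e ≠ 0 ∧ s(a e, b e) = z
      · obtain ⟨e, h'⟩ := hz
        exact ⟨e, fun _ => h'⟩
      · exact ⟨e₀, fun h' => absurd h' hz⟩
  choose pick hpick using hpick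
  have hp : ∀ s ∈ W₀, x (pick s(s, μ s)) ≠ 0 ∧
      s(a (pick s(s, μ s)), b (pick s(s, μ s))) = s(s, μ s) := fun s hs => hpick _ (hμ s hs).2.1
  have hM : ∀ e ∈ insert e₀ (W₀.image fun s => pick s(s, μ s)), x e ≠ 0 := fun e he' => by
    rcases mem_insert.1 he' with rfl | he'
    · exact he
    · obtain ⟨s, hs, rfl⟩ := mem_image.1 he'
      exact (hp s hs).1
  have hchi : ∀ e v, x e ≠ 0 → (chi a b {v} e ≠ 0 ↔ v ∈ s(a e, b e)) := fun e v h0 => by
    have := h.ne e h0
    rw [chi_ne_zero, Sym2.mem_iff, mem_singleton, mem_singleton]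
    constructor
    · intro h1
      by_contra h2
      push Not at h2
      exact h1 (iff_of_false (fun h3 => h2.1 h3.symm) fun h3 => h2.2 h3.symm)
    · rintro (rfl | rfl) h1
      · exact this (h1.1 rfl).symm
      · exact this (h1.2 rfl)
  refine ⟨_, mem_insert_self _ _, hM, fun v hv => ?_⟩
  by_cases hv0 : v ∈ W₀
  · rw [sum_eq_single_of_mem (pick s(v, μ v))
      (mem_insert_of_mem (mem_image_of_mem (fun s => pick s(s, μ s)) hv0))]
    · refine chi_eq_one ((hchi _ _ (hp v hv0).1).2 ?_)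
      rw [(hp v hv0).2]
      exact Sym2.mem_mk_left _ _
    · intro e he' hne
      by_contra h0
      have h1 := (hchi _ _ (hM e he')).1 h0
      rcases mem_insert.1 he' with rfl | he'
      · exact (mem_sdiff.1 hv0).2 (by simpa using h1)
      · obtain ⟨s, hs, rfl⟩ := mem_image.1 he'
        rw [(hp s hs).2, Sym2.mem_iff] at h1
        rcases h1 with rfl | rfl
        · exact hne rfl
        · exact hne (by rw [(hμ s hs).2.2, Sym2.eq_swap])
  · rw [sum_eq_single_of_mem e₀ (mem_insert_self _ _)]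
    · refine chi_eq_one ((hchi _ _ he).2 ?_)
      by_contra h1
      exact hv0 (mem_sdiff.2 ⟨hv, by simpa using h1⟩)
    · intro e he' hne
      by_contra h0
      have h1 := (hchi _ _ (hM e he')).1 h0
      obtain ⟨s, hs, rfl⟩ := mem_image.1 ((mem_insert.1 he').resolve_left hne)
      rw [(hp s hs).2, Sym2.mem_iff] at h1
      rcases h1 with rfl | rfl
      · exact hv0 hs
      · exact hv0 (hμ s hs).1

end Crest.Agent.R304
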