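import Crest.Agent.R302.Opt

/-!
# R304/COpt: an oracle computation that ignores the oracle is polynomial time
-/

set_option autoImplicit false

namespace Crest.Agent.R304

open Crest.Agent.Lib.PT Crest.Agent.R302

theorem pt_of_opt {α β : Type} [Enc α] [Enc β] {f : α → β} (h : OPT fun (_ : Orc) a => f a) :
    PT f := by
  obtain ⟨S, N, hS, ⟨c, k, hN⟩, h⟩ := h
  let step : α → Tab → Tab := fun a t => Sum.elim (fun q => (q, 0) :: t) (fun _ => t) (S (t, a))
  let M : α → ℕ := fun a => c * sz a ^ k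
  have hM : PT M := (PT.const c).nat_mul ((sz_pt PT.id).nat_pow (PT.const k) (PB.const k))
  have hM' : PB M := (PB.const c).mul (PB.sz_self.pow k)
  have key : ∀ a, ∃ L : List Qy, sz L ≤ M a ∧ ∀ j,
      (∀ p ∈ (step a)^[j] [], p.1 ∈ L ∧ p.2 = 0) ∧ (((step a)^[j] []).map Prod.fst).Nodup ∧
      ((step a)^[j] []).length ≤ j ∧
      (S ((step a)^[j] [], a) = Sum.inr (f a) ∨ ((step a)^[j + 1] []).length = j + 1) := by
    intro a
    obtain ⟨-, L, hL, h2⟩ := h (fun _ => 0) a
    refine ⟨L, hL.trans (hN a), fun j => ?_⟩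
    have hc : ∀ t : Tab, (∀ p ∈ t, p.1 ∈ L ∧ p.2 = 0) → Cons (fun _ => 0) t := fun t ht q v hv => by
      obtain ⟨l1, l2, rfl, -⟩ := List.lookup_eq_some_iff.1 hv
      exact (ht (q, v) (by simp)).2
    induction j with
    | zero =>
      refine ⟨by simp, by simp, by simp, ?_⟩
      rcases h2 [] (hc _ (by simp)) with h3 | ⟨q, -, -, h3⟩
      · exact Or.inl h3
      · right; simp [step, h3]
    | succ j ih =>
      obtain ⟨i1, i2, i3, i4⟩ := ih
      have nx : ∀ t : Tab, (∀ p ∈ t, p.1 ∈ L ∧ p.2 = 0) → (t.map Prod.fst).Nodup →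
          (S (t, a) = Sum.inr (f a) ∧ step a t = t) ∨
          ((∀ p ∈ step a t, p.1 ∈ L ∧ p.2 = 0) ∧ ((step a t).map Prod.fst).Nodup ∧
            (step a t).length = t.length + 1) := fun t a1 a2 => by
        rcases h2 t (hc t a1) with h3 | ⟨q, hq, h4, h3⟩
        · exact Or.inl ⟨h3, by simp [step, h3]⟩
        · right
          have e : step a t = (q, 0) :: t := by simp [step, h3]
          rw [e]
          refine ⟨fun p hp => ?_, ?_, rfl⟩
          · rcases List.mem_cons.1 hp with rfl | hp
            exacts [⟨hq, rfl⟩, a1 p hp]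
          · rw [List.map_cons, List.nodup_cons]
            refine ⟨fun hm => ?_, a2⟩
            obtain ⟨p, hp, e⟩ := List.mem_map.1 hm
            have := List.lookup_eq_none_iff.1 h4 p hp
            simp [e] at this
      rw [Function.iterate_succ_apply' _ (j + 1)]
      rw [Function.iterate_succ_apply'] at i4 ⊢
      rcases nx _ i1 i2 with ⟨b1, b2⟩ | ⟨b1, b2, b3⟩
      · rw [b2]
        exact ⟨i1, i2, by omega, Or.inl b1⟩
      · refine ⟨b1, b2, by omega, ?_⟩
        rcases nx _ b1 b2 with ⟨c1, -⟩ | ⟨-, -, c3⟩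
        · exact Or.inl c1
        · rcases i4 with i4 | i4
          · have e : step a ((step a)^[j] []) = (step a)^[j] [] := by simp [step, i4]
            rw [e] at b3
            omega
          · right; omega
  have hstep : PT fun p : α × Tab => step p.1 p.2 :=
    PT.sum_elim (f := fun (p : α × Tab) q => (q, 0) :: p.2) (g := fun (p : α × Tab) _ => p.2)
      (hS.comp (by fun_prop)) (by fun_prop) (by fun_prop)
  have hit : PT fun a => (step a)^[M a] [] := by
    refine PT.iterate hM hM' (PT.const []) hstep (B := fun a => M a * (M a + 3) + 1)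
      (by fun_prop) fun a j hj => ?_
    obtain ⟨L, hL, h2⟩ := key a
    obtain ⟨i1, -, i3, -⟩ := h2 j
    refine (sz_list_le (B := M a + 2) fun p hp => ?_).trans ?_
    · obtain ⟨q, v⟩ := p
      obtain ⟨a1, a2⟩ := i1 _ hp
      simp only at a1 a2
      subst a2
      have := sz_le_of_mem a1
      have h0 : sz (0 : ℕ) = 1 := rfl
      rw [sz_mk]
      omega
    · exact Nat.add_le_add_right (Nat.mul_le_mul_right _ (by omega)) 1
  refine PT.of_enc_eq (g := fun a => (enc (S ((step a)^[M a] [], a))).right)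
    (hS.comp (hit.pair PT.id)).enc.right fun a => ?_
  obtain ⟨L, hL, h2⟩ := key a
  rcases (h2 (M a)).2.2.2 with h3 | h3
  · rw [h3, enc_inr, enc_V]; rfl
  · exfalso
    obtain ⟨i1, i2, -, -⟩ := h2 (M a + 1)
    have h4 : (((step a)^[M a + 1] []).map Prod.fst).length ≤ L.length :=
      (List.subperm_of_subset i2 fun q hq => by
        obtain ⟨p, hp, rfl⟩ := List.mem_map.1 hq
        exact (i1 p hp).1).length_le
    rw [List.length_map, h3] at h4
    have := length_le_sz L
    omega

theorem pt_of_hopt {ι ο β γ α : Type} [Enc ι] [Enc ο] [Enc β] [Enc γ] [Enc α]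
    {alg : (ι → ο) → β → γ} (H : HOPT alg) {h : α → ι → ο}
    (hh : PT fun p : α × ι => h p.1 p.2) {b : α → β} (hb : PT b) :
    PT fun a => alg (h a) (b a) :=
  pt_of_opt (H.app (h := fun _ => h) (OPT.pure hh) (OPT.pure hb))

end Crest.Agent.R304
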