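import Crest.Agent.R304.CDef
import Crest.Agent.R304.COpt
import Crest.Agent.R302.Tools

/-!
# R304/COdd: minimum odd cuts by submodular minimisation (Goemans and Ramakrishnan)
-/

set_option autoImplicit false

namespace Crest.Agent.R304

open Finset Crest.Matchings Crest.Agent.Lib.PT Crest.Agent.R302

section GR

variable {U : Type} [DecidableEq U]

theorem gr_in {g : Finset U → ℤ} (hg : Submod g) {S : Finset U} (hS : Odd S.card)
    (hmin : ∀ T, Odd T.card → g S ≤ g T) : ∃ a ∈ S, ∀ T ⊆ S, a ∈ T → g S ≤ g T := by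
  by_contra h
  push Not at h
  have h1 : ∀ a ∈ S, ∃ T, T ⊆ S ∧ a ∈ T ∧ g T < g S ∧ ∀ T' ⊆ S, a ∈ T' → g T ≤ g T' := by
    intro a ha
    obtain ⟨T₀, b1, b2, b3⟩ := h a ha
    obtain ⟨T, c1, c2⟩ := exists_min_image (S.powerset.filter (a ∈ ·)) g
      ⟨T₀, mem_filter.2 ⟨mem_powerset.2 b1, b2⟩⟩
    rw [mem_filter, mem_powerset] at c1
    exact ⟨T, c1.1, c1.2, (c2 T₀ (mem_filter.2 ⟨mem_powerset.2 b1, b2⟩)).trans_lt b3,
      fun T' d1 d2 => c2 T' (mem_filter.2 ⟨mem_powerset.2 d1, d2⟩)⟩
  choose! T t1 t2 t3 t4 using h1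
  have h2 : ∀ a ∈ S, ∀ V ⊆ S, g (V ∩ T a) ≤ g V := fun a ha V hV => by
    have := hg V (T a)
    have := t4 a ha (V ∪ T a) (union_subset hV (t1 a ha)) (mem_union_right _ (t2 a ha))
    omega
  have key : ∀ I : Finset U, I ⊆ S → ∀ V ⊆ S, (∀ a ∈ S, g (V ∩ T a) < g S) →
      Even (V ∩ I.biUnion T).card := by
    intro I
    induction I using Finset.induction_on with
    | empty => simp
    | insert a I _ ih =>
      intro hI V hV h3
      have ha : a ∈ S := hI (mem_insert_self _ _)
      have hI' : I ⊆ S := (subset_insert _ _).trans hI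
      have e1 := ih hI' V hV h3
      have e2 := ih hI' (V ∩ T a) (inter_subset_left.trans hV) fun b hb =>
        (h2 b hb _ (inter_subset_left.trans hV)).trans_lt (h3 a ha)
      have e3 : Even (V ∩ T a).card := Nat.not_odd_iff_even.1 fun ho =>
        absurd (hmin _ ho) (not_le.2 (h3 a ha))
      have e4 := card_union_add_card_inter (V ∩ T a) (V ∩ I.biUnion T)
      have e5 : V ∩ T a ∩ (V ∩ I.biUnion T) = V ∩ T a ∩ I.biUnion T := by
        ext x; simp only [mem_inter]; tauto
      rw [biUnion_insert, inter_union_distrib_left]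
      rw [e5] at e4
      obtain ⟨x, hx⟩ := e1
      obtain ⟨y, hy⟩ := e2
      obtain ⟨z, hz⟩ := e3
      exact ⟨x + z - y, by omega⟩
  have h5 := key S subset_rfl S subset_rfl fun a ha => by
    rw [inter_eq_right.2 (t1 a ha)]; exact t3 a ha
  rw [inter_eq_left.2 fun a ha => mem_biUnion.2 ⟨a, ha, t2 a ha⟩] at h5
  exact Nat.not_odd_iff_even.2 h5 hS

theorem gr_lemma [Fintype U] (hU : Even (Fintype.card U)) {g : Finset U → ℤ} (hg : Submod g)
    {S : Finset U} (hS : Odd S.card) (hmin : ∀ T, Odd T.card → g S ≤ g T) :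
    ∃ a ∈ S, ∃ b ∉ S, ∀ T, a ∈ T → b ∉ T → g S ≤ g T := by
  have hc : ∀ T : Finset U, Odd T.card → Odd Tᶜ.card := fun T hT => by
    have := card_add_card_compl T
    obtain ⟨x, hx⟩ := hT
    obtain ⟨y, hy⟩ := hU
    exact ⟨y - x - 1, by omega⟩
  obtain ⟨a, ha, h1⟩ := gr_in hg hS hmin
  obtain ⟨b, hb, h2⟩ := gr_in (g := fun T => g Tᶜ)
    (hg.comp' compl (fun A B => compl_union A B) (fun A B => compl_inter A B)) (hc S hS)
    (fun T hT => by simpa using hmin _ (hc T hT))
  refine ⟨a, ha, b, mem_compl.1 hb, fun T c1 c2 => ?_⟩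
  have e1 := h1 (T ∩ S) inter_subset_right (mem_inter.2 ⟨c1, ha⟩)
  have e2 := h2 (T ∪ S)ᶜ (compl_subset_compl.2 subset_union_right)
    (by simp [c2, mem_compl.1 hb])
  simp only [compl_compl] at e2
  have := hg T S
  omega

end GR

/-- the pairs `i < j < n` -/
def prs (n : ℕ) : List (ℕ × ℕ) :=
  ((List.range n).product (List.range n)).filter fun q => decide (q.1 < q.2)

/-- the pair crosses the set given by a mask -/
def crL (l : List Bool) (q : ℕ × ℕ) : Bool := l.getD q.1 false != l.getD q.2 false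

/-- the weight of a cut -/
def lcut (X : List ((ℕ × ℕ) × ℚ)) (l : List Bool) : ℚ :=
  (X.map fun p => if crL l p.1 = true then p.2 else 0).sum

/-- the size of a set -/
def lcard (n : ℕ) (l : List Bool) : ℕ := (List.range n).countP fun i => l.getD i false

/-- the weights scaled to integers -/
def zTab (X : List ((ℕ × ℕ) × ℚ)) : List ((ℕ × ℕ) × ℤ) :=
  X.map fun p => (p.1, ⌊p.2 * (((X.map fun p => p.2.den).prod : ℕ) : ℚ)⌋)

/-- the function to be minimised -/
def zg (n : ℕ) (Z : List ((ℕ × ℕ) × ℤ)) (l : List Bool) : ℤ :=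
  ((n : ℤ) + 1) * (Z.map fun p => if crL l p.1 = true then p.2 else 0).sum + lcard n l

/-- the size bound -/
def zK (n : ℕ) (Z : List ((ℕ × ℕ) × ℤ)) : ℕ :=
  Nat.size ((n + 1) * (Int.natAbs (Z.map fun p => p.2).sum + 1))

@[fun_prop] theorem prs_pt {α : Type} [Enc α] {n : α → ℕ} (hn : PT n) (hb : PB n) :
    PT fun a => prs (n a) := by unfold prs; fun_prop

@[fun_prop] theorem crL_pt {α : Type} [Enc α] {l : α → List Bool} {q : α → ℕ × ℕ} (hl : PT l)
    (hq : PT q) : PT fun a => crL (l a) (q a) := by unfold crL; fun_prop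

@[fun_prop] theorem lcut_pt {α : Type} [Enc α] {X : α → List ((ℕ × ℕ) × ℚ)} {l : α → List Bool}
    (hX : PT X) (hl : PT l) : PT fun a => lcut (X a) (l a) := by unfold lcut; fun_prop

@[fun_prop] theorem lcard_pt {α : Type} [Enc α] {n : α → ℕ} {l : α → List Bool} (hn : PT n)
    (hb : PB n) (hl : PT l) : PT fun a => lcard (n a) (l a) := by unfold lcard; fun_prop

@[fun_prop] theorem zTab_pt {α : Type} [Enc α] {X : α → List ((ℕ × ℕ) × ℚ)} (hX : PT X) :
    PT fun a => zTab (X a) := by unfold zTab; fun_prop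

@[fun_prop] theorem zg_pt {α : Type} [Enc α] {n : α → ℕ} {Z : α → List ((ℕ × ℕ) × ℤ)}
    {l : α → List Bool} (hn : PT n) (hb : PB n) (hZ : PT Z) (hl : PT l) :
    PT fun a => zg (n a) (Z a) (l a) := by unfold zg; fun_prop

theorem zK_pt {α : Type} [Enc α] {n : α → ℕ} {Z : α → List ((ℕ × ℕ) × ℤ)} (hn : PT n)
    (hZ : PT Z) : PT fun a => Un.mk (zK (n a) (Z a)) := by
  unfold zK; exact PT.un_size (by fun_prop)

variable {n : ℕ}

theorem sum_prs {β : Type} [AddCommMonoid β] (g : ℕ × ℕ → β) :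
    ((prs n).map g).sum = ∑ q ∈ ltPairs n, g (q.1.val, q.2.val) := by
  have hnd : (prs n).Nodup := (List.nodup_range.product List.nodup_range).filter _
  rw [← List.sum_toFinset _ hnd]
  symm
  refine sum_bij (fun q _ => (q.1.val, q.2.val)) (fun q hq => ?_) (fun a _ b _ h => ?_)
    (fun q hq => ?_) fun _ _ => rfl
  · have := mem_ltPairs.1 hq
    simpa [prs] using this
  · simp only [Prod.mk.injEq] at h
    exact Prod.ext (Fin.ext h.1) (Fin.ext h.2)
  · obtain ⟨a, b⟩ := q
    simp only [prs, List.mem_toFinset, List.mem_filter, List.pair_mem_product, List.mem_range,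
      decide_eq_true_eq] at hq
    exact ⟨(⟨a, hq.1.1⟩, ⟨b, hq.1.2⟩), mem_ltPairs.2 hq.2, rfl⟩

theorem crL_iff (l : List Bool) (q : Fin n × Fin n) :
    crL l (q.1.val, q.2.val) = true ↔ Cr (sOf n l) q := by
  simp only [crL, Cr, mem_sOf]
  cases l.getD q.1.val false <;> cases l.getD q.2.val false <;> simp

theorem lcard_eq (l : List Bool) : lcard n l = (sOf n l).card := by
  rw [lcard, List.countP_eq_length_filter, ← List.toFinset_card_of_nodup
    (List.nodup_range.filter _)]
  symm
  refine card_bij (fun i _ => i.val) (fun i hi => ?_) (fun a _ b _ h => Fin.ext h) fun i hi => ?_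
  · simpa using mem_sOf.1 hi
  · simp only [List.mem_toFinset, List.mem_filter, List.mem_range] at hi
    exact ⟨⟨i, hi.1⟩, mem_sOf.2 hi.2, rfl⟩

theorem lcut_eq (x : ℕ × ℕ → ℚ) (l : List Bool) :
    (lcut ((prs n).map fun q => (q, x q)) l : ℝ) =
      cCut (fun q => (x (q.1.val, q.2.val) : ℝ)) (sOf n l) := by
  rw [lcut, List.map_map, sum_prs, cCut]
  push_cast
  refine sum_congr rfl fun q _ => ?_
  simp only [Function.comp, crL_iff]
  split_ifs <;> simp

theorem exists_cand : ∃ cand : Un × List ((ℕ × ℕ) × ℚ) → List (List Bool), PT cand ∧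
    (∀ p, ∀ l ∈ cand p, l.length = p.1.n) ∧
    ∀ (n : ℕ) (x : ℕ × ℕ → ℚ), Even n → (∀ q, 0 ≤ x q) → ∀ S : Finset (Fin n), Odd S.card →
      ∃ l ∈ cand (⟨n⟩, (prs n).map fun q => (q, x q)), Odd (sOf n l).card ∧
        cCut (fun q => (x (q.1.val, q.2.val) : ℝ)) (sOf n l) ≤
          cCut (fun q => (x (q.1.val, q.2.val) : ℝ)) S := by
  obtain ⟨sfm, hsfm, hspec⟩ := exists_sfm
  refine ⟨fun p => ((List.range p.1.n).product (List.range p.1.n)).map fun ab =>
    tlIns p.1.n ab.1 ab.2 (sfm (fun l => zg p.1.n (zTab p.2) (tlIns p.1.n ab.1 ab.2 l))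
      (p.1, ⟨zK p.1.n (zTab p.2)⟩)), ?_, fun p l hl => ?_, fun n x hn hx S hS => ?_⟩
  · refine PT.map (by fun_prop) (tlIns_pt (by fun_prop) (by fun_prop) (by fun_prop)
      (by fun_prop) ?_)
    exact pt_of_hopt hsfm (h := fun (c : (Un × List ((ℕ × ℕ) × ℚ)) × ℕ × ℕ) l =>
      zg c.1.1.n (zTab c.1.2) (tlIns c.1.1.n c.2.1 c.2.2 l)) (by fun_prop)
      (PT.pair (by fun_prop) (zK_pt (by fun_prop) (by fun_prop)))
  · obtain ⟨ab, -, rfl⟩ := List.mem_map.1 hl
    simp [tlIns]
  · set X := (prs n).map fun q => (q, x q) with hX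
    set D : ℕ := (X.map fun p => p.2.den).prod with hD
    have hD0 : 0 < D := List.prod_pos fun a ha => by
      obtain ⟨p, -, rfl⟩ := List.mem_map.1 ha
      exact p.2.den_pos
    let z : ℕ × ℕ → ℤ := fun q => ⌊x q * D⌋
    have hZ : zTab X = (prs n).map fun q => (q, z q) := by
      rw [zTab, ← hD, hX, List.map_map]; rfl
    have hz0 : ∀ q, 0 ≤ z q := fun q => Int.floor_nonneg.2 (mul_nonneg (hx q) (Nat.cast_nonneg _))
    have hz : ∀ q ∈ ltPairs n, (z (q.1.val, q.2.val) : ℝ) = x (q.1.val, q.2.val) * D := by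
      intro q hq
      have h1 : (x (q.1.val, q.2.val)).den ∣ D := List.dvd_prod (List.mem_map.2
        ⟨((q.1.val, q.2.val), x (q.1.val, q.2.val)), List.mem_map.2 ⟨_, by
          simpa [prs] using mem_ltPairs.1 hq, rfl⟩, rfl⟩)
      obtain ⟨c, hc⟩ := h1
      have h2 : x (q.1.val, q.2.val) * D = (((x (q.1.val, q.2.val)).num * c : ℤ) : ℚ) := by
        rw [hc]; push_cast
        rw [← mul_assoc, Rat.mul_den_eq_num]
      have h3 : (z (q.1.val, q.2.val) : ℚ) = x (q.1.val, q.2.val) * D := by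
        simp only [z]; rw [h2, Int.floor_intCast]
      exact_mod_cast h3
    let zc : Finset (Fin n) → ℤ := fun T =>
      ∑ q ∈ ltPairs n, if Cr T q then z (q.1.val, q.2.val) else 0
    have hzc : ∀ T, (zc T : ℝ) = cCut (fun q => (x (q.1.val, q.2.val) : ℝ)) T * D := fun T => by
      simp only [zc, cCut]
      push_cast
      rw [sum_mul]
      refine sum_congr rfl fun q hq => ?_
      split_ifs
      · exact hz q hq
      · simp
    let g : Finset (Fin n) → ℤ := fun T => ((n : ℤ) + 1) * zc T + T.card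
    have hcall : ∀ l, zg n (zTab X) l = g (sOf n l) := fun l => by
      rw [zg, hZ, List.map_map, sum_prs, lcard_eq]
      simp only [g, zc, Function.comp, crL_iff]
    have hsub : Submod g := fun A B => by
      have h1 : zc (A ∪ B) + zc (A ∩ B) ≤ zc A + zc B := by
        simp only [zc, ← sum_add_distrib]
        refine sum_le_sum fun q _ => ?_
        have := hz0 (q.1.val, q.2.val)
        unfold Cr
        by_cases h1 : q.1 ∈ A <;> by_cases h2 : q.2 ∈ A <;> by_cases h3 : q.1 ∈ B <;>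
          by_cases h4 : q.2 ∈ B <;> simp [h1, h2, h3, h4, this]
      have h2 := card_union_add_card_inter A B
      have h3 := mul_le_mul_of_nonneg_left h1 (by positivity : (0 : ℤ) ≤ n + 1)
      simp only [g]
      zify at h2
      linarith
    have hcard : ∀ T : Finset (Fin n), T.card ≤ n := fun T => by simpa using card_le_univ T
    have hbd : ∀ T, |g T| ≤ 2 ^ zK n (zTab X) := fun T => by
      have h1 : 0 ≤ zc T := sum_nonneg fun q _ => by split_ifs; exacts [hz0 _, le_rfl]
      have h2 : zc T ≤ ((zTab X).map fun p => p.2).sum := by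
        rw [hZ, List.map_map, sum_prs]
        exact sum_le_sum fun q _ => by split_ifs; exacts [le_rfl, hz0 _]
      have h3 := (Nat.lt_size_self ((n + 1) * (Int.natAbs ((zTab X).map fun p => p.2).sum + 1))).le
      have h4 := hcard T
      have h5 := Int.le_natAbs (a := ((zTab X).map fun p => p.2).sum)
      rw [abs_of_nonneg (by positivity), zK]
      zify at h3 h4
      simp only [g]
      rw [Int.natCast_natAbs] at h5
      nlinarith
    obtain ⟨S₀, s1, s2⟩ := exists_min_image (univ.filter fun T : Finset (Fin n) => Odd T.card) g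
      ⟨S, mem_filter.2 ⟨mem_univ _, hS⟩⟩
    have s3 : Odd S₀.card := (mem_filter.1 s1).2
    have s4 : ∀ T, Odd T.card → g S₀ ≤ g T := fun T hT => s2 T (mem_filter.2 ⟨mem_univ _, hT⟩)
    obtain ⟨a, ha, b, hb, h1⟩ := gr_lemma (by simpa using hn) hsub s3 s4
    have hab : a ≠ b := fun h => hb (h ▸ ha)
    have h2 := hspec n (zK n (zTab X)) (fun T => g ((insert a T).erase b))
      (fun l => zg n (zTab X) (tlIns n a.val b.val l)) (fun l => by simp only [hcall, sOf_tlIns])
      (hsub.comp (fun T => (insert a T).erase b)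
        (fun A B => by ext; simp only [mem_erase, mem_insert, mem_union]; tauto)
        (fun A B => by ext; simp only [mem_erase, mem_insert, mem_inter]; tauto))
      (fun _ => hbd _) S₀
    refine ⟨_, List.mem_map.2 ⟨(a.val, b.val), by simp, rfl⟩, ?_⟩
    simp only [insert_eq_of_mem ha, erase_eq_of_notMem hb] at h2
    dsimp only
    rw [sOf_tlIns]
    set T := (insert a (sOf n (sfm (fun l => zg n (zTab X) (tlIns n a.val b.val l))
      (⟨n⟩, ⟨zK n (zTab X)⟩)))).erase b
    have h3 := h1 T (mem_erase.2 ⟨hab, mem_insert_self _ _⟩) (notMem_erase _ _)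
    have h4 : g T = g S₀ := le_antisymm h2 h3
    have h5 := s4 S hS
    have c1 := hcard T
    have c2 := hcard S₀
    have c3 := hcard S
    simp only [g] at h4 h5
    have h6 : zc T = zc S₀ := by
      rcases lt_trichotomy (zc T) (zc S₀) with h | h | h
      · nlinarith
      · exact h
      · nlinarith
    have h7 : zc S₀ ≤ zc S := by
      by_contra h
      push Not at h
      nlinarith
    rw [h6] at h4
    have h8 : T.card = S₀.card := by omega
    refine ⟨h8 ▸ s3, ?_⟩
    have h9 : (zc T : ℝ) ≤ zc S := by exact_mod_cast h6.le.trans h7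
    rw [hzc, hzc] at h9
    exact le_of_mul_le_mul_right h9 (by exact_mod_cast hD0)

end Crest.Agent.R304
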