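import Crest.Agent.R304.CRound
import Crest.Agent.R304.COdd

/-!
# R304/CAlg: the polynomial-time approximation of the hafnian of a positive matrix
-/

set_option autoImplicit false

namespace Crest.Agent.R304

open Finset Crest.Matchings Crest.Agent.Lib.PT Crest.Agent.R302

/-- states of the program -/
abbrev LSt : Type := List (List Bool) × List (List Bool)

/-- the scaled weights -/
def lX (Q : ℕ) (W : List ((ℕ × ℕ) × ℕ)) (s : LSt) : List ((ℕ × ℕ) × ℚ) :=
  W.map fun p => (p.1, (p.2 : ℚ) * (1 + 1 / (Q : ℚ)) ^ (s.2.countP fun l => crL l p.1) /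
    (1 + 1 / (Q : ℚ)) ^ (s.1.countP fun l => crL l p.1))

/-- the singletons -/
def sings (n : ℕ) : List (List Bool) :=
  (List.range n).map fun v => (List.range n).map fun i => decide (i = v)

/-- one move -/
def lStep (n H : ℕ) (X : List ((ℕ × ℕ) × ℚ)) (C : List (List Bool)) (s : LSt) : LSt :=
  ((sings n).find? fun l => decide (1 + 2 * (1 / (H : ℚ)) < lcut X l)).elim
    ((s.1.find? fun l => decide (lcut X l < 1)).elim
      ((s.2.find? fun l => decide (1 < lcut X l)).elim
        ((C.find? fun l => decide (Odd (lcard n l) ∧ lcut X l < 1 - 2 * (1 / (H : ℚ)))).elim s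
          fun l => (s.1, l :: s.2))
        fun l => (s.1, s.2.erase l))
      fun l => (s.1.erase l, s.2))
    fun l => (l :: s.1, s.2)

@[fun_prop] theorem lX_pt {α : Type} [Enc α] {Q : α → ℕ} {W : α → List ((ℕ × ℕ) × ℕ)}
    {s : α → LSt} (hQ : PT Q) (hW : PT W) (hs : PT s) : PT fun a => lX (Q a) (W a) (s a) := by
  unfold lX; fun_prop

@[fun_prop] theorem sings_pt {α : Type} [Enc α] {n : α → ℕ} (hn : PT n) (hb : PB n) :
    PT fun a => sings (n a) := by unfold sings; fun_prop

theorem lStep_pt {α : Type} [Enc α] {n H : α → ℕ} {X : α → List ((ℕ × ℕ) × ℚ)}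
    {C : α → List (List Bool)} {s : α → LSt} (hn : PT n) (hb : PB n) (hH : PT H) (hX : PT X)
    (hC : PT C) (hs : PT s) : PT fun a => lStep (n a) (H a) (X a) (C a) (s a) := by
  unfold lStep; fun_prop

theorem sz_lStep (n H : ℕ) (X : List ((ℕ × ℕ) × ℚ)) {C : List (List Bool)}
    (hC : ∀ l ∈ C, l.length = n) (s : LSt) : sz (lStep n H X C s) ≤ sz s + (4 * n + 2) := by
  obtain ⟨A, B⟩ := s
  unfold lStep
  cases h1 : (sings n).find? fun l => decide (1 + 2 * (1 / (H : ℚ)) < lcut X l) with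
  | some l =>
    obtain ⟨v, -, rfl⟩ := List.mem_map.1 (List.mem_of_find?_eq_some h1)
    have := sz_boolList_le ((List.range n).map fun i => decide (i = v))
    simp only [List.length_map, List.length_range] at this
    simp only [Option.elim, sz_mk, sz_cons]
    omega
  | none =>
  cases h2 : A.find? fun l => decide (lcut X l < 1) with
  | some l =>
    have := sz_sublist (List.erase_sublist (a := l) (l := A))
    simp only [Option.elim, sz_mk]
    omega
  | none =>
  cases h3 : B.find? fun l => decide (1 < lcut X l) with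
  | some l =>
    have := sz_sublist (List.erase_sublist (a := l) (l := B))
    simp only [Option.elim, sz_mk]
    omega
  | none =>
  cases h4 : C.find? fun l => decide (Odd (lcard n l) ∧ lcut X l < 1 - 2 * (1 / (H : ℚ))) with
  | some l =>
    have := sz_boolList_le l
    rw [hC l (List.mem_of_find?_eq_some h4)] at this
    simp only [Option.elim, sz_mk, sz_cons]
    omega
  | none => simp [Option.elim]

/-- the abstract state -/
def absS (n : ℕ) (s : LSt) : CSt n := (↑(s.1.map (sOf n)), ↑(s.2.map (sOf n)))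

variable {n : ℕ}

theorem cCnt_coe (A : List (List Bool)) (q : Fin n × Fin n) :
    cCnt (↑(A.map (sOf n))) q = A.countP fun l => crL l (q.1.val, q.2.val) := by
  rw [cCnt, Multiset.coe_countP, List.countP_map]
  refine List.countP_congr fun l _ => ?_
  simp [crL_iff]

theorem sOf_sing (v : Fin n) : sOf n ((List.range n).map fun i => decide (i = v.val)) = {v} := by
  ext i
  rw [mem_sOf_map_range]
  simp [Fin.ext_iff]

theorem coe_erase {A : List (List Bool)} {l : List Bool} (h : l ∈ A) :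
    (↑(A.map (sOf n)) : Multiset (Finset (Fin n))) = sOf n l ::ₘ ↑((A.erase l).map (sOf n)) := by
  rw [Multiset.cons_coe, Multiset.coe_eq_coe, ← List.map_cons]
  exact (List.perm_cons_erase h).map _

theorem lStep_spec {w : Fin n × Fin n → ℝ} {r : ℝ} {H : ℕ} {X : List ((ℕ × ℕ) × ℚ)}
    {C : List (List Bool)} {s : LSt}
    (hX : ∀ l, (lcut X l : ℝ) = cCut (cX w r (absS n s).1 (absS n s).2) (sOf n l))
    (hC : ∀ S : Finset (Fin n), Odd S.card → ∃ l ∈ C, Odd (sOf n l).card ∧
      cCut (cX w r (absS n s).1 (absS n s).2) (sOf n l) ≤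
        cCut (cX w r (absS n s).1 (absS n s).2) S) :
    CStep w r (1 / H) (absS n s) (absS n (lStep n H X C s)) ∨
      (CStop w r (1 / H) (absS n s) ∧ absS n (lStep n H X C s) = absS n s) := by
  unfold lStep
  cases h1 : (sings n).find? fun l => decide (1 + 2 * (1 / (H : ℚ)) < lcut X l) with
  | some l =>
    obtain ⟨v, hv, rfl⟩ := List.mem_map.1 (List.mem_of_find?_eq_some h1)
    have h := List.find?_some h1
    simp only [decide_eq_true_eq] at h
    refine Or.inl (Or.inl ⟨sOf n _, ?_, ?_, rfl, rfl⟩)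
    · rw [sOf_sing ⟨v, List.mem_range.1 hv⟩, card_singleton]
    · have h' := (Rat.cast_lt (K := ℝ)).2 h
      push_cast at h'
      rwa [← hX]
  | none =>
  cases h2 : s.1.find? fun l => decide (lcut X l < 1) with
  | some l =>
    have h := List.find?_some h2
    simp only [decide_eq_true_eq] at h
    refine Or.inl (Or.inr (Or.inl ⟨sOf n l, ?_, coe_erase (List.mem_of_find?_eq_some h2), rfl⟩))
    rw [← hX]; exact_mod_cast h
  | none =>
  cases h3 : s.2.find? fun l => decide (1 < lcut X l) with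
  | some l =>
    have h := List.find?_some h3
    simp only [decide_eq_true_eq] at h
    refine Or.inl (Or.inr (Or.inr (Or.inl
      ⟨sOf n l, ?_, coe_erase (List.mem_of_find?_eq_some h3), rfl⟩)))
    rw [← hX]; exact_mod_cast h
  | none =>
  cases h4 : C.find? fun l => decide (Odd (lcard n l) ∧ lcut X l < 1 - 2 * (1 / (H : ℚ))) with
  | some l =>
    have h := List.find?_some h4
    simp only [decide_eq_true_eq] at h
    refine Or.inl (Or.inr (Or.inr (Or.inr ⟨sOf n l, lcard_eq l ▸ h.1, ?_, rfl, rfl⟩)))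
    have h' := (Rat.cast_lt (K := ℝ)).2 h.2
    push_cast at h'
    rwa [← hX]
  | none =>
    rw [List.find?_eq_none] at h1 h2 h3 h4
    refine Or.inr ⟨⟨fun v => ?_, fun S hS => ?_, fun S hS => ?_, fun S hS => ?_⟩, rfl⟩
    · have := h1 _ (List.mem_map.2 ⟨v.val, List.mem_range.2 v.2, rfl⟩)
      rw [decide_eq_true_eq, not_lt] at this
      have h' := (Rat.cast_le (K := ℝ)).2 this
      push_cast at h'
      rwa [← sOf_sing v, ← hX]
    · obtain ⟨l, hl, rfl⟩ := List.mem_map.1 (Multiset.mem_coe.1 hS)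
      have := h2 l hl
      rw [decide_eq_true_eq, not_lt] at this
      rw [← hX]; exact_mod_cast this
    · obtain ⟨l, hl, rfl⟩ := List.mem_map.1 (Multiset.mem_coe.1 hS)
      have := h3 l hl
      rw [decide_eq_true_eq, not_lt] at this
      rw [← hX]; exact_mod_cast this
    · obtain ⟨l, hl, a, b⟩ := hC S hS
      have := h4 l hl
      rw [decide_eq_true_eq, not_and, not_lt, lcard_eq] at this
      refine le_trans ?_ b
      have h' := (Rat.cast_le (K := ℝ)).2 (this a)
      push_cast at h'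
      rwa [← hX]

attribute [irreducible] lStep

theorem exists_core : ∃ F : Un × Un × List ((ℕ × ℕ) × ℕ) → ℚ, PT F ∧
    ∀ (n Λ : ℕ) (w : ℕ × ℕ → ℕ), Even n → 4 ≤ n → (∀ q, 1 ≤ w q) → (∀ q, w q ≤ 2 ^ Λ) →
      (F (⟨n⟩, ⟨Λ⟩, (prs n).map fun q => (q, w q)) : ℝ) ≤
        8 ^ n * cHaf (fun q : Fin n × Fin n => (w (q.1.val, q.2.val) : ℝ)) ∧
      cHaf (fun q : Fin n × Fin n => (w (q.1.val, q.2.val) : ℝ)) ≤
        3 ^ n * (F (⟨n⟩, ⟨Λ⟩, (prs n).map fun q => (q, w q)) : ℝ) := by
  obtain ⟨cand, hcand, hlen, hspec⟩ := exists_cand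
  let H : Un × Un × List ((ℕ × ℕ) × ℕ) → ℕ := fun a => 50 * (a.2.1.n + a.1.n)
  let T : Un × Un × List ((ℕ × ℕ) × ℕ) → ℕ := fun a =>
    4 * (2 * a.1.n * a.2.1.n + a.1.n ^ 2) * (4 * H a) * H a + 1
  let f : Un × Un × List ((ℕ × ℕ) × ℕ) → LSt → LSt := fun a s =>
    lStep a.1.n (H a) (lX (4 * H a) a.2.2 s) (cand (a.1, lX (4 * H a) a.2.2 s)) s
  let s₀ : Un × Un × List ((ℕ × ℕ) × ℕ) → LSt := fun a =>
    ((List.replicate (4 * H a * a.2.1.n) (sings a.1.n)).flatten, [])
  have hH : PT H := by simp only [H]; fun_prop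
  have hH' : PB H := by simp only [H]; fun_prop
  have hit : PT fun a => (f a)^[T a] (s₀ a) := by
    refine PT.iterate_grow (by simp only [T]; fun_prop) (by simp only [T]; fun_prop)
      (by simp only [s₀]; fun_prop) ?_ (G := fun a => 4 * a.1.n + 2) (by fun_prop)
      fun a c => sz_lStep a.1.n (H a) (lX (4 * H a) a.2.2 c)
        (fun l hl => hlen (a.1, lX (4 * H a) a.2.2 c) l hl) c
    have hX : PT fun p : (Un × Un × List ((ℕ × ℕ) × ℕ)) × LSt => lX (4 * H p.1) p.1.2.2 p.2 :=
      lX_pt ((PT.const 4).nat_mul (hH.comp PT.id.fst)) PT.id.fst.snd.snd PT.id.snd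
    exact lStep_pt (n := fun p : (Un × Un × List ((ℕ × ℕ) × ℕ)) × LSt => p.1.1.n)
      (H := fun p => H p.1) (X := fun p => lX (4 * H p.1) p.1.2.2 p.2)
      (C := fun p => cand (p.1.1, lX (4 * H p.1) p.1.2.2 p.2)) (s := fun p => p.2)
      PT.id.fst.fst.un_n (PB.un PT.id.fst.fst) (hH.comp PT.id.fst) hX
      (hcand.comp (PT.id.fst.fst.pair hX)) PT.id.snd
  have hr : PT fun a => 1 + 1 / ((4 * H a : ℕ) : ℚ) :=
    (PT.const 1).rat_add ((PT.const 1).rat_div ((PT.const 4).nat_mul hH).rat_natCast)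
  refine ⟨fun a => (1 + 1 / ((4 * H a : ℕ) : ℚ)) ^ ((f a)^[T a] (s₀ a)).1.length /
    (1 + 1 / ((4 * H a : ℕ) : ℚ)) ^ ((f a)^[T a] (s₀ a)).2.length,
    (hr.rat_pow hit.fst.length (PB.length hit.fst)).rat_div
      (hr.rat_pow hit.snd.length (PB.length hit.snd)),
    fun n Λ w hn h4 h1 h2 => ?_⟩
  set a : Un × Un × List ((ℕ × ℕ) × ℕ) := (⟨n⟩, ⟨Λ⟩, (prs n).map fun q => (q, w q)) with ha
  have eH : H a = 50 * (Λ + n) := rfl
  have hn' : (4 : ℝ) ≤ n := by exact_mod_cast h4
  have hΛ : (0 : ℝ) ≤ Λ := Nat.cast_nonneg _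
  have pH : (200 : ℝ) ≤ H a := by rw [eH]; push_cast; linarith
  let w' : Fin n × Fin n → ℝ := fun q => w (q.1.val, q.2.val)
  have hw1 : ∀ q, 1 ≤ w' q := fun q => by simp only [w']; exact_mod_cast h1 _
  have hw2 : ∀ q, w' q ≤ 2 ^ Λ := fun q => by simp only [w']; exact_mod_cast h2 _
  have hQ : 0 < 4 * H a := by rw [eH]; omega
  have hη : (0 : ℝ) < 1 / H a := by positivity
  have hη1 : 25 * (1 / (H a : ℝ)) ≤ 1 := by
    rw [← mul_div_assoc, div_le_one (by linarith)]; linarith
  have hinit : cPhi w' (1 + 1 / ((4 * H a : ℕ) : ℝ)) (1 / H a) (absS n (s₀ a)) ≤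
      2 * n * Λ + n ^ 2 := by
    refine cPhi_init hQ hw2 hη.le (by linarith) ?_ fun q hq => ?_
    · simp [s₀, a, sings, mul_comm]
    · rw [cCnt_coe]
      simp only [s₀, List.countP_flatten, List.map_replicate, List.sum_replicate, smul_eq_mul]
      refine Nat.le_mul_of_pos_right _ (List.countP_pos_iff.2 ⟨_,
        List.mem_map.2 ⟨q.1.val, List.mem_range.2 q.1.2, rfl⟩, ?_⟩)
      rw [crL_iff]
      change Cr (sOf n ((List.range n).map fun i => decide (i = q.1.val))) q
      rw [sOf_sing, cr_singleton hq]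
      exact Or.inl rfl
  have hrun := c_run hn hw1 (ξ := 1 / ((4 * H a : ℕ) : ℝ)) (η := 1 / H a) (by positivity)
    (by push_cast; apply le_of_eq; field_simp) (by linarith)
    (fun k => absS n ((f a)^[k] (s₀ a))) ?_ (fun k => ?_) (T := T a) ?_
  · obtain ⟨r1, r2, r3⟩ := hrun
    have := c_stop hn h4 hw1 (le_add_of_nonneg_right (by positivity)) hη hη1 r1 r2 (by
      refine (mul_le_mul_of_nonneg_left (r3.trans hinit) (by positivity)).trans ?_
      rw [eH, mul_one_div, div_mul_eq_mul_div, div_le_iff₀ (by push_cast; linarith)]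
      push_cast
      nlinarith)
    simp only [absS, Multiset.coe_card, List.length_map] at this
    simp only [Rat.cast_div, Rat.cast_pow, Rat.cast_add, Rat.cast_one, Rat.cast_natCast]
    exact this
  · refine ⟨fun S hS => ?_, fun S hS => by simp [absS, s₀] at hS⟩
    obtain ⟨l, hl, rfl⟩ := List.mem_map.1 (Multiset.mem_coe.1 hS)
    obtain ⟨L, hL, hl⟩ := List.mem_flatten.1 hl
    rw [List.eq_of_mem_replicate hL] at hl
    obtain ⟨v, hv, rfl⟩ := List.mem_map.1 hl
    exact (congrArg card (sOf_sing ⟨v, List.mem_range.1 hv⟩)).trans (card_singleton _)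
  · simp only [Function.iterate_succ_apply']
    generalize (f a)^[k] (s₀ a) = s
    let x : ℕ × ℕ → ℚ := fun q => (w q : ℚ) *
      (1 + 1 / ((4 * H a : ℕ) : ℚ)) ^ (s.2.countP fun l => crL l q) /
      (1 + 1 / ((4 * H a : ℕ) : ℚ)) ^ (s.1.countP fun l => crL l q)
    have e1 : lX (4 * H a) a.2.2 s = (prs n).map fun q => (q, x q) := by
      rw [lX, ha, List.map_map]; rfl
    have e2 : (fun q : Fin n × Fin n => (x (q.1.val, q.2.val) : ℝ)) =
        cX w' (1 + 1 / ((4 * H a : ℕ) : ℝ)) (absS n s).1 (absS n s).2 := by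
      funext q
      simp only [x, cX, absS, cCnt_coe, w', Rat.cast_div, Rat.cast_pow, Rat.cast_add,
        Rat.cast_one, Rat.cast_natCast, Rat.cast_mul]
    refine lStep_spec (fun l => ?_) fun S hS => ?_
    · rw [e1, lcut_eq, e2]
    · rw [e1, ← e2]
      exact hspec n x hn (fun q => by simp only [x]; positivity) S hS
  · refine hinit.trans_lt ?_
    have eT : (T a : ℝ) = 4 * (2 * n * Λ + n ^ 2) * (4 * H a) * H a + 1 := by
      simp only [T, a]; push_cast; ring
    rw [eT]
    push_cast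
    have : (4 * (2 * n * Λ + n ^ 2) * (4 * H a) * H a + 1 : ℝ) * (1 / (4 * H a) * (1 / H a) / 4) =
        2 * n * Λ + n ^ 2 + 1 / (4 * H a) * (1 / H a) / 4 := by
      field_simp
    rw [this]
    have : (0 : ℝ) < 1 / (4 * H a) * (1 / H a) / 4 := by positivity
    linarith

end Crest.Agent.R304
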