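import Crest.Prelude.Def_MultiplicityCount

/-!
# R304/CDef: perfect matchings of the complete graph, cuts, the scaled weights
-/

set_option autoImplicit false

namespace Crest.Agent.R304

open Finset Crest.Matchings

variable {n : ℕ}

/-- the perfect matchings of the complete graph -/
def cPM (n : ℕ) : Finset (Finset (Fin n × Fin n)) :=
  (ltPairs n).powerset.filter (fun M => ∀ v : Fin n,
    (M.filter fun q => q.1 = v ∨ q.2 = v).card = 1)

/-- the hafnian -/
noncomputable def cHaf (x : Fin n × Fin n → ℝ) : ℝ := ∑ M ∈ cPM n, ∏ q ∈ M, x q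

/-- the pair crosses the set -/
def Cr (S : Finset (Fin n)) (q : Fin n × Fin n) : Prop := ¬ (q.1 ∈ S ↔ q.2 ∈ S)

instance (S : Finset (Fin n)) (q : Fin n × Fin n) : Decidable (Cr S q) := by
  unfold Cr; infer_instance

/-- the weight of a cut -/
noncomputable def cCut (x : Fin n × Fin n → ℝ) (S : Finset (Fin n)) : ℝ :=
  ∑ q ∈ ltPairs n, if Cr S q then x q else 0

/-- the number of sets crossed by a pair -/
def cCnt (A : Multiset (Finset (Fin n))) (q : Fin n × Fin n) : ℕ := A.countP (Cr · q)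

/-- the scaled weights -/
noncomputable def cX (w : Fin n × Fin n → ℝ) (r : ℝ) (A B : Multiset (Finset (Fin n)))
    (q : Fin n × Fin n) : ℝ := w q * r ^ cCnt B q / r ^ cCnt A q

theorem mem_ltPairs {q : Fin n × Fin n} : q ∈ ltPairs n ↔ q.1 < q.2 := by simp [ltPairs]

theorem mem_cPM {M : Finset (Fin n × Fin n)} : M ∈ cPM n ↔ M ⊆ ltPairs n ∧ ∀ v : Fin n,
    (M.filter fun q => q.1 = v ∨ q.2 = v).card = 1 := by simp [cPM]

theorem card_ltPairs_le (n : ℕ) : (ltPairs n).card ≤ n ^ 2 := by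
  refine (card_filter_le _ _).trans ?_
  simp [sq]

theorem cr_singleton {q : Fin n × Fin n} (hq : q ∈ ltPairs n) (v : Fin n) :
    Cr {v} q ↔ q.1 = v ∨ q.2 = v := by
  have := (mem_ltPairs.1 hq).ne
  unfold Cr
  simp only [mem_singleton]
  by_cases h1 : q.1 = v <;> by_cases h2 : q.2 = v <;> simp [h1, h2]
  exact this (h1.trans h2.symm)

theorem cr_compl (S : Finset (Fin n)) (q : Fin n × Fin n) : Cr Sᶜ q ↔ Cr S q := by
  unfold Cr
  simp only [mem_compl]
  tauto

theorem cCut_compl (x : Fin n × Fin n → ℝ) (S : Finset (Fin n)) : cCut x Sᶜ = cCut x S := by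
  simp only [cCut, cr_compl]

theorem sum_star {β : Type} [AddCommMonoid β] {M : Finset (Fin n × Fin n)} (hM : M ⊆ ltPairs n)
    (f : Fin n × Fin n → β) (S : Finset (Fin n)) :
    ∑ v ∈ S, ∑ q ∈ M, (if q.1 = v ∨ q.2 = v then f q else 0) =
      ∑ q ∈ M, ((if q.1 ∈ S then f q else 0) + (if q.2 ∈ S then f q else 0)) := by
  rw [sum_comm]
  refine sum_congr rfl fun q hq => ?_
  have hne := (mem_ltPairs.1 (hM hq)).ne
  rw [← sum_ite_eq S q.1 (fun _ => f q), ← sum_ite_eq S q.2 (fun _ => f q), ← sum_add_distrib]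
  refine sum_congr rfl fun v _ => ?_
  by_cases h1 : q.1 = v <;> by_cases h2 : q.2 = v <;> simp [h1, h2]
  exact absurd (h1.trans h2.symm) hne

theorem card_eq_of_pm {M : Finset (Fin n × Fin n)} (hM : M ∈ cPM n) (S : Finset (Fin n)) :
    S.card = ∑ q ∈ M, ((if q.1 ∈ S then 1 else 0) + (if q.2 ∈ S then 1 else 0)) := by
  obtain ⟨h1, h2⟩ := mem_cPM.1 hM
  rw [← sum_star h1 (fun _ => 1) S, card_eq_sum_ones]
  refine sum_congr rfl fun v _ => ?_
  rw [← sum_filter, ← card_eq_sum_ones, h2 v]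

theorem two_mul_card_of_pm {M : Finset (Fin n × Fin n)} (hM : M ∈ cPM n) : 2 * M.card = n := by
  have := card_eq_of_pm hM univ
  simp at this
  omega

theorem one_le_cr_of_pm {M : Finset (Fin n × Fin n)} (hM : M ∈ cPM n) {S : Finset (Fin n)}
    (hS : Odd S.card) : 1 ≤ (M.filter (Cr S)).card := by
  by_contra h
  have h0 : M.filter (Cr S) = ∅ := card_eq_zero.1 (by omega)
  rw [card_eq_of_pm hM S] at hS
  refine (Nat.not_odd_iff_even.2 (even_sum _ fun q hq => ?_)) hS
  have : ¬ Cr S q := fun hc => by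
    have : q ∈ M.filter (Cr S) := mem_filter.2 ⟨hq, hc⟩
    simp [h0] at this
  unfold Cr at this
  by_cases h1 : q.1 ∈ S <;> by_cases h2 : q.2 ∈ S <;> simp_all

theorem cr_single_of_pm {M : Finset (Fin n × Fin n)} (hM : M ∈ cPM n) {S : Finset (Fin n)}
    (hS : S.card = 1) : (M.filter (Cr S)).card = 1 := by
  obtain ⟨v, rfl⟩ := card_eq_one.1 hS
  obtain ⟨h1, h2⟩ := mem_cPM.1 hM
  rw [← h2 v]
  exact congrArg card (filter_congr fun q hq => cr_singleton (h1 hq) v)

theorem sum_cCnt (M : Finset (Fin n × Fin n)) (A : Multiset (Finset (Fin n))) :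
    ∑ q ∈ M, cCnt A q = (A.map fun S => (M.filter (Cr S)).card).sum := by
  induction A using Multiset.induction_on with
  | empty => simp [cCnt]
  | cons S A ih =>
    simp only [cCnt, Multiset.countP_cons, Multiset.map_cons, Multiset.sum_cons] at ih ⊢
    rw [sum_add_distrib, ih, card_eq_sum_ones, sum_filter, add_comm]

theorem sum_cCnt_single {M : Finset (Fin n × Fin n)} (hM : M ∈ cPM n)
    {A : Multiset (Finset (Fin n))} (hA : ∀ S ∈ A, S.card = 1) :
    ∑ q ∈ M, cCnt A q = A.card := by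
  rw [sum_cCnt, Multiset.map_congr rfl fun S hS => cr_single_of_pm hM (hA S hS)]
  simp

theorem sum_cCnt_odd {M : Finset (Fin n × Fin n)} (hM : M ∈ cPM n)
    {B : Multiset (Finset (Fin n))} (hB : ∀ S ∈ B, Odd S.card) :
    B.card ≤ ∑ q ∈ M, cCnt B q := by
  rw [sum_cCnt]
  have := Multiset.card_nsmul_le_sum (s := B.map fun S => (M.filter (Cr S)).card) (a := 1)
    (fun x hx => by
      obtain ⟨S, hS, rfl⟩ := Multiset.mem_map.1 hx
      exact one_le_cr_of_pm hM (hB S hS))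
  simpa using this

theorem cX_nonneg {w : Fin n × Fin n → ℝ} (hw : ∀ q, 0 ≤ w q) {r : ℝ} (hr : 0 < r)
    (A B : Multiset (Finset (Fin n))) (q : Fin n × Fin n) : 0 ≤ cX w r A B q := by
  have := hw q
  unfold cX; positivity

/-- weak duality -/
theorem cHaf_le_mul {w : Fin n × Fin n → ℝ} (hw : ∀ q, 0 ≤ w q) {r : ℝ} (hr : 1 ≤ r)
    {A B : Multiset (Finset (Fin n))} (hA : ∀ S ∈ A, S.card = 1) (hB : ∀ S ∈ B, Odd S.card) :
    cHaf w ≤ r ^ A.card / r ^ B.card * cHaf (cX w r A B) := by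
  have hr0 : 0 < r := by linarith
  unfold cHaf
  rw [mul_sum]
  refine sum_le_sum fun M hM => ?_
  have h1 : ∏ q ∈ M, cX w r A B q =
      (∏ q ∈ M, w q) * r ^ (∑ q ∈ M, cCnt B q) / r ^ A.card := by
    simp only [cX]
    rw [prod_div_distrib, prod_mul_distrib, prod_pow_eq_pow_sum, prod_pow_eq_pow_sum,
      sum_cCnt_single hM hA]
  have h2 : r ^ B.card ≤ r ^ (∑ q ∈ M, cCnt B q) := pow_le_pow_right₀ hr (sum_cCnt_odd hM hB)
  have h3 : 0 ≤ ∏ q ∈ M, w q := prod_nonneg fun q _ => hw q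
  rw [h1]
  have h4 : r ^ A.card / r ^ B.card * ((∏ q ∈ M, w q) * r ^ (∑ q ∈ M, cCnt B q) / r ^ A.card) =
      (∏ q ∈ M, w q) * (r ^ (∑ q ∈ M, cCnt B q) / r ^ B.card) := by
    field_simp
  rw [h4]
  exact le_mul_of_one_le_right h3 ((one_le_div (by positivity)).2 h2)

theorem cHaf_le_exp {x : Fin n × Fin n → ℝ} (hx : ∀ q, 0 ≤ x q) :
    cHaf x ≤ Real.exp (∑ q ∈ ltPairs n, x q) := by
  calc cHaf x ≤ ∑ M ∈ (ltPairs n).powerset, ∏ q ∈ M, x q :=
        sum_le_sum_of_subset_of_nonneg (filter_subset _ _) fun M _ _ => prod_nonneg fun q _ => hx q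
    _ = ∏ q ∈ ltPairs n, (1 + x q) := (prod_one_add _).symm
    _ ≤ ∏ q ∈ ltPairs n, Real.exp (x q) :=
        prod_le_prod (fun q _ => by have := hx q; positivity) fun q _ => by
          rw [add_comm]; exact Real.add_one_le_exp _
    _ = _ := (Real.exp_sum _ _).symm

theorem cPM_nonempty (hn : Even n) : (cPM n).Nonempty := by
  obtain ⟨m, hm⟩ := hn
  refine ⟨(ltPairs n).filter fun q => q.1.val % 2 = 0 ∧ q.2.val = q.1.val + 1,
    mem_cPM.2 ⟨filter_subset _ _, fun v => card_eq_one.2 ?_⟩⟩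
  have hv := v.2
  by_cases h : v.val % 2 = 0
  · refine ⟨(v, ⟨v.val + 1, by omega⟩), ?_⟩
    ext ⟨a, b⟩
    simp only [mem_filter, mem_ltPairs, mem_singleton, Prod.mk.injEq, Fin.ext_iff, Fin.lt_def]
    omega
  · refine ⟨(⟨v.val - 1, by omega⟩, v), ?_⟩
    ext ⟨a, b⟩
    simp only [mem_filter, mem_ltPairs, mem_singleton, Prod.mk.injEq, Fin.ext_iff, Fin.lt_def]
    omega

theorem one_le_cHaf (hn : Even n) {w : Fin n × Fin n → ℝ} (hw : ∀ q, 1 ≤ w q) : 1 ≤ cHaf w := by
  obtain ⟨M, hM⟩ := cPM_nonempty hn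
  calc (1 : ℝ) ≤ ∏ q ∈ M, w q := Finset.one_le_prod fun q _ => hw q
    _ ≤ cHaf w := single_le_sum (f := fun M => ∏ q ∈ M, w q)
        (fun M _ => prod_nonneg fun q _ => zero_le_one.trans (hw q)) hM

/-- the degrees add up to twice the total weight -/
theorem sum_cCut_single (x : Fin n × Fin n → ℝ) :
    ∑ v, cCut x {v} = 2 * ∑ q ∈ ltPairs n, x q := by
  have := sum_star (subset_refl (ltPairs n)) x univ
  simp only [mem_univ, if_true] at this
  rw [mul_sum, ← sum_congr rfl fun q _ => two_mul (x q)] at *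
  rw [← this]
  refine sum_congr rfl fun v _ => sum_congr rfl fun q hq => ?_
  simp only [cr_singleton hq]

theorem cCut_nonneg {x : Fin n × Fin n → ℝ} (hx : ∀ q, 0 ≤ x q) (S : Finset (Fin n)) :
    0 ≤ cCut x S := sum_nonneg fun q _ => by split_ifs; exacts [hx q, le_rfl]

theorem sum_mul_cCnt (x : Fin n × Fin n → ℝ) (A : Multiset (Finset (Fin n))) :
    ∑ q ∈ ltPairs n, x q * cCnt A q = (A.map (cCut x)).sum := by
  induction A using Multiset.induction_on with
  | empty => simp [cCnt]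
  | cons S A ih =>
    simp only [cCnt, Multiset.countP_cons, Multiset.map_cons, Multiset.sum_cons] at ih ⊢
    rw [← ih, cCut, ← sum_add_distrib]
    refine sum_congr rfl fun q _ => ?_
    split_ifs <;> push_cast <;> ring

end Crest.Agent.R304
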