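import Crest.Agent.R304.CAlg

/-!
# R304/CFin: from positive weights to multiplicities, and the output
-/

set_option autoImplicit false

namespace Crest.Agent.R304

open Finset Crest.Matchings Crest.Agent.Lib.PT Crest.Enc

variable {n : ℕ}

theorem c_weights {m lam L : ℕ} (hm : n = 2 * m) {w w' : Fin n × Fin n → ℕ}
    (hw : ∀ q, w q ≤ 2 ^ lam) (hw' : ∀ q, w' q = if w q = 0 then 1 else 2 ^ L * w q) :
    2 ^ (L * m) * ∑ M ∈ cPM n, ∏ q ∈ M, w q ≤ ∑ M ∈ cPM n, ∏ q ∈ M, w' q ∧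
    2 ^ L * ∑ M ∈ cPM n, ∏ q ∈ M, w' q ≤ 2 ^ L * (2 ^ (L * m) * ∑ M ∈ cPM n, ∏ q ∈ M, w q) +
      2 ^ (n ^ 2) * (2 ^ (L * m) * 2 ^ (lam * m)) := by
  have hc : ∀ M ∈ cPM n, M.card = m := fun M hM => by
    have := two_mul_card_of_pm hM
    omega
  have e : ∀ M ∈ cPM n, 2 ^ (L * m) * ∏ q ∈ M, w q = ∏ q ∈ M, (2 ^ L * w q) := fun M hM => by
    rw [prod_mul_distrib, prod_const, hc M hM, pow_mul]
  constructor
  · rw [mul_sum]
    refine sum_le_sum fun M hM => ?_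
    rw [e M hM]
    refine prod_le_prod' fun q _ => ?_
    rw [hw']
    split_ifs with h
    · simp [h]
    · exact le_rfl
  · have h1 : ∀ M ∈ cPM n, 2 ^ L * ∏ q ∈ M, w' q ≤
        2 ^ L * (2 ^ (L * m) * ∏ q ∈ M, w q) + 2 ^ (L * m) * 2 ^ (lam * m) := fun M hM => by
      by_cases h : ∀ q ∈ M, w q ≠ 0
      · rw [e M hM, prod_congr rfl fun q hq => (hw' q).trans (if_neg (h q hq))]
        exact Nat.le_add_right _ _
      · push Not at h
        obtain ⟨q₀, h0, h2⟩ := h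
        refine le_trans ?_ (Nat.le_add_left _ _)
        have h3 : ∏ q ∈ M.erase q₀, w' q ≤ (2 ^ L * 2 ^ lam) ^ (M.erase q₀).card :=
          prod_le_pow_card _ _ _ fun q _ => by
            rw [hw']
            split_ifs
            · exact Nat.one_le_iff_ne_zero.2 (by positivity)
            · exact Nat.mul_le_mul_left _ (hw q)
        have h4 := card_erase_add_one h0
        rw [← mul_prod_erase M w' h0, hw' q₀, if_pos h2, one_mul, pow_mul, pow_mul, ← mul_pow,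
          ← hc M hM, ← h4, pow_succ']
        exact Nat.mul_le_mul (Nat.le_mul_of_pos_right _ (by positivity)) h3
    have h2 : (cPM n).card ≤ 2 ^ (n ^ 2) := by
      refine (card_filter_le _ _).trans ?_
      rw [card_powerset]
      exact Nat.pow_le_pow_right (by norm_num) (card_ltPairs_le n)
    rw [mul_sum, mul_sum, mul_sum]
    refine (sum_le_sum h1).trans ?_
    rw [sum_add_distrib, sum_const, smul_eq_mul]
    exact Nat.add_le_add_left (Nat.mul_le_mul_right _ h2) _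

theorem c_final {m lam N N' : ℕ} (hm : n = 2 * m) (h1 : 1 ≤ m) {R : ℚ} (r1 : R ≤ 8 ^ n * N')
    (r2 : (N' : ℚ) ≤ 3 ^ n * R) {L : ℕ} (hL : L = 1 + 5 * n + n ^ 2 + lam * n)
    (w1 : 2 ^ (L * m) * N ≤ N')
    (w2 : 2 ^ L * N' ≤ 2 ^ L * (2 ^ (L * m) * N) + 2 ^ (n ^ 2) * (2 ^ (L * m) * 2 ^ (lam * m))) :
    N ≤ 512 ^ n * ⌈R / (8 ^ n * 2 ^ (L * m)) - 1 / (2 * 24 ^ n)⌉₊ ∧
      ⌈R / (8 ^ n * 2 ^ (L * m)) - 1 / (2 * 24 ^ n)⌉₊ ≤ N := by
  have w1' : (2 : ℚ) ^ (L * m) * N ≤ N' := by exact_mod_cast w1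
  have w3 : 2 * 24 ^ n * N' ≤ 2 * 24 ^ n * (2 ^ (L * m) * N) + 2 ^ (L * m) := by
    have a : 2 * 24 ^ n * (2 ^ (n ^ 2) * 2 ^ (lam * m)) ≤ 2 ^ L := by
      have b : 24 ^ n ≤ 2 ^ (5 * n) := by
        rw [pow_mul]; exact Nat.pow_le_pow_left (by norm_num) _
      have c : 2 ^ (lam * m) ≤ 2 ^ (lam * n) :=
        Nat.pow_le_pow_right (by norm_num) (Nat.mul_le_mul_left _ (by omega))
      calc _ ≤ 2 * 2 ^ (5 * n) * (2 ^ (n ^ 2) * 2 ^ (lam * n)) := by gcongr
        _ = _ := by rw [hL]; ring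
    refine Nat.le_of_mul_le_mul_left ?_ (by positivity : 0 < 2 ^ L)
    have b := Nat.mul_le_mul_left (2 * 24 ^ n) w2
    have c := Nat.mul_le_mul_right (2 ^ (L * m)) a
    nlinarith
  have w3' : (2 : ℚ) * 24 ^ n * N' ≤ 2 * 24 ^ n * (2 ^ (L * m) * N) + 2 ^ (L * m) := by
    exact_mod_cast w3
  have p8 : (0 : ℚ) < 8 ^ n := by positivity
  have p3 : (0 : ℚ) < 3 ^ n := by positivity
  have p2 : (0 : ℚ) < 2 ^ (L * m) := by positivity
  have e24 : (24 : ℚ) ^ n = 3 ^ n * 8 ^ n := by rw [← mul_pow]; norm_num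
  constructor
  · rcases Nat.eq_zero_or_pos N with rfl | hN
    · exact Nat.zero_le _
    have hN' : (1 : ℚ) ≤ N := by exact_mod_cast hN
    have a := Nat.le_ceil (R / (8 ^ n * 2 ^ (L * m)) - 1 / (2 * 24 ^ n))
    set A := ⌈R / (8 ^ n * 2 ^ (L * m)) - 1 / (2 * 24 ^ n)⌉₊
    have b : (N : ℚ) / 24 ^ n ≤ R / (8 ^ n * 2 ^ (L * m)) := by
      rw [div_le_div_iff₀ (by positivity) (by positivity), e24]
      have := mul_le_mul_of_nonneg_left (w1'.trans r2) p8.le
      linarith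
    have c : (N : ℚ) ≤ 2 * 24 ^ n * A := by
      have d : (N : ℚ) / 24 ^ n - 1 / (2 * 24 ^ n) ≤ A := by linarith
      have d' := mul_le_mul_of_nonneg_left d (by positivity : (0 : ℚ) ≤ 2 * 24 ^ n)
      have e : (2 : ℚ) * 24 ^ n * (N / 24 ^ n - 1 / (2 * 24 ^ n)) = 2 * N - 1 := by field_simp
      linarith
    have c' : N ≤ 2 * 24 ^ n * A := by exact_mod_cast c
    refine c'.trans (Nat.mul_le_mul_right _ ?_)
    calc 2 * 24 ^ n ≤ 2 ^ n * 256 ^ n := Nat.mul_le_mul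
          (Nat.le_self_pow (by omega) 2) (Nat.pow_le_pow_left (by norm_num) _)
      _ = 512 ^ n := by rw [← mul_pow]; norm_num
  · rw [Nat.ceil_le, sub_le_iff_le_add, div_le_iff₀ (by positivity)]
    refine r1.trans ?_
    have : (N' : ℚ) ≤ (N + 1 / (2 * 24 ^ n)) * 2 ^ (L * m) := by
      refine le_of_mul_le_mul_left ?_ (by positivity : (0 : ℚ) < 2 * 24 ^ n)
      refine w3'.trans (le_of_eq ?_)
      field_simp
    have := mul_le_mul_of_nonneg_left this p8.le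
    linarith

/-- the multiplicity read off the records -/
def wOf (recs : List ((ℕ × ℕ) × ℕ)) (q : ℕ × ℕ) : ℕ := (recs.lookup q).getD 0

/-- the records of a table -/
def recsOf (n : ℕ) (w : Fin n → Fin n → ℕ) : List ((ℕ × ℕ) × ℕ) :=
  (posPairs n w).map fun q => ((q.1.val, q.2.val), w q.1 q.2)

theorem mem_posPairs {w : Fin n → Fin n → ℕ} {q : Fin n × Fin n} :
    q ∈ posPairs n w ↔ q.1 < q.2 ∧ 0 < w q.1 q.2 := by
  obtain ⟨a, b⟩ := q
  simp [posPairs]

theorem wOf_recsOf (w : Fin n → Fin n → ℕ) {q : Fin n × Fin n} (hq : q ∈ ltPairs n) :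
    wOf (recsOf n w) (q.1.val, q.2.val) = w q.1 q.2 := by
  unfold wOf
  cases h : (recsOf n w).lookup (q.1.val, q.2.val) with
  | none =>
    by_contra h0
    have := List.lookup_eq_none_iff.1 h _ (List.mem_map.2 ⟨q, mem_posPairs.2
      ⟨mem_ltPairs.1 hq, Nat.pos_of_ne_zero fun e => h0 e.symm⟩, rfl⟩)
    simp at this
  | some v =>
    obtain ⟨l1, l2, e, -⟩ := List.lookup_eq_some_iff.1 h
    have : ((q.1.val, q.2.val), v) ∈ recsOf n w := by rw [e]; simp
    obtain ⟨q', -, e'⟩ := List.mem_map.1 this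
    simp only [Prod.mk.injEq, Fin.val_inj] at e'
    rw [← e'.1.1, ← e'.1.2, e'.2]; rfl

theorem wOf_le (recs : List ((ℕ × ℕ) × ℕ)) (q : ℕ × ℕ) :
    wOf recs q ≤ 2 ^ Nat.size (recs.map fun p => p.2).sum := by
  unfold wOf
  cases h : recs.lookup q with
  | none => exact Nat.zero_le _
  | some v =>
    obtain ⟨l1, l2, e, -⟩ := List.lookup_eq_some_iff.1 h
    refine le_trans ?_ (Nat.lt_size_self _).le
    rw [e]
    simp only [Option.getD_some, List.map_append, List.map_cons, List.sum_append, List.sum_cons]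
    omega

theorem mult_eq (w : Fin n → Fin n → ℕ) : multNumPerfectMatchings w =
    ∑ M ∈ cPM n, ∏ q ∈ M, wOf (recsOf n w) (q.1.val, q.2.val) :=
  sum_congr rfl fun _ hM => prod_congr rfl fun _ hq => (wOf_recsOf w ((mem_cPM.1 hM).1 hq)).symm

theorem mult_eq_zero (w : Fin n → Fin n → ℕ) (h : Odd n ∨ 2 * (recsOf n w).length < n) :
    multNumPerfectMatchings w = 0 := by
  refine sum_eq_zero fun M (hM : M ∈ cPM n) => ?_
  have h1 := two_mul_card_of_pm hM
  rcases h with ⟨k, hk⟩ | h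
  · omega
  by_contra h0
  have h2 : M ⊆ (posPairs n w).toFinset := fun q hq => List.mem_toFinset.2 (mem_posPairs.2
    ⟨mem_ltPairs.1 ((mem_cPM.1 hM).1 hq), Nat.pos_of_ne_zero (prod_ne_zero_iff.1 h0 q hq)⟩)
  have h3 := (card_le_card h2).trans (List.toFinset_card_le _)
  rw [recsOf, List.length_map] at h
  omega

theorem exists_main : ∃ G : Un × List ((ℕ × ℕ) × ℕ) → ℕ, PT G ∧
    ∀ (n : ℕ) (w : Fin n → Fin n → ℕ), Even n → 4 ≤ n →
      multNumPerfectMatchings w ≤ 512 ^ n * G (⟨n⟩, recsOf n w) ∧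
      G (⟨n⟩, recsOf n w) ≤ multNumPerfectMatchings w := by
  obtain ⟨F, hF, hspec⟩ := exists_core
  let lam : Un × List ((ℕ × ℕ) × ℕ) → ℕ := fun p => Nat.size (p.2.map fun p => p.2).sum
  let L : Un × List ((ℕ × ℕ) × ℕ) → ℕ := fun p => 1 + 5 * p.1.n + p.1.n ^ 2 + lam p * p.1.n
  have h1 : PT lam := by simp only [lam]; fun_prop
  have h2 : PB lam := by simp only [lam]; fun_prop
  have h3 : PT L := by simp only [L]; fun_prop
  have h4 : PB L := by simp only [L]; fun_prop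
  refine ⟨fun p => ⌈F (p.1, ⟨L p + lam p⟩, (prs p.1.n).map fun q =>
      (q, if wOf p.2 q = 0 then 1 else 2 ^ L p * wOf p.2 q)) /
      (8 ^ p.1.n * 2 ^ (L p * (p.1.n / 2))) - 1 / (2 * 24 ^ p.1.n)⌉₊, ?_,
    fun n w hn hn4 => ?_⟩
  · unfold wOf
    fun_prop
  obtain ⟨m, hm⟩ : ∃ m, n = 2 * m := hn.two_dvd
  set p : Un × List ((ℕ × ℕ) × ℕ) := (⟨n⟩, recsOf n w)
  have hb : ∀ q, wOf (recsOf n w) q ≤ 2 ^ lam p := wOf_le _
  obtain ⟨r1, r2⟩ := hspec n (L p + lam p)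
    (fun q => if wOf (recsOf n w) q = 0 then 1 else 2 ^ L p * wOf (recsOf n w) q) hn hn4
    (fun q => by
      split_ifs with h
      · exact le_rfl
      · exact Nat.one_le_iff_ne_zero.2 (by positivity))
    (fun q => by
      split_ifs
      · exact Nat.one_le_two_pow
      · exact (Nat.mul_le_mul_left _ (hb q)).trans (pow_add 2 _ _).ge)
  obtain ⟨w1, w2⟩ := c_weights (L := L p) hm (w := fun q => wOf (recsOf n w) (q.1.val, q.2.val))
    (fun q => hb _) fun _ => rfl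
  rw [← mult_eq] at w1 w2
  have e : n / 2 = m := by omega
  simp only [p, e]
  simp only [cHaf, ← Nat.cast_prod, ← Nat.cast_sum] at r1 r2
  exact c_final hm (by omega) (by exact_mod_cast r1) (by exact_mod_cast r2) rfl w1 w2

end Crest.Agent.R304
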