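import Crest.Agent.R304.CDef
import Crest.Agent.R304.BIfc

/-!
# R304/CGibbs: the entropy lower bound for the hafnian
-/

set_option autoImplicit false

namespace Crest.Agent.R304

open Finset Crest.Matchings

theorem c_gibbs {k : ℕ} {P : Finset (Fin k) → Prop} [DecidablePred P] (p : Finset (Fin k) → ℝ)
    (h0 : ∀ M, 0 ≤ p M) (h1 : ∑ M, p M = 1) (h2 : ∀ M, p M ≠ 0 → P M) (w : Fin k → ℝ)
    (hw : ∀ e, 0 < w e) {Z : ℝ} (hZ0 : 0 < Z) (hZ : ∑ M ∈ univ.filter P, ∏ e ∈ M, w e ≤ Z) :
    lawEntropy p + ∑ e, marginal p e * Real.log (w e) ≤ Real.log Z := by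
  have e1 : ∑ e, marginal p e * Real.log (w e) = ∑ M, p M * Real.log (∏ e ∈ M, w e) := by
    simp only [marginal, sum_filter, sum_mul]
    rw [sum_comm]
    refine sum_congr rfl fun M _ => ?_
    rw [Real.log_prod fun e _ => (hw e).ne', mul_sum]
    simp only [ite_mul, zero_mul]
    rw [← sum_filter]
    simp
  have key : ∀ M, Real.negMulLog (p M) + p M * Real.log (∏ e ∈ M, w e) - p M * Real.log Z ≤
      (if P M then ∏ e ∈ M, w e else 0) / Z - p M := by
    intro M
    have hW : 0 < ∏ e ∈ M, w e := prod_pos fun e _ => hw e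
    rcases (h0 M).eq_or_lt with h | h
    · rw [← h]
      split_ifs
      · simp only [Real.negMulLog_zero, zero_mul, add_zero, sub_zero]; positivity
      · simp
    · rw [if_pos (h2 M h.ne')]
      have h3 := Real.log_le_sub_one_of_pos (x := (∏ e ∈ M, w e) / (p M * Z)) (by positivity)
      rw [Real.log_div hW.ne' (by positivity), Real.log_mul h.ne' hZ0.ne'] at h3
      have h4 := mul_le_mul_of_nonneg_left h3 h.le
      have h5 : p M * ((∏ e ∈ M, w e) / (p M * Z) - 1) = (∏ e ∈ M, w e) / Z - p M := by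
        field_simp
      rw [h5] at h4
      rw [Real.negMulLog]
      linarith
  have h6 := sum_le_sum fun M (_ : M ∈ univ) => key M
  rw [sum_sub_distrib, sum_sub_distrib, sum_add_distrib, ← sum_mul, h1, ← sum_div,
    ← sum_filter] at h6
  have h7 : (∑ M ∈ univ.filter P, ∏ e ∈ M, w e) / Z ≤ 1 := (div_le_one hZ0).2 hZ
  rw [e1, lawEntropy]
  linarith

theorem negMulLog_one_sub_le {y : ℝ} (h1 : y ≤ 1) : Real.negMulLog (1 - y) ≤ y := by
  rcases h1.eq_or_lt with rfl | h
  · simp
  · have h2 : 0 < 1 - y := by linarith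
    have h3 := Real.one_sub_inv_le_log_of_pos h2
    have h4 := mul_le_mul_of_nonneg_left h3 h2.le
    rw [mul_sub, mul_inv_cancel₀ h2.ne'] at h4
    rw [Real.negMulLog]
    linarith

theorem le_cCut_single {n : ℕ} {y : Fin n × Fin n → ℝ} (h0 : ∀ q, 0 ≤ y q) {q : Fin n × Fin n}
    (hq : q ∈ ltPairs n) : y q ≤ cCut y {q.1} := by
  have := single_le_sum (f := fun q' => if Cr {q.1} q' then y q' else 0)
    (fun q' _ => by split_ifs; exacts [h0 q', le_rfl]) hq
  simp only [(cr_singleton hq q.1).2 (Or.inl rfl), if_true] at this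
  exact this

/-- the Bethe-type lower bound at a point of the perfect matching polytope -/
theorem c_entropy {m : ℕ} (hm : 1 ≤ m) {y w : Fin (2 * m) × Fin (2 * m) → ℝ} (h0 : ∀ q, 0 ≤ y q)
    (h1 : ∀ v, cCut y {v} = 1) (h2 : ∀ S : Finset (Fin (2 * m)), Odd S.card → 1 ≤ cCut y S)
    (hw : ∀ q, 1 ≤ w q) :
    ∑ q ∈ ltPairs (2 * m), (Real.negMulLog (y q) + y q * Real.log (w q)) - 2 * m ≤
      Real.log (cHaf w) := by
  classical
  let e := (ltPairs (2 * m)).equivFin.symm
  let ends : Fin (ltPairs (2 * m)).card → Fin (2 * m) × Fin (2 * m) := fun j => (e j).1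
  have hmem : ∀ j, ends j ∈ ltPairs (2 * m) := fun j => (e j).2
  have hinj : Function.Injective ends := fun a b h => e.injective (Subtype.ext h)
  have hsum : ∀ g : Fin (2 * m) × Fin (2 * m) → ℝ,
      ∑ j, g (ends j) = ∑ q ∈ ltPairs (2 * m), g q := fun g => by
    rw [← sum_coe_sort (ltPairs (2 * m)) g]
    exact e.sum_comp fun q => g q.1
  have hends : ∀ j, (ends j).1 ≠ (ends j).2 := fun j => (mem_ltPairs.1 (hmem j)).ne
  obtain ⟨p, hp, hx⟩ := edmonds ends hends (fun j => y (ends j)) (fun j => h0 _)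
    (fun u => by
      rw [sum_filter, hsum fun q => if q.1 = u ∨ q.2 = u then y q else 0, ← h1 u, cCut]
      exact sum_congr rfl fun q hq => by simp only [cr_singleton hq])
    (fun S hS => by
      rw [sum_filter, hsum fun q => if ¬ (q.1 ∈ S ↔ q.2 ∈ S) then y q else 0]
      exact h2 S hS)
  obtain ⟨p', hp', hx', hH⟩ := entropy_lb m hm _ ends hends p hp
  simp only [hx] at hx' hH
  have hZ : ∑ M ∈ univ.filter (IsPerfectMatching ends), ∏ j ∈ M, w (ends j) ≤ cHaf w := by
    let emb : _ ↪ _ := ⟨ends, hinj⟩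
    have e2 : ∑ M ∈ univ.filter (IsPerfectMatching ends), ∏ j ∈ M, w (ends j) =
        ∑ M ∈ (univ.filter (IsPerfectMatching ends)).image (Finset.map emb), ∏ q ∈ M, w q := by
      rw [sum_image fun a _ b _ h => map_injective emb h]
      exact sum_congr rfl fun M _ => by rw [prod_map]; rfl
    rw [e2]
    refine sum_le_sum_of_subset_of_nonneg (fun M hM => ?_)
      fun M _ _ => prod_nonneg fun q _ => zero_le_one.trans (hw q)
    obtain ⟨F, hF, rfl⟩ := mem_image.1 hM
    refine mem_cPM.2 ⟨fun q hq => ?_, fun v => ?_⟩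
    · obtain ⟨j, -, rfl⟩ := mem_map.1 hq
      exact hmem j
    · rw [filter_map, card_map]
      exact (mem_filter.1 hF).2 v
  have hG := c_gibbs p' hp'.1 hp'.2.1 hp'.2.2 (fun j => w (ends j))
    (fun j => zero_lt_one.trans_le (hw _))
    (zero_lt_one.trans_le (one_le_cHaf (even_two_mul m) hw)) hZ
  simp only [hx'] at hG
  rw [hsum fun q => y q * Real.log (w q)] at hG
  rw [hsum fun q => Real.negMulLog (y q), hsum fun q => Real.negMulLog (1 - y q)] at hH
  have h3 : ∑ q ∈ ltPairs (2 * m), Real.negMulLog (1 - y q) ≤ m := by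
    refine (sum_le_sum fun q hq => negMulLog_one_sub_le
      ((le_cCut_single h0 hq).trans (h1 _).le)).trans ?_
    have := sum_cCut_single y
    simp only [h1, sum_const, card_univ, Fintype.card_fin, nsmul_eq_mul, mul_one] at this
    push_cast at this
    linarith
  have hm' : (1 : ℝ) ≤ m := by exact_mod_cast hm
  have h4 : 0 ≤ 2 - 2 / (m : ℝ) := by
    have : 2 / (m : ℝ) ≤ 2 := div_le_self (by norm_num) hm'
    linarith
  have h5 : (2 - 2 / (m : ℝ)) * m ≤ 2 * m := by
    have : 0 ≤ 2 / (m : ℝ) * m := by positivity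
    linarith
  have h6 := mul_le_mul_of_nonneg_left h3 h4
  rw [sum_add_distrib]
  linarith

end Crest.Agent.R304
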