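import Crest.Agent.R304.CDef

/-!
# R304/CPot: the multiplicative update and its potential
-/

set_option autoImplicit false

namespace Crest.Agent.R304

open Finset Crest.Matchings

variable {n : ℕ}

/-- states: a multiset of vertices (as singletons) and a multiset of odd sets -/
abbrev CSt (n : ℕ) : Type := Multiset (Finset (Fin n)) × Multiset (Finset (Fin n))

/-- the potential -/
noncomputable def cPhi (w : Fin n × Fin n → ℝ) (r η : ℝ) (s : CSt n) : ℝ :=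
  Real.log r * ((1 + η) * s.1.card - (1 - η) * s.2.card) + ∑ q ∈ ltPairs n, cX w r s.1 s.2 q

/-- the four moves -/
def CStep (w : Fin n × Fin n → ℝ) (r η : ℝ) (s t : CSt n) : Prop :=
  (∃ S, S.card = 1 ∧ 1 + 2 * η < cCut (cX w r s.1 s.2) S ∧ t.1 = S ::ₘ s.1 ∧ t.2 = s.2) ∨
  (∃ S, cCut (cX w r s.1 s.2) S < 1 ∧ s.1 = S ::ₘ t.1 ∧ t.2 = s.2) ∨
  (∃ S, 1 < cCut (cX w r s.1 s.2) S ∧ s.2 = S ::ₘ t.2 ∧ t.1 = s.1) ∨
  (∃ S, Odd S.card ∧ cCut (cX w r s.1 s.2) S < 1 - 2 * η ∧ t.2 = S ::ₘ s.2 ∧ t.1 = s.1)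

/-- the invariant -/
def CInv (s : CSt n) : Prop := (∀ S ∈ s.1, S.card = 1) ∧ ∀ S ∈ s.2, Odd S.card

/-- no move is possible -/
def CStop (w : Fin n × Fin n → ℝ) (r η : ℝ) (s : CSt n) : Prop :=
  (∀ v, cCut (cX w r s.1 s.2) {v} ≤ 1 + 2 * η) ∧ (∀ S ∈ s.1, 1 ≤ cCut (cX w r s.1 s.2) S) ∧
  (∀ S ∈ s.2, cCut (cX w r s.1 s.2) S ≤ 1) ∧ ∀ S, Odd S.card → 1 - 2 * η ≤ cCut (cX w r s.1 s.2) S

theorem CStep.inv {w : Fin n × Fin n → ℝ} {r η : ℝ} {s t : CSt n} (h : CStep w r η s t)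
    (hs : CInv s) : CInv t := by
  obtain ⟨h1, h2⟩ := hs
  rcases h with ⟨S, a, -, b, c⟩ | ⟨S, -, b, c⟩ | ⟨S, -, b, c⟩ | ⟨S, a, -, b, c⟩
  · refine ⟨fun T hT => ?_, c ▸ h2⟩
    rw [b, Multiset.mem_cons] at hT
    rcases hT with rfl | hT
    exacts [a, h1 T hT]
  · exact ⟨fun T hT => h1 T (b ▸ Multiset.mem_cons_of_mem hT), c ▸ h2⟩
  · exact ⟨c ▸ h1, fun T hT => h2 T (b ▸ Multiset.mem_cons_of_mem hT)⟩
  · refine ⟨c ▸ h1, fun T hT => ?_⟩
    rw [b, Multiset.mem_cons] at hT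
    rcases hT with rfl | hT
    exacts [a, h2 T hT]

theorem cX_consA (w : Fin n × Fin n → ℝ) {r : ℝ} (hr : 0 < r) (S : Finset (Fin n))
    (A B : Multiset (Finset (Fin n))) (q : Fin n × Fin n) :
    cX w r A B q = (if Cr S q then r else 1) * cX w r (S ::ₘ A) B q := by
  simp only [cX, cCnt, Multiset.countP_cons]
  split_ifs
  · rw [pow_succ]; field_simp
  · simp

theorem cX_consB (w : Fin n × Fin n → ℝ) (r : ℝ) (S : Finset (Fin n))
    (A B : Multiset (Finset (Fin n))) (q : Fin n × Fin n) :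
    cX w r A (S ::ₘ B) q = (if Cr S q then r else 1) * cX w r A B q := by
  simp only [cX, cCnt, Multiset.countP_cons]
  split_ifs
  · rw [pow_succ]; ring
  · simp

theorem c_scale {x y : Fin n × Fin n → ℝ} {r : ℝ} {S : Finset (Fin n)}
    (h : ∀ q, y q = (if Cr S q then r else 1) * x q) :
    ∑ q ∈ ltPairs n, y q = ∑ q ∈ ltPairs n, x q + (r - 1) * cCut x S ∧
      cCut y S = r * cCut x S := by
  constructor
  · rw [cCut, mul_sum, ← sum_add_distrib]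
    refine sum_congr rfl fun q _ => ?_
    rw [h]; split_ifs <;> ring
  · rw [cCut, cCut, mul_sum]
    refine sum_congr rfl fun q _ => ?_
    rw [h]; split_ifs <;> ring

theorem c_log_bounds {ξ : ℝ} (hξ : 0 < ξ) :
    ξ * (1 - ξ) ≤ Real.log (1 + ξ) ∧ Real.log (1 + ξ) ≤ ξ := by
  constructor
  · have h1 := Real.one_sub_inv_le_log_of_pos (x := 1 + ξ) (by linarith)
    refine le_trans ?_ h1
    have : (1 + ξ)⁻¹ ≤ 1 - ξ * (1 - ξ) := by
      rw [inv_le_iff_one_le_mul₀ (by linarith)]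
      nlinarith [pow_pos hξ 3]
    linarith
  · have := Real.log_le_sub_one_of_pos (x := 1 + ξ) (by linarith)
    linarith

theorem CStep.phi {w : Fin n × Fin n → ℝ} {ξ η : ℝ} (hξ : 0 < ξ) (h4 : 4 * ξ ≤ η) (h1 : η ≤ 1)
    {s t : CSt n} (h : CStep w (1 + ξ) η s t) :
    cPhi w (1 + ξ) η t ≤ cPhi w (1 + ξ) η s - ξ * η / 4 := by
  obtain ⟨l1, l2⟩ := c_log_bounds hξ
  have hr : 0 < 1 + ξ := by linarith
  have hη : 0 < η := by linarith
  obtain ⟨A, B⟩ := s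
  obtain ⟨A', B'⟩ := t
  rcases h with ⟨S, -, a, b, c⟩ | ⟨S, a, b, c⟩ | ⟨S, a, b, c⟩ | ⟨S, -, a, b, c⟩ <;>
    simp only at a b c <;> subst b c <;> simp only [cPhi, Multiset.card_cons] <;> push_cast
  · obtain ⟨e1, e2⟩ := c_scale (cX_consA w hr S A B')
    rw [e1]
    rw [e2] at a
    set c := cCut (cX w (1 + ξ) (S ::ₘ A) B') S
    have hc : (1 + 2 * η) * (1 - ξ) ≤ c := by
      by_contra hh
      push Not at hh
      nlinarith [mul_pos hξ hξ]
    have : Real.log (1 + ξ) * (1 + η) ≤ ξ * (1 + η) := by nlinarith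
    have : ξ * (1 + 5 * η / 4) ≤ ξ * c := by
      refine mul_le_mul_of_nonneg_left ?_ hξ.le
      nlinarith
    nlinarith
  · obtain ⟨e1, -⟩ := c_scale (cX_consA w hr S A' B')
    obtain ⟨-, e2⟩ := c_scale (cX_consA w hr S A' B')
    rw [e1]
    set c := cCut (cX w (1 + ξ) (S ::ₘ A') B') S
    have h5 : ξ * (1 - ξ) * (1 + η) ≤ Real.log (1 + ξ) * (1 + η) := by nlinarith
    have h6 : ξ * c ≤ ξ := by nlinarith
    have h7 : ξ * (1 + η / 4) ≤ ξ * ((1 - ξ) * (1 + η)) := by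
      refine mul_le_mul_of_nonneg_left ?_ hξ.le
      nlinarith
    nlinarith
  · obtain ⟨e1, e2⟩ := c_scale (cX_consB w (1 + ξ) S A' B')
    rw [e1]
    rw [e2] at a
    set c := cCut (cX w (1 + ξ) A' B') S
    have hc : 1 - ξ ≤ c := by
      by_contra hh
      push Not at hh
      nlinarith [mul_pos hξ hξ]
    have : Real.log (1 + ξ) * (1 - η) ≤ ξ * (1 - η) := by nlinarith
    have : ξ * (1 - η / 4) ≤ ξ * c := by
      refine mul_le_mul_of_nonneg_left ?_ hξ.le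
      nlinarith
    nlinarith [mul_pos hξ hη]
  · obtain ⟨e1, -⟩ := c_scale (cX_consB w (1 + ξ) S A' B)
    rw [e1]
    set c := cCut (cX w (1 + ξ) A' B) S
    have h5 : ξ * (1 - ξ) * (1 - η) ≤ Real.log (1 + ξ) * (1 - η) := by nlinarith
    have h6 : ξ * c ≤ ξ * (1 - 2 * η) := by nlinarith
    have h7 : ξ * (1 - 5 * η / 4) ≤ ξ * ((1 - ξ) * (1 - η)) := by
      refine mul_le_mul_of_nonneg_left ?_ hξ.le
      nlinarith [mul_pos hξ hη]
    nlinarith [mul_pos hξ hη]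

theorem log_le_cPhi (w : Fin n × Fin n → ℝ) {r η : ℝ} (hr : 1 ≤ r)
    (hη : 0 ≤ η) (s : CSt n) :
    Real.log (r ^ s.1.card / r ^ s.2.card) + ∑ q ∈ ltPairs n, cX w r s.1 s.2 q ≤ cPhi w r η s := by
  have hr0 : 0 < r := by linarith
  rw [Real.log_div (by positivity) (by positivity), Real.log_pow, Real.log_pow, cPhi]
  have h1 := Real.log_nonneg hr
  have : 0 ≤ Real.log r * (η * (s.1.card + s.2.card)) := by positivity
  nlinarith

theorem cHaf_le_R {w : Fin n × Fin n → ℝ} (hw : ∀ q, 0 ≤ w q) {r : ℝ} (hr : 1 ≤ r) {s : CSt n}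
    (hs : CInv s) : cHaf w ≤ r ^ s.1.card / r ^ s.2.card *
      Real.exp (∑ q ∈ ltPairs n, cX w r s.1 s.2 q) := by
  have hr0 : 0 < r := by linarith
  exact (cHaf_le_mul hw hr hs.1 hs.2).trans
    (mul_le_mul_of_nonneg_left (cHaf_le_exp (cX_nonneg hw hr0 _ _)) (by positivity))

theorem cPhi_nonneg (hn : Even n) {w : Fin n × Fin n → ℝ} (hw : ∀ q, 1 ≤ w q) {r η : ℝ}
    (hr : 1 ≤ r) (hη : 0 ≤ η) {s : CSt n} (hs : CInv s) : 0 ≤ cPhi w r η s := by
  have hw0 : ∀ q, 0 ≤ w q := fun q => zero_le_one.trans (hw q)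
  have hr0 : 0 < r := by linarith
  refine le_trans ?_ (log_le_cPhi w hr hη s)
  have h1 := (one_le_cHaf hn hw).trans (cHaf_le_R hw0 hr hs)
  have h2 := Real.log_nonneg h1
  rwa [Real.log_mul (by positivity) (by positivity), Real.log_exp] at h2

/-- the run stops -/
theorem c_run (hn : Even n) {w : Fin n × Fin n → ℝ} (hw : ∀ q, 1 ≤ w q) {ξ η : ℝ} (hξ : 0 < ξ)
    (h4 : 4 * ξ ≤ η) (h1 : η ≤ 1) (s : ℕ → CSt n) (h0 : CInv (s 0))
    (hs : ∀ k, CStep w (1 + ξ) η (s k) (s (k + 1)) ∨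
      (CStop w (1 + ξ) η (s k) ∧ s (k + 1) = s k)) {T : ℕ}
    (hT : cPhi w (1 + ξ) η (s 0) < T * (ξ * η / 4)) :
    CInv (s T) ∧ CStop w (1 + ξ) η (s T) ∧ cPhi w (1 + ξ) η (s T) ≤ cPhi w (1 + ξ) η (s 0) := by
  have hη : 0 < η := by linarith
  have hp : 0 < ξ * η / 4 := by positivity
  have key : ∀ k, CInv (s k) ∧ cPhi w (1 + ξ) η (s k) ≤ cPhi w (1 + ξ) η (s 0) ∧
      (CStop w (1 + ξ) η (s k) ∨
        cPhi w (1 + ξ) η (s k) ≤ cPhi w (1 + ξ) η (s 0) - k * (ξ * η / 4)) := by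
    intro k
    induction k with
    | zero => exact ⟨h0, le_rfl, Or.inr (by simp)⟩
    | succ k ih =>
      obtain ⟨i1, i2, i3⟩ := ih
      by_cases hst : CStop w (1 + ξ) η (s k)
      · have e : s (k + 1) = s k := by
          rcases hs k with h | h
          · exfalso
            obtain ⟨b1, b2, b3, b4⟩ := hst
            rcases h with ⟨S, a, b, -⟩ | ⟨S, a, b, -⟩ | ⟨S, a, b, -⟩ | ⟨S, a, b, -⟩
            · obtain ⟨v, rfl⟩ := card_eq_one.1 a
              exact absurd (b1 v) (not_le.2 b)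
            · exact absurd (b2 S (b ▸ Multiset.mem_cons_self _ _)) (not_le.2 a)
            · exact absurd (b3 S (b ▸ Multiset.mem_cons_self _ _)) (not_le.2 a)
            · exact absurd (b4 S a) (not_le.2 b)
          · exact h.2
        rw [e]
        exact ⟨i1, i2, Or.inl hst⟩
      · have h := (hs k).resolve_right fun h => hst h.1
        have h5 := h.phi hξ h4 h1
        have h6 := i3.resolve_left hst
        refine ⟨h.inv i1, by linarith, Or.inr ?_⟩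
        push_cast
        linarith
  obtain ⟨i1, i2, i3⟩ := key T
  refine ⟨i1, i3.resolve_right fun h => ?_, i2⟩
  have := cPhi_nonneg hn hw (r := 1 + ξ) (by linarith) hη.le i1
  linarith

/-- the initial potential -/
theorem cPhi_init {w : Fin n × Fin n → ℝ} {Λ Q : ℕ} (hQ : 0 < Q)
    (hw : ∀ q, w q ≤ 2 ^ Λ) {η : ℝ} (hη : 0 ≤ η) (h1 : η ≤ 1) {A : Multiset (Finset (Fin n))}
    (hA : A.card = n * (Q * Λ)) (hc : ∀ q ∈ ltPairs n, Q * Λ ≤ cCnt A q) :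
    cPhi w (1 + 1 / (Q : ℝ)) η (A, 0) ≤ 2 * n * Λ + n ^ 2 := by
  have hQ' : (0 : ℝ) < Q := by exact_mod_cast hQ
  have hξ : (0 : ℝ) < 1 / Q := by positivity
  have l2 := (c_log_bounds hξ).2
  have l0 : 0 ≤ Real.log (1 + 1 / (Q : ℝ)) := Real.log_nonneg (by linarith)
  have h2 : (2 : ℝ) ≤ (1 + 1 / (Q : ℝ)) ^ Q := by
    have := one_add_mul_le_pow (a := 1 / (Q : ℝ)) (by linarith) Q
    rwa [mul_one_div_cancel hQ'.ne', one_add_one_eq_two] at this
  have h3 : ∑ q ∈ ltPairs n, cX w (1 + 1 / (Q : ℝ)) A 0 q ≤ n ^ 2 := by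
    refine (sum_le_card_nsmul _ _ 1 fun q hq => ?_).trans ?_
    · simp only [cX, cCnt, Multiset.countP_zero, pow_zero, mul_one]
      rw [div_le_one (by positivity)]
      calc w q ≤ 2 ^ Λ := hw q
        _ ≤ ((1 + 1 / (Q : ℝ)) ^ Q) ^ Λ := pow_le_pow_left₀ (by norm_num) h2 _
        _ = (1 + 1 / (Q : ℝ)) ^ (Q * Λ) := (pow_mul _ _ _).symm
        _ ≤ _ := pow_le_pow_right₀ (by linarith) (hc q hq)
    · rw [nsmul_eq_mul, mul_one]
      exact_mod_cast card_ltPairs_le n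
  simp only [cPhi, hA, Multiset.card_zero]
  push_cast
  have h5 : Real.log (1 + 1 / (Q : ℝ)) * ((1 + η) * (n * (Q * Λ))) ≤
      1 / (Q : ℝ) * (2 * (n * (Q * Λ))) :=
    mul_le_mul l2 (mul_le_mul_of_nonneg_right (by linarith) (by positivity)) (by positivity) hξ.le
  have h6 : 1 / (Q : ℝ) * (2 * (n * (Q * Λ))) = 2 * n * Λ := by field_simp
  linarith

end Crest.Agent.R304
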