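import Crest.Agent.R304.CPot
import Crest.Agent.R304.CGibbs

/-!
# R304/CRound: rounding an approximate point into the polytope; the bounds at a stopping state
-/

set_option autoImplicit false

namespace Crest.Agent.R304

open Finset Crest.Matchings

variable {n : ℕ}

theorem sum_univ_eq_lt (F : Fin n × Fin n → ℝ) (hF : ∀ a, F (a, a) = 0) :
    ∑ q, F q = ∑ q ∈ ltPairs n, (F q + F q.swap) := by
  have h1 : ∀ q : Fin n × Fin n,
      F q = (if q.1 < q.2 then F q else 0) + (if q.2 < q.1 then F q else 0) := by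
    rintro ⟨a, b⟩
    rcases lt_trichotomy a b with h | rfl | h
    · simp [h, h.not_gt]
    · simp [hF]
    · simp [h, h.not_gt]
  rw [sum_congr rfl fun q _ => h1 q, sum_add_distrib, sum_add_distrib, ltPairs, sum_filter,
    sum_filter]
  congr 1
  exact (Equiv.sum_comp (Equiv.prodComm _ _) fun q : Fin n × Fin n =>
    if q.2 < q.1 then F q else 0).symm

theorem cCut_symm (g : Fin n → Fin n → ℝ) (hg : ∀ a b, g a b = g b a) (S : Finset (Fin n)) :
    cCut (fun q => g q.1 q.2) S = ∑ a ∈ S, ∑ b ∈ Sᶜ, g a b := by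
  have h1 := sum_univ_eq_lt (fun q => if q.1 ∈ S ∧ q.2 ∉ S then g q.1 q.2 else 0) (by simp)
  have h2 : ∑ a ∈ S, ∑ b ∈ Sᶜ, g a b =
      ∑ q : Fin n × Fin n, if q.1 ∈ S ∧ q.2 ∉ S then g q.1 q.2 else 0 := by
    rw [← sum_product', ← sum_filter]
    refine sum_congr ?_ fun _ _ => rfl
    ext q; simp
  rw [h2, h1, cCut]
  refine sum_congr rfl fun q _ => ?_
  unfold Cr
  by_cases a : q.1 ∈ S <;> by_cases b : q.2 ∈ S <;> simp [a, b, hg q.2 q.1]

theorem cCut_lin (a : ℝ) (x z : Fin n × Fin n → ℝ) (S : Finset (Fin n)) :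
    cCut (fun q => a * x q + z q) S = a * cCut x S + cCut z S := by
  simp only [cCut]
  rw [mul_sum, ← sum_add_distrib]
  refine sum_congr rfl fun q _ => ?_
  split_ifs <;> ring

theorem cCut_mono {x z : Fin n × Fin n → ℝ} (h : ∀ q, x q ≤ z q) (S : Finset (Fin n)) :
    cCut x S ≤ cCut z S := sum_le_sum fun q _ => by split_ifs; exacts [h q, le_rfl]

theorem c_round (hn : Even n) (h4 : 4 ≤ n) {x : Fin n × Fin n → ℝ} {η : ℝ} (hη : 0 < η)
    (ht : 25 * η ≤ 1) (h1 : ∀ v, cCut x {v} ≤ 1 + 2 * η)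
    (h2 : ∀ S : Finset (Fin n), Odd S.card → 1 - 2 * η ≤ cCut x S) :
    ∃ z : Fin n × Fin n → ℝ, (∀ q, 0 ≤ z q ∧ z q ≤ 25 * η) ∧
      (∀ v, cCut (fun q => (1 - 25 * η) * x q + z q) {v} = 1) ∧
      ∀ S : Finset (Fin n), Odd S.card → 1 ≤ cCut (fun q => (1 - 25 * η) * x q + z q) S := by
  have hn' : (4 : ℝ) ≤ n := by exact_mod_cast h4
  let d : Fin n → ℝ := fun v => 1 - (1 - 25 * η) * cCut x {v}
  have hd : ∀ v, 23 * η ≤ d v ∧ d v ≤ 27 * η := fun v => by
    have a := h1 v
    have b := h2 {v} (by simp)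
    have c : 0 ≤ 1 - 25 * η := by linarith
    have a' := mul_le_mul_of_nonneg_left a c
    have b' := mul_le_mul_of_nonneg_left b c
    simp only [d]
    constructor <;> nlinarith [mul_pos hη hη]
  let D := ∑ v, d v
  have hD : 23 * η * n ≤ D ∧ D ≤ 27 * η * n := by
    constructor
    · have := card_nsmul_le_sum univ d _ fun v _ => (hd v).1
      simpa [mul_comm] using this
    · have := sum_le_card_nsmul univ d _ fun v _ => (hd v).2
      simpa [mul_comm] using this
  let g : Fin n → Fin n → ℝ := fun a b => (d a + d b) / (n - 2) - D / ((n - 1) * (n - 2))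
  have p1 : (0 : ℝ) < n - 1 := by linarith
  have p2 : (0 : ℝ) < n - 2 := by linarith
  have hg : ∀ a b, 15 * η / (n - 1) ≤ g a b ∧ g a b ≤ 25 * η := fun a b => by
    have e : g a b = ((d a + d b) * (n - 1) - D) / ((n - 1) * (n - 2)) := by
      simp only [g]; field_simp
    have a1 := hd a
    have b1 := hd b
    have a2 : 46 * η * (n - 1) ≤ (d a + d b) * (n - 1) :=
      mul_le_mul_of_nonneg_right (by linarith) p1.le
    have a3 : (d a + d b) * (n - 1) ≤ 54 * η * (n - 1) :=
      mul_le_mul_of_nonneg_right (by linarith) p1.le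
    have a4 : 0 ≤ η * (n - 4) := mul_nonneg hη.le (by linarith)
    rw [e]
    constructor
    · rw [div_le_div_iff₀ p1 (mul_pos p1 p2)]
      have : 15 * η * (n - 2) ≤ (d a + d b) * (n - 1) - D := by nlinarith
      nlinarith
    · rw [div_le_iff₀ (mul_pos p1 p2)]
      have a5 : 0 ≤ η * (n - 4) * (n - 4) := mul_nonneg a4 (by linarith)
      nlinarith
  have hsymm : ∀ a b, g a b = g b a := fun a b => by simp only [g, add_comm]
  have hdeg : ∀ v, cCut (fun q => (1 - 25 * η) * x q + g q.1 q.2) {v} = 1 := fun v => by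
    rw [cCut_lin, cCut_symm g hsymm, sum_singleton]
    have e1 : ∑ b ∈ ({v} : Finset (Fin n))ᶜ, d b = D - d v := by
      have := sum_add_sum_compl ({v} : Finset (Fin n)) d
      rw [sum_singleton] at this
      simp only [D]; linarith
    have e2 : ((({v} : Finset (Fin n))ᶜ).card : ℝ) = n - 1 := by
      rw [card_compl, card_singleton, Fintype.card_fin, Nat.cast_sub (by omega)]; simp
    have e3 : ∑ b ∈ ({v} : Finset (Fin n))ᶜ, g v b = d v := by
      simp only [g]
      rw [sum_sub_distrib, ← sum_div, sum_add_distrib, e1, sum_const, sum_const, nsmul_eq_mul,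
        nsmul_eq_mul, e2]
      field_simp
      ring
    rw [e3]
    simp only [d]; ring
  refine ⟨fun q => g q.1 q.2, fun q => ⟨le_trans (by positivity) (hg _ _).1, (hg _ _).2⟩, hdeg,
    fun S hS => ?_⟩
  have hc : S.card + Sᶜ.card = n := by rw [card_add_card_compl, Fintype.card_fin]
  by_cases c1 : S.card = 1
  · obtain ⟨v, rfl⟩ := card_eq_one.1 c1
    exact (hdeg v).ge
  by_cases c2 : Sᶜ.card = 1
  · obtain ⟨v, hv⟩ := card_eq_one.1 c2
    rw [← cCut_compl, hv]
    exact (hdeg v).ge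
  have c3 : 3 ≤ S.card ∧ 3 ≤ Sᶜ.card := by
    obtain ⟨a, ha⟩ := hS
    obtain ⟨b, hb⟩ := hn
    omega
  have c4 : (3 : ℝ) ≤ S.card := by exact_mod_cast c3.1
  have c5 : (3 : ℝ) ≤ Sᶜ.card := by exact_mod_cast c3.2
  have c6 : (S.card : ℝ) + Sᶜ.card = n := by exact_mod_cast hc
  rw [cCut_lin]
  have c7 := cCut_mono (x := fun _ => 15 * η / (n - 1)) (z := fun q => g q.1 q.2)
    (fun q => (hg _ _).1) S
  rw [cCut_symm (fun _ _ => 15 * η / (n - 1)) (fun _ _ => rfl), sum_const, sum_const, nsmul_eq_mul,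
    nsmul_eq_mul] at c7
  have c8 : 27 * η ≤ S.card * (Sᶜ.card * (15 * η / (n - 1))) := by
    rw [← mul_div_assoc, ← mul_div_assoc, le_div_iff₀ p1]
    have : 9 * (n - 1 : ℝ) ≤ 5 * (S.card * Sᶜ.card) := by
      nlinarith [mul_nonneg (sub_nonneg.2 c4) (sub_nonneg.2 c5)]
    nlinarith
  have c9 := mul_le_mul_of_nonneg_left (h2 S hS) (by linarith : 0 ≤ 1 - 25 * η)
  nlinarith [mul_pos hη hη]

theorem c_concave {x z t c : ℝ} (hx : 0 ≤ x) (hz : 0 ≤ z) (hzt : z ≤ t) (ht : 0 < t) (ht1 : t ≤ 1)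
    (hc : 0 ≤ c) : (1 - t) * (Real.negMulLog x + x * c) ≤
      Real.negMulLog ((1 - t) * x + z) + ((1 - t) * x + z) * c := by
  have h1 := Real.concaveOn_negMulLog.2 (Set.mem_Ici.2 hx) (Set.mem_Ici.2 (div_nonneg hz ht.le))
    (sub_nonneg.2 ht1) ht.le (by ring)
  simp only [smul_eq_mul] at h1
  rw [mul_div_cancel₀ _ ht.ne'] at h1
  have h2 : 0 ≤ Real.negMulLog (z / t) :=
    Real.negMulLog_nonneg (div_nonneg hz ht.le) ((div_le_one ht).2 hzt)
  nlinarith [mul_nonneg hz hc, mul_nonneg ht.le h2]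

/-- The two-sided bound at a stopping state. -/
theorem c_stop (hn : Even n) (h4 : 4 ≤ n) {w : Fin n × Fin n → ℝ} (hw : ∀ q, 1 ≤ w q) {r η : ℝ}
    (hr : 1 ≤ r) (hη : 0 < η) (ht : 25 * η ≤ 1) {s : CSt n} (hs : CInv s) (h : CStop w r η s)
    (hΦ : 25 * η * cPhi w r η s ≤ n) :
    r ^ s.1.card / r ^ s.2.card ≤ 8 ^ n * cHaf w ∧
      cHaf w ≤ 3 ^ n * (r ^ s.1.card / r ^ s.2.card) := by
  obtain ⟨b1, b2, b3, b4⟩ := h
  have hr0 : 0 < r := by linarith
  have hw0 : ∀ q, 0 ≤ w q := fun q => zero_le_one.trans (hw q)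
  have hx := cX_nonneg hw0 hr0 s.1 s.2
  have hR : 0 < r ^ s.1.card / r ^ s.2.card := by positivity
  have hn0 : (0 : ℝ) ≤ n := Nat.cast_nonneg n
  constructor
  · obtain ⟨z, z1, z2, z3⟩ := c_round hn h4 hη ht b1 b4
    obtain ⟨m, rfl⟩ : ∃ m, n = 2 * m := hn.two_dvd
    have c0 : 0 ≤ 1 - 25 * η := by linarith
    have h1 := c_entropy (by omega) (fun q => add_nonneg (mul_nonneg c0 (hx q)) (z1 q).1) z2 z3 hw
    have h2 := sum_le_sum fun q (_ : q ∈ ltPairs (2 * m)) =>
      c_concave (hx q) (z1 q).1 (z1 q).2 (by linarith) ht (Real.log_nonneg (hw q))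
    rw [← mul_sum] at h2
    have h3 : ∑ q ∈ ltPairs (2 * m), (Real.negMulLog (cX w r s.1 s.2 q) +
        cX w r s.1 s.2 q * Real.log (w q)) = Real.log r *
          ((s.1.map (cCut (cX w r s.1 s.2))).sum - (s.2.map (cCut (cX w r s.1 s.2))).sum) := by
      rw [← sum_mul_cCnt, ← sum_mul_cCnt, ← sum_sub_distrib, mul_sum]
      refine sum_congr rfl fun q _ => ?_
      have hq : 0 < w q := zero_lt_one.trans_le (hw q)
      have : Real.log (cX w r s.1 s.2 q) =
          Real.log (w q) + cCnt s.2 q * Real.log r - cCnt s.1 q * Real.log r := by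
        rw [cX, Real.log_div (by positivity) (by positivity),
          Real.log_mul hq.ne' (by positivity), Real.log_pow, Real.log_pow]
      rw [Real.negMulLog, this]
      ring
    have h5 : (s.1.card : ℝ) ≤ (s.1.map (cCut (cX w r s.1 s.2))).sum := by
      have := Multiset.card_nsmul_le_sum (s := s.1.map (cCut (cX w r s.1 s.2))) (a := 1)
        (fun x hx => by
          obtain ⟨S, hS, rfl⟩ := Multiset.mem_map.1 hx
          exact b2 S hS)
      simpa using this
    have h6 : (s.2.map (cCut (cX w r s.1 s.2))).sum ≤ (s.2.card : ℝ) := by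
      have := Multiset.sum_le_card_nsmul (s.2.map (cCut (cX w r s.1 s.2))) 1
        (fun x hx => by
          obtain ⟨S, hS, rfl⟩ := Multiset.mem_map.1 hx
          exact b3 S hS)
      simpa using this
    have l0 := Real.log_nonneg hr
    have h7 : Real.log (r ^ s.1.card / r ^ s.2.card) =
        Real.log r * (s.1.card - s.2.card) := by
      rw [Real.log_div (by positivity) (by positivity), Real.log_pow, Real.log_pow]; ring
    have h8 : Real.log (r ^ s.1.card / r ^ s.2.card) ≤ Real.log r *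
        ((s.1.map (cCut (cX w r s.1 s.2))).sum - (s.2.map (cCut (cX w r s.1 s.2))).sum) := by
      rw [h7]
      exact mul_le_mul_of_nonneg_left (by linarith) l0
    have h9 : Real.log (r ^ s.1.card / r ^ s.2.card) ≤ cPhi w r η s := by
      have := log_le_cPhi w hr hη.le s
      have := sum_nonneg fun q (_ : q ∈ ltPairs (2 * m)) => hx q
      linarith
    have h10 := mul_le_mul_of_nonneg_left h8 c0
    have h11 := mul_le_mul_of_nonneg_left h9 (by linarith : 0 ≤ 25 * η)
    rw [h3] at h2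
    push_cast at hΦ
    have h12 : Real.log (r ^ s.1.card / r ^ s.2.card) ≤ Real.log (cHaf w) + (2 * m : ℕ) * 2 := by
      push_cast
      linarith
    have hZ : 0 < cHaf w := zero_lt_one.trans_le (one_le_cHaf hn hw)
    have h13 := Real.exp_le_exp.2 h12
    rw [Real.exp_log hR, Real.exp_add, Real.exp_log hZ, Real.exp_nat_mul] at h13
    refine h13.trans ?_
    rw [mul_comm]
    refine mul_le_mul_of_nonneg_right (pow_le_pow_left₀ (Real.exp_pos _).le ?_ _) hZ.le
    have e1 := Real.exp_one_lt_d9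
    have e0 := Real.exp_pos 1
    have e2 : Real.exp 2 = Real.exp 1 * Real.exp 1 := by rw [← Real.exp_add]; norm_num
    nlinarith
  · refine (cHaf_le_R hw0 hr hs).trans ?_
    rw [mul_comm]
    refine mul_le_mul_of_nonneg_right ?_ hR.le
    have h1 := sum_cCut_single (cX w r s.1 s.2)
    have h2 := sum_le_card_nsmul univ _ _ fun v (_ : v ∈ univ) => b1 v
    simp only [card_univ, Fintype.card_fin, nsmul_eq_mul] at h2
    have h3 : ∑ q ∈ ltPairs n, cX w r s.1 s.2 q ≤ n * 1 := by nlinarith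
    refine (Real.exp_le_exp.2 h3).trans ?_
    rw [Real.exp_nat_mul]
    exact pow_le_pow_left₀ (Real.exp_pos _).le (by linarith [Real.exp_one_lt_d9]) _

end Crest.Agent.R304
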