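import Crest.Agent.R304.CFin

/-!
# R304/CTop: parsing, the small cases, and the statement `S0467`
-/

set_option autoImplicit false

namespace Crest.Agent.R304

open Finset Crest.Matchings Crest.Agent.Lib.PT Crest.Enc

/-- the parser of one record -/
def recP : List Bool → ((ℕ × ℕ) × ℕ) × List Bool := parsePair (parsePair parseNat parseNat) parseNat

theorem shrinks_recP : Shrinks recP :=
  (shrinks_parseNat.parsePair shrinks_parseNat).parsePair shrinks_parseNat

theorem recP_pt : PT recP := by unfold recP parsePair; fun_prop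

theorem parse_code (n : ℕ) (w : Fin n → Fin n → ℕ) :
    (parseNat (pairMultCode n w)).1 = n ∧
      (parseList recP (parseNat (pairMultCode n w)).2).1 = recsOf n w := by
  rw [pairMultCode, List.append_assoc, parseNat_natCode]
  refine ⟨rfl, ?_⟩
  have := parseList_flatten (p := recP)
    (code := fun q : Fin n × Fin n => natCode q.1 ++ natCode q.2 ++ natCode (w q.1 q.2))
    (val := fun q => ((q.1.val, q.2.val), w q.1 q.2)) (posPairs n w)
    (fun q _ r => parsePair_append
      (parsePair_append (parseNat_natCode _ _) (parseNat_natCode _ _)) (parseNat_natCode _ _))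
    (fun q _ => by simp [natCode_ne_nil]) []
  rw [List.append_nil] at this
  simp only [this, recsOf]

theorem mult_zero (w : Fin 0 → Fin 0 → ℕ) : multNumPerfectMatchings w = 1 := by
  have : ltPairs 0 = ∅ := by simp [ltPairs]
  simp [multNumPerfectMatchings, this]

theorem mult_two (w : Fin 2 → Fin 2 → ℕ) :
    multNumPerfectMatchings w = wOf (recsOf 2 w) (0, 1) := by
  have : cPM 2 = {{(0, 1)}} := by decide
  rw [mult_eq, this]
  simp

theorem exists_approx : ∃ f : List Bool → List Bool, Crest.Complexity.PolyTime f ∧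
    ∀ (n : ℕ) (w : Fin n → Fin n → ℕ), ∃ A : ℕ, f (pairMultCode n w) = natCode A ∧
      multNumPerfectMatchings w ≤ 512 ^ n * A ∧ A ≤ multNumPerfectMatchings w := by
  obtain ⟨G, hG, hspec⟩ := exists_main
  let out : ℕ × List ((ℕ × ℕ) × ℕ) → ℕ := fun p =>
    if p.1 = 0 then 1 else if Odd p.1 ∨ 2 * p.2.length < p.1 then 0 else
      if p.1 = 2 then wOf p.2 (0, 1) else G (⟨min p.1 (2 * p.2.length)⟩, p.2)
  have hout : PT out := by
    have h1 : PT fun p : ℕ × List ((ℕ × ℕ) × ℕ) => G (⟨min p.1 (2 * p.2.length)⟩, p.2) :=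
      hG.comp ((PT.un_mk (by fun_prop) (PB.min_right _ (by fun_prop))).pair PT.id.snd)
    simp only [out, wOf]
    exact PT.ite (by fun_prop) (by fun_prop) (PT.ite (by fun_prop) (by fun_prop)
      (PT.ite (by fun_prop) (by fun_prop) h1))
  have hp : PT fun x : List Bool => ((parseNat x).1, (parseList recP (parseNat x).2).1) :=
    PT.pair (by fun_prop) (PT.parseList (p := fun _ => recP) (recP_pt.comp PT.id.snd)
      (fun _ => shrinks_recP) (by fun_prop)).fst
  refine ⟨fun x => natCode (out ((parseNat x).1, (parseList recP (parseNat x).2).1)),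
    PT.polyTime (PT.natCode (hout.comp hp)), fun n w => ⟨out (n, recsOf n w), ?_, ?_⟩⟩
  · simp only [(parse_code n w).1, (parse_code n w).2]
  simp only [out]
  split_ifs with h0 h1 h2
  · subst h0
    simp [mult_zero]
  · simp [mult_eq_zero w h1]
  · subst h2
    rw [mult_two]
    exact ⟨Nat.le_mul_of_pos_left _ (by norm_num), le_rfl⟩
  · push Not at h1
    have he := Nat.not_odd_iff_even.1 h1.1
    rw [min_eq_left h1.2]
    refine hspec n w he ?_
    obtain ⟨k, hk⟩ := he
    omega

end Crest.Agent.R304
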