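import Crest.Agent.R304.Close

/-!
# R304/CaseA1: `l₁` even, `l₂` odd (TASK)

`l = l₁ ++ l₂` is odd.  `W` has `p a`, `b c` and the inner edges `Qin` of `l₁`, `l₂`; `U` has `Pin l₁`, `Pin l₂` and `d q` (`q = U d`); `p, q ∉ l`.
States `S₀ = W`, `S₁ = toP l₂ W` (edge `b d`), `S₂ = sw a d S₁` (edges `p d`, `a b`), `S₃ = toP l₁.dropLast S₂ = toP l W` (`toP_eq`, `flip_pin`, `flip_other`).  Take `J = {0, 1, 2}`; `U₁ = toQ l₂ U`.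
`eps = -(φ S₃ - φ S₀ - val l) + (φ S₁ - φ S₀ - val l₂) + (φ S₂ - φ S₁) + (φ S₃ - φ S₂ - val l₁)`, so `eps² ≤ 4 ∑ squares`: the first two by `err_Q` at `(W, U)` (mode `none`),
the third by `err_sw` at `(S₁, U₁)`, the last by `err_Q` at `(S₂, U₁)` (mode `some b`; `close_QS`, `close_PS`).
Weights: `exch_le` for `(S₁, U₁)`; for `(S₂, U₁)` multiply `pr_exch` and `pr_sw` (the factor `λ b d` cancels): `p a, b c, d q` are replaced by `p d, a b, c q` (`Ult.three`).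
-/

set_option autoImplicit false

namespace Crest.Agent.R304

open Finset Crest.Agent.R309

variable {V : Type} [Fintype V] [DecidableEq V] [Inhabited V] {s ρ : V → V → ℝ} {β : ℝ}
  {U W : PM V} {l l₁ l₂ : List V}

theorem caseA1_num {x y₁ y₂ e₀ e₁ e₂ A B C D E b : ℝ} (hx : 0 ≤ x) (hb : 1 ≤ b) (he₀ : 0 ≤ e₀)
    (h₁ : 0 ≤ y₁ * e₁) (h₂ : 0 ≤ y₂ * e₂) (hE : E = -A + B + C + D) (hA : A ^ 2 ≤ e₀)
    (hB : B ^ 2 ≤ e₀) (hC : x * C ^ 2 ≤ b * (y₁ * e₁)) (hD : x * D ^ 2 ≤ b * (y₂ * e₂)) :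
    x * E ^ 2 ≤ 16 * b * (x * e₀ + (y₁ * e₁ + y₂ * e₂)) := by
  have h1 : E ^ 2 ≤ 4 * (A ^ 2 + B ^ 2 + C ^ 2 + D ^ 2) := by
    rw [hE]
    nlinarith [sq_nonneg (A + B), sq_nonneg (A + C), sq_nonneg (A + D), sq_nonneg (B - C),
      sq_nonneg (B - D), sq_nonneg (C - D)]
  have h2 := mul_le_mul_of_nonneg_left h1 hx
  have h3 := mul_le_mul_of_nonneg_left hA hx
  have h4 := mul_le_mul_of_nonneg_left hB hx
  have h5 : 0 ≤ x * e₀ := mul_nonneg hx he₀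
  have h6 : x * e₀ ≤ b * (x * e₀) := le_mul_of_one_le_left h5 hb
  have h7 : 0 ≤ b * (y₁ * e₁) := mul_nonneg (by linarith) h₁
  have h8 : 0 ≤ b * (y₂ * e₂) := mul_nonneg (by linarith) h₂
  linarith

theorem ctl_even_odd (h : Ult s ρ β) (φ : PM V → ℝ) (hs : Split ρ U W l₁ l₂)
    (h₁ : Even l₁.length) (h₂ : Odd l₂.length) : Ctl (pr s) ρ β φ U W l₁ l₂ := by
  have hg := hs.good
  have n₁ := hs.ne₁
  have n₂ := hs.ne₂
  have hw := h.toWt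
  have ho : Odd (l₁ ++ l₂).length := by rw [List.length_append]; exact h₁.add_odd h₂
  obtain ⟨nd₁, nd₂, hdis⟩ := List.nodup_append.1 hg.nd
  have len₁ : 2 ≤ l₁.length := by
    obtain ⟨k, hk⟩ := h₁
    have := List.length_pos_iff.2 n₁
    omega
  obtain ⟨pU₁, pU₂⟩ := (pin_append_even h₁).1 hg.pin
  obtain ⟨qW₁, hbc, qW₂⟩ := (qin_append_even h₁ n₁ n₂).1 hg.qin
  have hleft := hg.left
  have hright := hg.right
  have hp := qin_hd_notMem hg.nd hg.qin ho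
  have hq := pin_lst_notMem hg.nd hg.pin ho
  rw [if_pos ho] at hright
  have ehd : hd (l₁ ++ l₂) = hd l₁ := hd_append n₁
  have elst : lst (l₁ ++ l₂) = lst l₂ := lst_append n₂
  rw [ehd] at hleft hp
  rw [elst] at hright hq
  have ma := hd_mem n₁
  have mb := lst_mem n₁
  have mc := hd_mem n₂
  have md := lst_mem n₂
  have hab := hd_ne_lst nd₁ len₁
  have L₁ : ∀ {v}, v ∈ l₁ → v ∈ l₁ ++ l₂ := fun hv => List.mem_append_left _ hv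
  have L₂ : ∀ {v}, v ∈ l₂ → v ∈ l₁ ++ l₂ := fun hv => List.mem_append_right _ hv
  have D₁ : ∀ {v}, v ∈ l₁ → v ∉ l₂ := fun hv hv' => hdis _ hv _ hv' rfl
  have hcb : W.f (hd l₂) = lst l₁ := W.eq_iff.1 hbc
  have np : ∀ {v}, v ∈ l₁ ++ l₂ → v ≠ W.f (hd l₁) := fun hv e => hp (e ▸ hv)
  have nq : ∀ {v}, v ∈ l₁ ++ l₂ → v ≠ U.f (lst l₂) := fun hv e => hq (e ▸ hv)
  -- the first state
  set S₁ := toP l₂ W with hS₁
  set U₁ := toQ l₂ U with hU₁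
  have pS₁ : Pin S₁ l₂ := toP_pin nd₂ h₂ qW₂
  have S₁d : S₁.f (lst l₂) = lst l₁ := (toP_lst nd₂ h₂ qW₂).trans hcb
  have S₁o : ∀ {v}, v ∉ l₂ → v ≠ lst l₁ → S₁.f v = W.f v := fun h1 h2 =>
    toP_other nd₂ h₂ qW₂ h1 (by rwa [hcb])
  have S₁a : S₁.f (hd l₁) = W.f (hd l₁) := S₁o (D₁ ma) hab
  have qS₁ : Qin S₁ l₁ := qin_congr_even nd₁ qW₁ fun v hv _ h2 => S₁o (D₁ hv) h2
  have qU₁ : Qin U₁ l₂ := toQ_qin nd₂ h₂ pU₂
  have pU₁' : Pin U₁ l₁ := pin_congr_even pU₁ fun v hv => toQ_other nd₂ h₂ pU₂ (D₁ hv) (nq (L₁ hv))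
  -- the second state
  have had : hd l₁ ≠ lst l₂ := hdis _ ma _ md
  have hpd : S₁.f (hd l₁) ≠ lst l₂ := by rw [S₁a]; exact (np (L₂ md)).symm
  set S₂ := sw (hd l₁) (lst l₂) S₁ with hS₂
  have S₂a : S₂.f (hd l₁) = lst l₁ := (sw_left _ _ had hpd).trans S₁d
  have S₂d : S₂.f (lst l₂) = W.f (hd l₁) := (sw_right _ _ had hpd).trans S₁a
  have S₂o : ∀ {v}, v ≠ hd l₁ → v ≠ lst l₂ → v ≠ W.f (hd l₁) → v ≠ lst l₁ → S₂.f v = S₁.f v :=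
    fun h1 h2 h3 h4 => sw_other h1 h2 (by rwa [S₁a]) (by rwa [S₁d])
  have qS₂ : Qin S₂ l₁ := qin_congr_even nd₁ qS₁ fun v hv h1 h2 =>
    S₂o h1 (hdis _ hv _ md) (np (L₁ hv)) h2
  have pS₂ : Pin S₂ l₂ := pin_congr_odd nd₂ pS₁ fun v hv h1 =>
    S₂o (hdis _ ma _ hv).symm h1 (np (L₂ hv)) (hdis _ mb _ hv).symm
  -- the third state
  have S₃o : ∀ {v}, v ∉ l₁ → (toP l₁.dropLast S₂).f v = S₂.f v := fun hv =>
    flip_other nd₁ h₁ n₁ qS₂ S₂a hv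
  have hS₃ : toP (l₁ ++ l₂) W = toP l₁.dropLast S₂ := by
    refine toP_eq hg.nd ho hg.qin ((pin_append_even h₁).2 ⟨flip_pin nd₁ h₁ n₁ qS₂ S₂a,
      pin_congr_even pS₂ fun v hv => S₃o fun hv' => D₁ hv' hv⟩) ?_ ?_
    · rw [elst, ehd, S₃o fun hv' => D₁ hv' md, S₂d]
    · intro v hv hv'
      rw [ehd] at hv'
      have hb : v ≠ lst l₁ := fun e => hv (e ▸ L₁ mb)
      have ha : v ≠ hd l₁ := fun e => hv (e ▸ L₁ ma)
      have hd' : v ≠ lst l₂ := fun e => hv (e ▸ L₂ md)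
      rw [S₃o fun h' => hv (L₁ h'), S₂o ha hd' hv' hb,
        S₁o (fun h' => hv (L₂ h')) hb]
  -- admissibility
  have Q₀ : QS ρ (l₁ ++ l₂) none W := by
    refine ⟨hg.qin, ?_⟩
    simp only [Option.elim, ehd, elst]
    exact hleft _ (L₁ ma) _ (L₂ md)
  have P₀ : PS ρ (l₁ ++ l₂) none U := by
    refine ⟨hg.pin, ?_⟩
    simp only [Option.elim, ehd, elst]
    exact hright _ (L₁ ma) _ (L₂ md)
  have Q₂ : QS ρ l₂ none W := by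
    refine ⟨qW₂, ?_⟩
    simp only [Option.elim]
    rw [hcb, h.rsymm (hd l₂) (lst l₁)]
    exact hs.le _ (L₂ mc) _ (L₂ md)
  have P₂ : PS ρ l₂ none U := ⟨pU₂, hright _ (L₂ mc) _ (L₂ md)⟩
  have Q₁ : QS ρ l₁.dropLast (some (lst l₁)) S₂ := close_QS nd₁ h₁ n₁ qS₂ S₂a
  have P₁ : PS ρ l₁.dropLast (some (lst l₁)) U₁ := close_PS h₁ n₁ pU₁'
  have eA := err_Q (φ := φ) (z := (W, U)) hw hg.nd ho Q₀ P₀
  have eB := err_Q (φ := φ) (z := (W, U)) hw nd₂ h₂ Q₂ P₂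
  have eD := err_Q (φ := φ) (z := (S₂, U₁)) hw (nd₁.sublist (List.dropLast_sublist _))
    (odd_dropLast h₁ n₁) Q₁ P₁
  -- weights
  have hβ := h.one_le
  have hβ3 : 1 ≤ β ^ 3 := one_le_pow₀ hβ
  have pos : ∀ X Y : PM V, 0 < pr s X * pr s Y := fun X Y => mul_pos (hw.pr_pos X) (hw.pr_pos Y)
  have w₁ : pr s W * pr s U ≤ β ^ 3 * (pr s S₁ * pr s U₁) :=
    (exch_le h nd₂ h₂ Q₂ P₂).trans
      (mul_le_mul_of_nonneg_right (pow_le_pow_right₀ hβ (by norm_num)) (pos _ _).le)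
  have w₂ : pr s W * pr s U ≤ β ^ 3 * (pr s S₂ * pr s U₁) := by
    have e1 := pr_exch hw nd₂ h₂ pU₂ qW₂
    have e2 := pr_sw (W := S₁) hw (hd l₁) (lst l₂) had hpd
    rw [hcb, ← hS₁, ← hU₁] at e1
    rw [S₁a, S₁d, ← hS₂] at e2
    have hdb : s (lst l₂) (lst l₁) ^ 2 ≠ 0 := pow_ne_zero _ (hw.pos _ _).ne'
    refine h.three (u₁ := hd l₁) (v₁ := W.f (hd l₁)) (u₂ := hd l₂) (v₂ := lst l₁)
      (u₃ := lst l₂) (v₃ := U.f (lst l₂)) (a₁ := lst l₂) (b₁ := W.f (hd l₁)) (a₂ := hd l₁)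
      (b₂ := lst l₁) (a₃ := hd l₂) (b₃ := U.f (lst l₂)) (pos _ _).le ?_ (np (L₁ ma))
      (hdis _ mb _ mc).symm (nq (L₂ md)) (np (L₂ md)) hab (nq (L₂ mc))
      (h.le_of_le (hleft _ (L₁ ma) _ (L₂ md))) ?_ (h.le_of_le (hright _ (L₂ md) _ (L₂ mc)))
    · refine mul_right_cancel₀ hdb ?_
      linear_combination
        (pr s U₁ * s (hd l₂) (lst l₁) ^ 2 * s (lst l₂) (U.f (lst l₂)) ^ 2) * e2 +
        (s (lst l₂) (W.f (hd l₁)) ^ 2 * s (hd l₁) (lst l₁) ^ 2) * e1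
    · rw [h.rsymm (hd l₂) (lst l₁)]
      exact hs.le _ (L₁ ma) _ (L₁ mb)
  have hβ0 : 0 < β ^ 3 := by linarith
  have eC := err_sw (ρ := ρ) (φ := φ) hw (hd l₁) (lst l₂) (S₁, U₁) (c := pr s W * pr s U / β ^ 3)
    (by rw [div_le_iff₀' hβ0]; exact w₁) (by rw [div_le_iff₀' hβ0]; exact w₂)
  rw [div_mul_eq_mul_div, div_le_iff₀' hβ0] at eC
  refine ⟨{0, 1, 2}, ?_, ?_⟩
  · intro j hj
    simp only [mem_insert, mem_singleton] at hj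
    rcases hj with rfl | rfl | rfl
    · exact ⟨Or.inr ⟨pU₁, qW₁⟩, Or.inr ⟨pU₂, qW₂⟩⟩
    · exact ⟨Or.inr ⟨pU₁', qS₁⟩, Or.inl ⟨pS₁, qU₁⟩⟩
    · exact ⟨Or.inr ⟨pU₁', qS₂⟩, Or.inl ⟨pS₂, qU₁⟩⟩
  · rw [sum_insert (by decide), sum_insert (by decide), sum_singleton, mul_comm (pr s U) (pr s W)]
    refine caseA1_num (x := pr s W * pr s U) (y₁ := pr s S₁ * pr s U₁) (y₂ := pr s S₂ * pr s U₁)
      (e₀ := err (pr s) ρ φ (W, U)) (e₁ := err (pr s) ρ φ (S₁, U₁))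
      (e₂ := err (pr s) ρ φ (S₂, U₁)) (pos _ _).le hβ3 (err_nonneg hw _)
      (mul_nonneg (pos _ _).le (err_nonneg hw _)) (mul_nonneg (pos _ _).le (err_nonneg hw _))
      ?_ eA eB eC
      ((mul_le_mul w₂ eD (sq_nonneg _) (mul_pos hβ0 (pos _ _)).le).trans (le_of_eq (mul_assoc _ _ _)))
    unfold eps val
    rw [if_pos ho, if_neg (Nat.not_odd_iff_even.2 h₁), if_pos h₂, h₁.neg_one_pow]
    simp only [hS₃, ← hS₁, ← hS₂]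
    ring

end Crest.Agent.R304
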