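import Crest.Agent.R304.Dec

/-!
# R304/Close: tools for the four cases

Notation in all `Case*` files: `a = hd l₁`, `b = lst l₁`, `c = hd l₂`, `d = lst l₂`, `p = W a`, `λ u v = s u v ^ 2`, `r = ρ b c`.
-/

set_option autoImplicit false

namespace Crest.Agent.R304

open Finset Crest.Agent.R309

variable {V : Type} [Fintype V] [DecidableEq V] [Inhabited V] {s ρ : V → V → ℝ} {β : ℝ}
  {U W : PM V} {l l₁ l₂ : List V}

/-- the ball around `l₁` is left through `c` -/
theorem Split.eq_r (h : Ult s ρ β) (hs : Split ρ U W l₁ l₂) {u : V} (hu : u ∈ l₁) :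
    ρ u (hd l₂) = ρ (lst l₁) (hd l₂) := by
  have h1 := hs.lt _ (lst_mem hs.ne₁) u hu
  have h2 := hs.le u (List.mem_append_left _ hu) _ (List.mem_append_right _ (hd_mem hs.ne₂))
  exact le_antisymm h2 ((le_max_iff.1 (h.ultra (lst l₁) u (hd l₂))).resolve_left h1.not_ge)

/-- far points see the points of a small set at no larger distance -/
theorem Ult.le_of_le (h : Ult s ρ β) {u v x : V} (h1 : ρ u v ≤ ρ u x) : ρ v x ≤ ρ u x := by
  exact (h.ultra v u x).trans (max_le (by rwa [h.rsymm]) le_rfl)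

omit [Fintype V] [DecidableEq V] [Inhabited V] in
theorem close_edge (h : Ult s ρ β) {u v a b : V} (n : u ≠ v) (m : a ≠ b) (l : ρ a b ≤ ρ u v) :
    s u v ^ 2 ≤ β * s a b ^ 2 := by
  have h0 : 0 ≤ β * s a b ^ 2 := mul_nonneg (zero_le_one.trans h.one_le) (sq_nonneg _)
  have h1 := mul_le_mul_of_nonneg_left (h.lo u v n) h0
  have h2 := mul_le_mul_of_nonneg_left (h.hi a b m) (sq_nonneg (s u v))
  have h3 := mul_le_mul_of_nonneg_left l (mul_nonneg h0 (sq_nonneg (s u v)))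
  nlinarith

omit [Fintype V] [DecidableEq V] [Inhabited V] in
theorem close_two (he : Even l.length) (h0 : l ≠ []) : 2 ≤ l.length := by
  have := List.length_pos_iff.2 h0
  obtain ⟨k, hk⟩ := he
  omega

/-- three edges are replaced by three edges that are not longer -/
theorem Ult.three (h : Ult s ρ β) {x y : ℝ} {u₁ v₁ u₂ v₂ u₃ v₃ a₁ b₁ a₂ b₂ a₃ b₃ : V} (hy : 0 ≤ y)
    (e : y * (s u₁ v₁ ^ 2 * s u₂ v₂ ^ 2 * s u₃ v₃ ^ 2) =
      x * (s a₁ b₁ ^ 2 * s a₂ b₂ ^ 2 * s a₃ b₃ ^ 2))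
    (n₁ : u₁ ≠ v₁) (n₂ : u₂ ≠ v₂) (n₃ : u₃ ≠ v₃) (m₁ : a₁ ≠ b₁) (m₂ : a₂ ≠ b₂) (m₃ : a₃ ≠ b₃)
    (l₁ : ρ a₁ b₁ ≤ ρ u₁ v₁) (l₂ : ρ a₂ b₂ ≤ ρ u₂ v₂) (l₃ : ρ a₃ b₃ ≤ ρ u₃ v₃) :
    x ≤ β ^ 3 * y := by
  have hβ : 0 ≤ β := zero_le_one.trans h.one_le
  have p₁ := pow_pos (h.pos a₁ b₁) 2
  have p₂ := pow_pos (h.pos a₂ b₂) 2
  have p₃ := pow_pos (h.pos a₃ b₃) 2
  have h1 := mul_le_mul (mul_le_mul (close_edge h n₁ m₁ l₁) (close_edge h n₂ m₂ l₂) (sq_nonneg _)
    (by positivity)) (close_edge h n₃ m₃ l₃) (sq_nonneg _) (by positivity)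
  have h2 := mul_le_mul_of_nonneg_left h1 hy
  rw [e] at h2
  refine le_of_mul_le_mul_right (h2.trans (le_of_eq ?_)) (mul_pos (mul_pos p₁ p₂) p₃)
  ring

/-! Closing an even arc: `W° = sw (W (hd l)) (lst l) W`.  Either `W (hd l) = lst l` and `W° = W` (`sw_of_eq`), or `W (hd l), W (lst l) ∉ l` and the edges
`hd l - W (hd l)`, `lst l - W (lst l)` are replaced by `hd l - lst l`, `W (hd l) - W (lst l)`. -/

theorem close_hd (hn : l.Nodup) (he : Even l.length) (h0 : l ≠ []) :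
    (sw (W.f (hd l)) (lst l) W).f (hd l) = lst l := by
  have h1 := hd_ne_lst hn (close_two he h0)
  rw [sw, smul_f, Equiv.swap_inv, Equiv.swap_apply_of_ne_of_ne (W.ne _).symm h1,
    Equiv.swap_apply_left]

theorem close_other (hn : l.Nodup) (he : Even l.length) (hq : Qin W l) {v : V}
    (hv : v ∈ l) (h1 : v ≠ hd l) (h2 : v ≠ lst l) : (sw (W.f (hd l)) (lst l) W).f v = W.f v := by
  obtain ⟨-, a1, a2⟩ := qin_mem_even hn hq he hv h1 h2
  exact sw_other (fun e => a1 (by rw [e, W.inv])) h2 (by rwa [W.inv])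
    fun e => a2 (by rw [e, W.inv])

theorem close_qin (hn : l.Nodup) (he : Even l.length) (hq : Qin W l) :
    Qin (sw (W.f (hd l)) (lst l) W) l := by
  exact qin_congr_even hn hq fun v hv h1 h2 => close_other hn he hq hv h1 h2

/-- the closed arc is admissible in the mode `some (lst l)` -/
theorem close_QS (hn : l.Nodup) (he : Even l.length) (h0 : l ≠ []) (hq : Qin W l)
    (hc : W.f (hd l) = lst l) : QS ρ l.dropLast (some (lst l)) W := by
  exact ⟨(qin_dropLast he).1 hq, by rw [hd_dropLast (close_two he h0)]; exact hc⟩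

theorem close_PS (he : Even l.length) (h0 : l ≠ []) (hp : Pin U l) :
    PS ρ l.dropLast (some (lst l)) U := by
  exact (pin_dropLast he h0).1 hp

/-- With `a = hd l`, `d = lst l`, `p = W a`, `q = W d`.  If `p ≠ d`: `pr W° λ(p a) λ(d q) = pr W λ(d a) λ(p q)` (`pr_sw`), and
`ρ u v * ρ p q ≤ ρ p a * ρ d q` because `ρ p q ≤ max (ρ p a) (ρ d q)` and `ρ u v ≤ min`. -/
theorem close_pr (h : Ult s ρ β) (hg : Good ρ U W l) (he : Even l.length) {u v : V} (hu : u ∈ l)
    (hv : v ∈ l) :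
    pr s W * (s (hd l) (lst l) ^ 2 * ρ u v) ≤ β * pr s (sw (W.f (hd l)) (lst l) W) := by
  have hβ : 0 ≤ β := zero_le_one.trans h.one_le
  have h1 := hd_ne_lst hg.nd (close_two he hg.ne)
  have hl := hg.left u hu v hv
  have hr := hg.right
  rw [if_neg (Nat.not_odd_iff_even.2 he)] at hr
  have hW := h.toWt.pr_pos W
  by_cases hp : W.f (hd l) = lst l
  · rw [sw_of_eq (Or.inl hp), mul_comm β]
    rw [hp] at hl
    exact mul_le_mul_of_nonneg_left ((mul_le_mul_of_nonneg_left hl (sq_nonneg _)).trans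
      ((h.lo _ _ h1).trans h.one_le)) hW.le
  have e := pr_sw (W := W) h.toWt (W.f (hd l)) (lst l) hp (by rwa [W.inv])
  rw [W.inv, h.symm (lst l) (hd l)] at e
  have n1 : W.f (hd l) ≠ W.f (lst l) := fun e => h1 (W.inj e)
  have n2 : W.f (hd l) ≠ hd l := W.ne _
  have n3 : lst l ≠ W.f (lst l) := (W.ne _).symm
  have h0 : 0 ≤ ρ u v := by
    by_cases huv : u = v
    · rw [huv, h.rself]
    · exact (h.rpos u v huv).le
  have key : s (W.f (hd l)) (hd l) ^ 2 * s (lst l) (W.f (lst l)) ^ 2 * ρ u v ≤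
      β * s (W.f (hd l)) (W.f (lst l)) ^ 2 := by
    rcases le_max_iff.1 (h.ultra (W.f (hd l)) (hd l) (W.f (lst l))) with h2 | h2
    · have a1 := close_edge h n2 n1 h2
      have a2 := (mul_le_mul_of_nonneg_left (hr u hu v hv) (sq_nonneg _)).trans (h.lo _ _ n3)
      rw [mul_assoc]
      exact (mul_le_of_le_one_right (sq_nonneg _) a2).trans a1
    · have a0 := h2.trans ((h.ultra (hd l) (lst l) _).trans
        (max_le (hr _ (hd_mem hg.ne) _ (lst_mem hg.ne)) le_rfl))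
      have a1 := close_edge h n3 n1 a0
      rw [h.rsymm (hd l)] at hl
      have a2 := (mul_le_mul_of_nonneg_left hl (sq_nonneg _)).trans (h.lo _ _ n2)
      rw [mul_right_comm]
      exact (mul_le_of_le_one_left (sq_nonneg _) a2).trans a1
  have h3 := mul_le_mul_of_nonneg_left key (h.toWt.pr_pos (sw (W.f (hd l)) (lst l) W)).le
  rw [← mul_assoc, e] at h3
  refine le_of_mul_le_mul_right (le_trans (le_of_eq ?_) (h3.trans (le_of_eq ?_)))
    (pow_pos (h.pos (W.f (hd l)) (W.f (lst l))) 2) <;> ring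

theorem close_pr' (h : Ult s ρ β) (hg : Good ρ U W l) (he : Even l.length) :
    pr s W ≤ β ^ 2 * pr s (sw (W.f (hd l)) (lst l) W) := by
  have h1 := mul_le_mul_of_nonneg_left (close_pr h hg he (hd_mem hg.ne) (lst_mem hg.ne))
    (zero_le_one.trans h.one_le)
  have h2 := mul_le_mul_of_nonneg_left (h.hi _ _ (hd_ne_lst hg.nd (close_two he hg.ne)))
    (h.toWt.pr_pos W).le
  nlinarith

/-- flipping a closed even arc -/
theorem flip_pin (hn : l.Nodup) (he : Even l.length) (h0 : l ≠ []) (hq : Qin W l)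
    (hc : W.f (hd l) = lst l) : Pin (toP l.dropLast W) l := by
  have hn' := hn.sublist (List.dropLast_sublist l)
  have ho := odd_dropLast he h0
  have hq' := (qin_dropLast he).1 hq
  refine (pin_dropLast he h0).2 ⟨toP_pin hn' ho hq', ?_⟩
  rw [toP_lst hn' ho hq', hd_dropLast (close_two he h0), hc]

theorem flip_other (hn : l.Nodup) (he : Even l.length) (h0 : l ≠ []) (hq : Qin W l)
    (hc : W.f (hd l) = lst l) {v : V} (hv : v ∉ l) : (toP l.dropLast W).f v = W.f v := by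
  refine toP_other (hn.sublist (List.dropLast_sublist l)) (odd_dropLast he h0)
    ((qin_dropLast he).1 hq) (fun h => hv (List.mem_of_mem_dropLast h)) fun e => hv ?_
  rw [e, hd_dropLast (close_two he h0), hc]
  exact lst_mem h0

theorem flip_eq {W' : PM V} (hn : l.Nodup) (he : Even l.length) (h0 : l ≠ []) (hq : Qin W l)
    (hc : W.f (hd l) = lst l) (hp : Pin W' l) (ho : ∀ v, v ∉ l → W'.f v = W.f v) :
    toP l.dropLast W = W' := by
  obtain ⟨a1, a2⟩ := (pin_dropLast he h0).1 hp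
  have hc' : W.f (hd l.dropLast) = lst l := by rw [hd_dropLast (close_two he h0), hc]
  refine toP_eq (hn.sublist (List.dropLast_sublist l)) (odd_dropLast he h0)
    ((qin_dropLast he).1 hq) a1 (a2.trans hc'.symm) fun v h1 h2 => ho v fun hv => ?_
  exact h1 ((mem_dropLast hn).2 ⟨hv, hc' ▸ h2⟩)

theorem unflip_qin (hn : l.Nodup) (he : Even l.length) (h0 : l ≠ []) (hp : Pin U l) :
    Qin (toQ l.dropLast U) l ∧ (toQ l.dropLast U).f (hd l) = lst l := by
  have hn' := hn.sublist (List.dropLast_sublist l)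
  have ho := odd_dropLast he h0
  obtain ⟨a1, a2⟩ := (pin_dropLast he h0).1 hp
  refine ⟨(qin_dropLast he).2 (toQ_qin hn' ho a1), ?_⟩
  rw [← hd_dropLast (close_two he h0), toQ_hd hn' ho a1, a2]

theorem unflip_other (hn : l.Nodup) (he : Even l.length) (h0 : l ≠ []) (hp : Pin U l) {v : V}
    (hv : v ∉ l) : (toQ l.dropLast U).f v = U.f v := by
  obtain ⟨a1, a2⟩ := (pin_dropLast he h0).1 hp
  refine toQ_other (hn.sublist (List.dropLast_sublist l)) (odd_dropLast he h0) a1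
    (fun h => hv (List.mem_of_mem_dropLast h)) fun e => hv ?_
  rw [e, a2]
  exact lst_mem h0

theorem unflip_eq {W' : PM V} (hn : l.Nodup) (he : Even l.length) (h0 : l ≠ []) (hp : Pin U l)
    (hq : Qin W' l) (hc : W'.f (hd l) = lst l) (ho : ∀ v, v ∉ l → W'.f v = U.f v) :
    toQ l.dropLast U = W' := by
  obtain ⟨a1, a2⟩ := (pin_dropLast he h0).1 hp
  refine toQ_eq (hn.sublist (List.dropLast_sublist l)) (odd_dropLast he h0) a1
    ((qin_dropLast he).1 hq) (by rw [hd_dropLast (close_two he h0), hc, a2])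
    fun v h1 h2 => ho v fun hv => ?_
  exact h1 ((mem_dropLast hn).2 ⟨hv, a2 ▸ h2⟩)

/-- flipping a cycle in both matchings keeps the weight -/
theorem flip_pr (hs : Wt s) (hn : l.Nodup) (he : Even l.length) (h0 : l ≠ []) (hq : Qin W l)
    (hc : W.f (hd l) = lst l) (hp : Pin U l) :
    pr s (toP l.dropLast W) * pr s (toQ l.dropLast U) = pr s W * pr s U := by
  obtain ⟨a1, a2⟩ := (pin_dropLast he h0).1 hp
  have e := pr_exch hs (hn.sublist (List.dropLast_sublist l)) (odd_dropLast he h0) a1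
    ((qin_dropLast he).1 hq)
  rw [hd_dropLast (close_two he h0), hc, a2, mul_comm (s (lst l.dropLast) (lst l) ^ 2)] at e
  exact mul_right_cancel₀ (mul_pos (pow_pos (hs.pos _ _) 2) (pow_pos (hs.pos _ _) 2)).ne' e

end Crest.Agent.R304
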