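import Crest.Agent.R304.AnnDef
import Crest.Prelude.Def_Matchings

/-!
# R304/Count: counting matchings (TASK)
-/

set_option autoImplicit false

namespace Crest.Agent.R304

open Finset Crest.Agent.R309

/-- involutions moving exactly the points of `S` -/
def cntI {V : Type} [Fintype V] [DecidableEq V] (S : Finset V) : Finset (V → V) :=
  univ.filter fun f => (∀ v, f (f v) = v) ∧ ∀ v, f v ≠ v ↔ v ∈ S

theorem cnt_mem {V : Type} [Fintype V] [DecidableEq V] {S : Finset V} {f : V → V} :
    f ∈ cntI S ↔ (∀ v, f (f v) = v) ∧ ∀ v, f v ≠ v ↔ v ∈ S := by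
  simp [cntI]

theorem cnt_fiber {V : Type} [Fintype V] [DecidableEq V] {S : Finset V} {a b : V} (ha : a ∈ S)
    (hb : b ∈ S) (hab : b ≠ a) :
    ((cntI S).filter fun f => f a = b).card = (cntI ((S.erase a).erase b)).card := by
  refine Finset.card_nbij' (fun f v => if v = a ∨ v = b then v else f v)
    (fun g v => if v = a then b else if v = b then a else g v) ?_ ?_ ?_ ?_
  · intro f hf
    obtain ⟨hf, hfa⟩ := Finset.mem_filter.1 (Finset.mem_coe.1 hf)
    obtain ⟨h1, h2⟩ := cnt_mem.1 hf
    have hfb : f b = a := by rw [← hfa, h1]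
    refine Finset.mem_coe.2 (cnt_mem.2 ⟨fun v => ?_, fun v => ?_⟩)
    · by_cases hv : v = a ∨ v = b
      · simp only [if_pos hv]
      · have : ¬ (f v = a ∨ f v = b) := by
          rintro (h | h)
          · exact hv (Or.inr (by rw [← h1 v, h, hfa]))
          · exact hv (Or.inl (by rw [← h1 v, h, hfb]))
        simp only [if_neg hv, if_neg this, h1]
    · by_cases hv : v = a ∨ v = b
      · simp only [if_pos hv]
        rcases hv with rfl | rfl <;> simp
      · simp only [if_neg hv, h2, Finset.mem_erase]
        tauto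
  · intro g hg
    obtain ⟨h1, h2⟩ := cnt_mem.1 (Finset.mem_coe.1 hg)
    have hga : g a = a := by
      by_contra h
      simpa using (h2 a).1 h
    have hgb : g b = b := by
      by_contra h
      simpa using (h2 b).1 h
    refine Finset.mem_coe.2 (Finset.mem_filter.2 ⟨cnt_mem.2 ⟨fun v => ?_, fun v => ?_⟩, by simp⟩)
    · by_cases hva : v = a
      · simp [hva, hab]
      · by_cases hvb : v = b
        · simp [hvb, hab]
        · have e1 : g v ≠ a := fun h => hva (by rw [← h1 v, h, hga])
          have e2 : g v ≠ b := fun h => hvb (by rw [← h1 v, h, hgb])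
          simp [hva, hvb, e1, e2, h1]
    · by_cases hva : v = a
      · simp [hva, hab, ha]
      · by_cases hvb : v = b
        · simp [hvb, hab, hb, Ne.symm hab]
        · simp only [if_neg hva, if_neg hvb, h2, Finset.mem_erase]
          tauto
  · intro f hf
    obtain ⟨hf, hfa⟩ := Finset.mem_filter.1 (Finset.mem_coe.1 hf)
    obtain ⟨h1, -⟩ := cnt_mem.1 hf
    have hfb : f b = a := by rw [← hfa, h1]
    funext v
    by_cases hva : v = a
    · simp [hva, hfa]
    · by_cases hvb : v = b
      · simp [hvb, hab, hfb]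
      · simp [hva, hvb]
  · intro g hg
    obtain ⟨h1, h2⟩ := cnt_mem.1 (Finset.mem_coe.1 hg)
    have hga : g a = a := by
      by_contra h
      simpa using (h2 a).1 h
    have hgb : g b = b := by
      by_contra h
      simpa using (h2 b).1 h
    funext v
    by_cases hva : v = a
    · simp [hva, hga]
    · by_cases hvb : v = b
      · simp [hvb, hgb]
      · simp [hva, hvb]

theorem cnt_card {V : Type} [Fintype V] [DecidableEq V] (m : ℕ) : ∀ S : Finset V,
    S.card = 2 * m → (cntI S).card = ((List.range m).map fun i => 2 * i + 1).prod := by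
  induction m with
  | zero =>
    intro S hS
    obtain rfl : S = ∅ := Finset.card_eq_zero.1 hS
    have : cntI (∅ : Finset V) = {id} := by
      ext f
      simp only [cnt_mem, Finset.mem_singleton]
      constructor
      · rintro ⟨-, h⟩
        funext v
        by_contra h'
        simpa using (h v).1 h'
      · rintro rfl; simp
    simp [this]
  | succ m ih =>
    intro S hS
    obtain ⟨a, ha⟩ : S.Nonempty := Finset.card_pos.1 (by omega)
    have h1 : (S.erase a).card = 2 * m + 1 := by rw [Finset.card_erase_of_mem ha]; omega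
    rw [Finset.card_eq_sum_card_fiberwise (f := fun f : V → V => f a) (t := S.erase a)]
    · rw [Finset.sum_congr rfl (g := fun _ => ((List.range m).map fun i => 2 * i + 1).prod)]
      · rw [Finset.sum_const, h1, List.range_succ, List.map_append, List.prod_append]
        simp [mul_comm]
      · intro b hb
        rw [cnt_fiber ha (Finset.mem_of_mem_erase hb) (Finset.ne_of_mem_erase hb)]
        exact ih _ (by rw [Finset.card_erase_of_mem hb]; omega)
    · intro f hf
      obtain ⟨h2, h3⟩ := cnt_mem.1 (Finset.mem_coe.1 hf)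
      have h4 := (h3 a).2 ha
      exact Finset.mem_coe.2 (Finset.mem_erase.2 ⟨h4, (h3 _).1 (by rw [h2]; exact h4.symm)⟩)

/-- For a finite set `S` of even cardinality count the involutions `f` with `f v ≠ v ↔ v ∈ S`: fix `a ∈ S` and classify by `b = f a`; the map
`f ↦ f` with `a, b` made fixed points is a bijection onto the involutions for `S \ {a, b}`. -/
theorem card_PM {V : Type} [Fintype V] [DecidableEq V] {m : ℕ} (h : Fintype.card V = 2 * m) :
    Fintype.card (PM V) = ((List.range m).map fun i => 2 * i + 1).prod := by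
  rw [← cnt_card m (univ : Finset V) h, ← Finset.card_univ]
  refine Finset.card_bij (fun X _ => X.f) (fun X _ => cnt_mem.2 ⟨X.inv, fun v => ?_⟩)
    (fun X _ Y _ e => PM.ext e) fun f hf => ?_
  · simp [X.ne]
  · obtain ⟨h1, h2⟩ := cnt_mem.1 hf
    exact ⟨⟨f, h1, fun v => (h2 v).2 (Finset.mem_univ v)⟩, Finset.mem_univ _, rfl⟩

/-- `Function.Involutive.card_fixedPoints`-like parity argument, e.g. `Finset.sum_involution` in `ZMod 2` -/
theorem even_of_PM {V : Type} [Fintype V] [DecidableEq V] (X : PM V) : Even (Fintype.card V) := by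
  have h : ∑ _v : V, (1 : ZMod 2) = 0 :=
    Finset.sum_involution (fun v _ => X.f v) (fun _ _ => by decide) (fun v _ _ => X.ne v)
      (fun _ _ => Finset.mem_univ _) fun v _ => X.inv v
  rw [Finset.sum_const, Finset.card_univ, nsmul_eq_mul, mul_one] at h
  exact (ZMod.natCast_eq_zero_iff_even).1 h

theorem nonempty_PM {V : Type} [Fintype V] [DecidableEq V] (h : Even (Fintype.card V)) :
    Nonempty (PM V) := by
  obtain ⟨m, hm⟩ := h
  rw [← Fintype.card_pos_iff, card_PM (m := m) (by omega)]
  refine List.prod_pos fun a ha => ?_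
  obtain ⟨i, -, rfl⟩ := List.mem_map.1 ha
  omega

theorem cnt_odd {n : ℕ} (h : n % 2 = 1) (adj : Fin n → Fin n → Prop) : cnt adj = 0 := by
  have : IsEmpty (PM (Fin n)) := ⟨fun X => by
    have := even_of_PM X
    rw [Fintype.card_fin, Nat.even_iff] at this
    omega⟩
  exact Nat.card_of_isEmpty

theorem cnt_zero (adj : Fin 0 → Fin 0 → Prop) : cnt adj = 1 := by
  refine Nat.card_eq_one_iff_exists.2 ⟨⟨⟨id, fun _ => rfl, fun v => v.elim0⟩, fun v => v.elim0⟩, ?_⟩
  intro X
  exact Subtype.ext (PM.ext (funext fun v => v.elim0))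

theorem cnt_filter_image {V : Type} [Fintype V] [DecidableEq V] (X : PM V) (v : V) :
    ((univ.image fun u => s(u, X.f u)).filter fun e => v ∈ e) = {s(v, X.f v)} := by
  ext e
  simp only [Finset.mem_filter, Finset.mem_image, Finset.mem_univ, true_and, Finset.mem_singleton]
  constructor
  · rintro ⟨⟨u, rfl⟩, hv⟩
    rcases Sym2.mem_iff.1 hv with rfl | rfl
    · rfl
    · rw [X.inv, Sym2.eq_swap]
  · rintro rfl
    exact ⟨⟨v, rfl⟩, Sym2.mem_mk_left _ _⟩

/-- `X ↦ {s(v, X v)}` is a bijection onto the edge sets that cover every vertex once. -/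
theorem numPerfectMatchings_eq {n : ℕ} (G : SimpleGraph (Fin n)) [DecidableRel G.Adj] :
    Crest.Matchings.numPerfectMatchings G = cnt G.Adj := by
  classical
  rw [cnt, Nat.card_eq_fintype_card, Fintype.card_subtype, Crest.Matchings.numPerfectMatchings]
  symm
  refine Finset.card_bij (fun X _ => univ.image fun u => s(u, X.f u)) (fun X hX => ?_)
    (fun X _ Y _ e => ?_) fun M hM => ?_
  · have hX' := (Finset.mem_filter.1 hX).2
    refine Finset.mem_filter.2 ⟨Finset.mem_powerset.2 fun e he => ?_, fun v => ?_⟩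
    · obtain ⟨u, -, rfl⟩ := Finset.mem_image.1 he
      simpa using hX' u
    · rw [cnt_filter_image, Finset.card_singleton]
  · refine PM.ext (funext fun v => ?_)
    have h1 := cnt_filter_image X v
    rw [e, cnt_filter_image, Finset.singleton_inj] at h1
    exact (Sym2.congr_right.1 h1).symm
  · obtain ⟨hM1, hM2⟩ := Finset.mem_filter.1 hM
    rw [Finset.mem_powerset] at hM1
    have h1 : ∀ v, ∃ u, (M.filter fun e => v ∈ e) = {s(v, u)} := by
      intro v
      obtain ⟨e, he⟩ := Finset.card_eq_one.1 (hM2 v)
      have h2 : e ∈ M.filter fun e => v ∈ e := by rw [he]; exact Finset.mem_singleton_self e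
      obtain ⟨u, rfl⟩ := Sym2.mem_iff_exists.1 (Finset.mem_filter.1 h2).2
      exact ⟨u, he⟩
    choose f hf using h1
    have h2 : ∀ v, s(v, f v) ∈ M := fun v =>
      (Finset.mem_filter.1 (by rw [hf v]; exact Finset.mem_singleton_self _ :
        s(v, f v) ∈ M.filter fun e => v ∈ e)).1
    have h3 : ∀ v, ∀ e ∈ M, v ∈ e → e = s(v, f v) := fun v e he hv =>
      Finset.mem_singleton.1 (by rw [← hf v]; exact Finset.mem_filter.2 ⟨he, hv⟩)
    have h4 : ∀ v, G.Adj v (f v) := fun v => by simpa using hM1 (h2 v)
    refine ⟨⟨f, fun v => ?_, fun v => (h4 v).ne'⟩,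
      Finset.mem_filter.2 ⟨Finset.mem_univ _, h4⟩, ?_⟩
    · have h5 := h3 (f v) _ (h2 v) (Sym2.mem_mk_right _ _)
      rw [Sym2.eq_swap] at h5
      exact (Sym2.congr_right.1 h5).symm
    · ext e
      simp only [Finset.mem_image, Finset.mem_univ, true_and]
      constructor
      · rintro ⟨u, rfl⟩; exact h2 u
      · intro he
        induction e using Sym2.ind with
        | _ x y => exact ⟨x, (h3 x _ he (Sym2.mem_mk_left _ _)).symm⟩

end Crest.Agent.R304
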