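import Crest.Agent.R304.Flip

/-!
# R304/Dec: decoupling (TASK)
-/

set_option autoImplicit false

namespace Crest.Agent.R304

open Finset Crest.Agent.R309

variable {V : Type} [Fintype V] [DecidableEq V] [Inhabited V] {s ρ : V → V → ℝ} {β : ℝ}
  {φ : PM V → ℝ}

omit [Inhabited V] in
theorem dec_sw_nonneg (hs : Wt s) (a b : V) (X : PM V) :
    0 ≤ min 1 (pr s (sw a b X) / pr s X) * (φ (sw a b X) - φ X) ^ 2 :=
  mul_nonneg (le_min zero_le_one (div_pos (hs.pr_pos _) (hs.pr_pos _)).le) (sq_nonneg _)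

omit [Inhabited V] in
theorem dec_min (hs : Wt s) (X Y : PM V) :
    pr s X * min 1 (pr s Y / pr s X) = min (pr s X) (pr s Y) := by
  rw [mul_min_of_nonneg _ _ (hs.pr_pos X).le, mul_one, mul_div_cancel₀ _ (hs.pr_pos X).ne']

theorem dec_fst_nonneg (z : PM V × PM V) :
    0 ≤ ∑ l : NL V, ∑ m : Option V, ind (Odd l.1.length ∧ QS ρ l.1 m z.1 ∧ PS ρ l.1 m z.2) *
      ((φ (toP l.1 z.1) - φ z.1 - Gam (pr s) ρ φ l.1 m) ^ 2 +
        (φ z.2 - φ (toQ l.1 z.2) - Gam (pr s) ρ φ l.1 m) ^ 2) :=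
  sum_nonneg fun _ _ => sum_nonneg fun _ _ => mul_nonneg (ind_nonneg _) (by positivity)

omit [Inhabited V] in
theorem dec_snd_nonneg (hs : Wt s) (z : PM V × PM V) :
    0 ≤ ∑ a, ∑ b, min 1 (pr s (sw a b z.1) / pr s z.1) * (φ (sw a b z.1) - φ z.1) ^ 2 :=
  sum_nonneg fun a _ => sum_nonneg fun b _ => dec_sw_nonneg hs a b z.1

theorem dec_term (hs : Wt s) {l : List V} {m : Option V} {z : PM V × PM V} (hn : l.Nodup)
    (ho : Odd l.length) (h1 : QS ρ l m z.1) (h2 : PS ρ l m z.2) :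
    (φ (toP l z.1) - φ z.1 - Gam (pr s) ρ φ l m) ^ 2 +
      (φ z.2 - φ (toQ l z.2) - Gam (pr s) ρ φ l m) ^ 2 ≤ err (pr s) ρ φ z := by
  refine le_add_of_le_of_nonneg (le_trans ?_ (single_le_sum
    (f := fun l : NL V => ∑ m : Option V, ind (Odd l.1.length ∧ QS ρ l.1 m z.1 ∧ PS ρ l.1 m z.2) *
      ((φ (toP l.1 z.1) - φ z.1 - Gam (pr s) ρ φ l.1 m) ^ 2 +
        (φ z.2 - φ (toQ l.1 z.2) - Gam (pr s) ρ φ l.1 m) ^ 2))
    (fun _ _ => sum_nonneg fun _ _ => mul_nonneg (ind_nonneg _) (by positivity))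
    (mem_univ ⟨l, hn⟩))) (dec_snd_nonneg hs z)
  refine le_trans (le_of_eq ?_) (single_le_sum
    (f := fun m : Option V => ind (Odd l.length ∧ QS ρ l m z.1 ∧ PS ρ l m z.2) *
      ((φ (toP l z.1) - φ z.1 - Gam (pr s) ρ φ l m) ^ 2 +
        (φ z.2 - φ (toQ l z.2) - Gam (pr s) ρ φ l m) ^ 2))
    (fun _ _ => mul_nonneg (ind_nonneg _) (by positivity)) (mem_univ m))
  rw [ind_pos ⟨ho, h1, h2⟩, one_mul]

theorem err_nonneg (hs : Wt s) (z : PM V × PM V) : 0 ≤ err (pr s) ρ φ z := by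
  exact add_nonneg (dec_fst_nonneg z) (dec_snd_nonneg hs z)

theorem err_Q (hs : Wt s) {l : List V} {m : Option V} {z : PM V × PM V} (hn : l.Nodup)
    (ho : Odd l.length) (h1 : QS ρ l m z.1) (h2 : PS ρ l m z.2) :
    (φ (toP l z.1) - φ z.1 - Gam (pr s) ρ φ l m) ^ 2 ≤ err (pr s) ρ φ z := by
  have := dec_term (φ := φ) hs hn ho h1 h2
  nlinarith [sq_nonneg (φ z.2 - φ (toQ l z.2) - Gam (pr s) ρ φ l m)]

theorem err_P (hs : Wt s) {l : List V} {m : Option V} {z : PM V × PM V} (hn : l.Nodup)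
    (ho : Odd l.length) (h1 : QS ρ l m z.1) (h2 : PS ρ l m z.2) :
    (φ z.2 - φ (toQ l z.2) - Gam (pr s) ρ φ l m) ^ 2 ≤ err (pr s) ρ φ z := by
  have := dec_term (φ := φ) hs hn ho h1 h2
  nlinarith [sq_nonneg (φ (toP l z.1) - φ z.1 - Gam (pr s) ρ φ l m)]

/-- a switch of the first matching, charged to the pair before the switch -/
theorem err_sw (hs : Wt s) (a b : V) (z : PM V × PM V) {c : ℝ} (h1 : c ≤ pr s z.1 * pr s z.2)
    (h2 : c ≤ pr s (sw a b z.1) * pr s z.2) :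
    c * (φ (sw a b z.1) - φ z.1) ^ 2 ≤ pr s z.1 * pr s z.2 * err (pr s) ρ φ z := by
  have p1 := hs.pr_pos z.1
  have p2 := hs.pr_pos z.2
  have h3 : min 1 (pr s (sw a b z.1) / pr s z.1) * (φ (sw a b z.1) - φ z.1) ^ 2 ≤
      err (pr s) ρ φ z := by
    refine le_add_of_nonneg_of_le (dec_fst_nonneg z) (le_trans ?_ (single_le_sum
      (f := fun a => ∑ b, min 1 (pr s (sw a b z.1) / pr s z.1) * (φ (sw a b z.1) - φ z.1) ^ 2)
      (fun a _ => sum_nonneg fun b _ => dec_sw_nonneg hs a b z.1) (mem_univ a)))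
    exact single_le_sum
      (f := fun b => min 1 (pr s (sw a b z.1) / pr s z.1) * (φ (sw a b z.1) - φ z.1) ^ 2)
      (fun b _ => dec_sw_nonneg hs a b z.1) (mem_univ b)
  refine le_trans ?_ (mul_le_mul_of_nonneg_left h3 (mul_pos p1 p2).le)
  rw [← mul_assoc, mul_right_comm (pr s z.1), dec_min hs, min_mul_of_nonneg _ _ p2.le]
  exact mul_le_mul_of_nonneg_right (le_min h1 h2) (sq_nonneg _)

omit [Fintype V] [DecidableEq V] [Inhabited V] in
theorem dec_sq_le (h : Ult s ρ β) {a b p : V} (ha : a ≠ p) (hb : b ≠ p) (hρ : ρ b p ≤ ρ a p) :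
    s a p ^ 2 ≤ β * s b p ^ 2 := by
  refine le_of_mul_le_mul_right ((h.lo a p ha).trans ((h.hi b p hb).trans ?_)) (h.rpos a p ha)
  rw [mul_assoc]
  exact mul_le_mul_of_nonneg_left (mul_le_mul_of_nonneg_left hρ (sq_nonneg _))
    (zero_le_one.trans h.one_le)

/-- An admissible exchange loses at most `β ^ 2` (`pr_exch`).  Mode `some p`: equality.  Mode `none`, with `a, b, p, q` as in `pr_exch`:
`ρ b p ≤ ρ a p` and `ρ a q ≤ ρ b q` by the ultrametric inequality; `p, q ∉ l`. -/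
theorem exch_le (h : Ult s ρ β) {l : List V} {m : Option V} {W U : PM V} (hn : l.Nodup)
    (ho : Odd l.length) (h1 : QS ρ l m W) (h2 : PS ρ l m U) :
    pr s W * pr s U ≤ β ^ 2 * (pr s (toP l W) * pr s (toQ l U)) := by
  have hs := h.toWt
  have key := pr_exch hs hn ho h2.1 h1.1
  have hne : l ≠ [] := by
    rintro rfl
    simp at ho
  have hP : 0 < pr s (toP l W) * pr s (toQ l U) := mul_pos (hs.pr_pos _) (hs.pr_pos _)
  have hpos : 0 < s (lst l) (W.f (hd l)) ^ 2 * s (hd l) (U.f (lst l)) ^ 2 :=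
    mul_pos (pow_pos (hs.pos _ _) _) (pow_pos (hs.pos _ _) _)
  have hβ := h.one_le
  have h3 : s (hd l) (W.f (hd l)) ^ 2 * s (lst l) (U.f (lst l)) ^ 2 ≤
      β ^ 2 * (s (lst l) (W.f (hd l)) ^ 2 * s (hd l) (U.f (lst l)) ^ 2) := by
    cases m with
    | some r =>
      have e1 : W.f (hd l) = r := h1.2
      have e2 : U.f (lst l) = r := h2.2
      rw [e1, e2] at hpos ⊢
      rw [mul_comm]
      exact le_mul_of_one_le_left hpos.le (one_le_pow₀ hβ)
    | none =>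
      have e1 : ρ (hd l) (lst l) ≤ ρ (hd l) (W.f (hd l)) := h1.2
      have e2 : ρ (hd l) (lst l) ≤ ρ (lst l) (U.f (lst l)) := h2.2
      have a1 := dec_sq_le h (W.ne _).symm
        (fun e : lst l = W.f (hd l) => qin_hd_notMem hn h1.1 ho (e ▸ lst_mem hne))
        ((h.ultra _ (hd l) _).trans (max_le (h.rsymm _ _ ▸ e1) le_rfl))
      have a2 := dec_sq_le h (U.ne _).symm
        (fun e : hd l = U.f (lst l) => pin_lst_notMem hn h2.1 ho (e ▸ hd_mem hne))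
        ((h.ultra _ (lst l) _).trans (max_le e2 le_rfl))
      refine (mul_le_mul a1 a2 (sq_nonneg _) (mul_nonneg (by linarith) (sq_nonneg _))).trans
        (le_of_eq (by ring))
  refine le_of_mul_le_mul_right ?_ hpos
  rw [← key]
  refine (mul_le_mul_of_nonneg_left h3 hP.le).trans (le_of_eq (by ring))

theorem dec_var {X Y : Type} [Fintype X] [Fintype Y] (a d : X → ℝ) (b d' : Y → ℝ)
    (ha : ∀ x, 0 ≤ a x) :
    ∑ z : X × Y, a z.1 * b z.2 * ((d z.1 - (∑ x, a x * d x) / ∑ x, a x) ^ 2 +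
      (d' z.2 - (∑ x, a x * d x) / ∑ x, a x) ^ 2) = ∑ z : X × Y, a z.1 * b z.2 * (d z.1 - d' z.2) ^ 2 := by
  have h0 : ∑ x, a x * (d x - (∑ x, a x * d x) / ∑ x, a x) = 0 := by
    by_cases h : ∑ x, a x = 0
    · exact sum_eq_zero fun x _ => by
        rw [(sum_eq_zero_iff_of_nonneg fun x _ => ha x).1 h x (mem_univ x), zero_mul]
    · simp only [mul_sub, sum_sub_distrib, ← sum_mul]
      rw [mul_div_cancel₀ _ h, sub_self]
  generalize (∑ x, a x * d x) / ∑ x, a x = Γ at h0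
  have h1 : ∑ z : X × Y, 2 * ((a z.1 * (d z.1 - Γ)) * (b z.2 * (d' z.2 - Γ))) = 0 := by
    rw [← mul_sum, Fintype.sum_prod_type]
    dsimp only
    rw [← sum_mul_sum, h0, zero_mul, mul_zero]
  rw [← sub_zero (∑ z : X × Y, _), ← h1, ← sum_sub_distrib]
  exact sum_congr rfl fun z _ => by ring

theorem dec_mode (hs : Wt s) (φ : PM V → ℝ) (l : List V) (m : Option V) :
    ∑ z : PM V × PM V, pr s z.1 * pr s z.2 * (ind (Odd l.length ∧ QS ρ l m z.1 ∧ PS ρ l m z.2) *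
      ((φ (toP l z.1) - φ z.1 - Gam (pr s) ρ φ l m) ^ 2 +
        (φ z.2 - φ (toQ l z.2) - Gam (pr s) ρ φ l m) ^ 2)) =
    ∑ z : PM V × PM V, ind (Odd l.length ∧ QS ρ l m z.1 ∧ PS ρ l m z.2) * (pr s z.1 * pr s z.2 *
      (φ (toP l z.1) + φ (toQ l z.2) - φ z.1 - φ z.2) ^ 2) := by
  have h := dec_var (fun W => ind (QS ρ l m W) * pr s W) (fun W => φ (toP l W) - φ W)
    (fun U => ind (Odd l.length) * ind (PS ρ l m U) * pr s U) (fun U => φ U - φ (toQ l U))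
    fun W => mul_nonneg (ind_nonneg _) (hs.pr_pos W).le
  simp only [mul_assoc (ind (QS ρ l m _))] at h
  refine Eq.trans (sum_congr rfl fun z _ => ?_) (h.trans (sum_congr rfl fun z _ => ?_))
  · rw [ind_and, ind_and, Gam]
    ring
  · rw [ind_and, ind_and]
    ring

theorem dec_two (h : Ult s ρ β) {l : List V} (hn : l.Nodup) (W U : PM V) (D : ℝ) :
    ∑ m : Option V, ind (Odd l.length ∧ QS ρ l m W ∧ PS ρ l m U) * (pr s W * pr s U * D ^ 2) ≤
      2 * β ^ 2 * (ind (Odd l.length ∧ Pin U l ∧ Qin W l) *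
        (min (pr s W * pr s U) (pr s (toP l W) * pr s (toQ l U)) * D ^ 2)) := by
  have hs := h.toWt
  have hβ : 1 ≤ β ^ 2 := one_le_pow₀ h.one_le
  have hp : 0 < pr s W * pr s U := mul_pos (hs.pr_pos _) (hs.pr_pos _)
  have hp' : 0 < pr s (toP l W) * pr s (toQ l U) := mul_pos (hs.pr_pos _) (hs.pr_pos _)
  set T := β ^ 2 * (ind (Odd l.length ∧ Pin U l ∧ Qin W l) *
    (min (pr s W * pr s U) (pr s (toP l W) * pr s (toQ l U)) * D ^ 2)) with hT
  have hT0 : 0 ≤ T := mul_nonneg (sq_nonneg _) (mul_nonneg (ind_nonneg _)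
    (mul_nonneg (le_min hp.le hp'.le) (sq_nonneg _)))
  have h1 : ∀ m, ind (Odd l.length ∧ QS ρ l m W ∧ PS ρ l m U) * (pr s W * pr s U * D ^ 2) ≤ T := by
    intro m
    by_cases hm : Odd l.length ∧ QS ρ l m W ∧ PS ρ l m U
    · rw [ind_pos hm, hT, ind_pos ⟨hm.1, hm.2.2.1, hm.2.1.1⟩, one_mul, one_mul, ← mul_assoc,
        mul_min_of_nonneg _ _ (sq_nonneg β)]
      exact mul_le_mul_of_nonneg_right (le_min (le_mul_of_one_le_left hp.le hβ)
        (exch_le h hn hm.1 hm.2.1 hm.2.2)) (sq_nonneg _)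
    · rw [ind_neg hm, zero_mul]
      exact hT0
  rw [Fintype.sum_option, sum_eq_single (W.f (hd l)) (fun v _ hv => ?_) (by simp), mul_assoc 2, ← hT,
    two_mul]
  · exact add_le_add (h1 _) (h1 _)
  · rw [ind_neg fun hm => hv (Eq.symm hm.2.1.2), zero_mul]

/-- Fix `l, m`; let `A = {QS}`, `B = {PS}`, `d W = φ (toP l W) - φ W`, `d' U = φ U - φ (toQ l U)`, `Γ` the `p`-mean of `d` on `A`.  For each number `y`,
`∑_A p (d - y)² = ∑_A p (d - Γ)² + p(A) (Γ - y)²`; with `y = d' U`, the sum over `A × B` of `p p ((d - Γ)² + (d' - Γ)²)` EQUALS that of `p p (d - d')²`.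
A pair `(W, U)` is admissible for `l` in at most two modes (`none` and `some (W (hd l))`), and `p W p U ≤ β² min (..)` by `exch_le`.  The switch part of the sum is `Dsw`. -/
theorem sum_err_le (h : Ult s ρ β) (φ : PM V → ℝ) :
    ∑ z : PM V × PM V, pr s z.1 * pr s z.2 * err (pr s) ρ φ z ≤
      2 * β ^ 2 * (Dsw (pr s) φ + Dex (pr s) φ) := by
  have hs := h.toWt
  have hβ : 1 ≤ β ^ 2 := one_le_pow₀ h.one_le
  have hD : 0 ≤ Dsw (pr s) φ := sum_nonneg fun X _ => sum_nonneg fun a _ => sum_nonneg fun b _ =>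
    mul_nonneg (le_min (hs.pr_pos _).le (hs.pr_pos _).le) (sq_nonneg _)
  have h1 : ∑ z : PM V × PM V, pr s z.1 * pr s z.2 *
      ∑ a, ∑ b, min 1 (pr s (sw a b z.1) / pr s z.1) * (φ (sw a b z.1) - φ z.1) ^ 2 =
      Dsw (pr s) φ := by
    rw [Fintype.sum_prod_type, Dsw]
    refine sum_congr rfl fun X _ => ?_
    have : Nonempty (PM V) := ⟨X⟩
    dsimp only
    rw [← sum_mul, ← mul_sum, hs.sum_pr, mul_one]
    simp only [mul_sum, ← mul_assoc, dec_min hs]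
  have h2 : ∑ z : PM V × PM V, pr s z.1 * pr s z.2 *
      ∑ l : NL V, ∑ m : Option V, ind (Odd l.1.length ∧ QS ρ l.1 m z.1 ∧ PS ρ l.1 m z.2) *
        ((φ (toP l.1 z.1) - φ z.1 - Gam (pr s) ρ φ l.1 m) ^ 2 +
          (φ z.2 - φ (toQ l.1 z.2) - Gam (pr s) ρ φ l.1 m) ^ 2) =
      ∑ z : PM V × PM V, ∑ l : NL V, ∑ m : Option V,
        ind (Odd l.1.length ∧ QS ρ l.1 m z.1 ∧ PS ρ l.1 m z.2) * (pr s z.1 * pr s z.2 *
          (φ (toP l.1 z.1) + φ (toQ l.1 z.2) - φ z.1 - φ z.2) ^ 2) := by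
    simp only [mul_sum]
    rw [sum_comm, sum_comm (s := (univ : Finset (PM V × PM V)))]
    refine sum_congr rfl fun l _ => ?_
    rw [sum_comm, sum_comm (s := (univ : Finset (PM V × PM V)))]
    exact sum_congr rfl fun m _ => dec_mode hs φ l.1 m
  have h3 : ∑ z : PM V × PM V, ∑ l : NL V, ∑ m : Option V,
        ind (Odd l.1.length ∧ QS ρ l.1 m z.1 ∧ PS ρ l.1 m z.2) * (pr s z.1 * pr s z.2 *
          (φ (toP l.1 z.1) + φ (toQ l.1 z.2) - φ z.1 - φ z.2) ^ 2) ≤ 2 * β ^ 2 * Dex (pr s) φ := by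
    rw [Fintype.sum_prod_type, Dex]
    simp only [mul_sum]
    exact sum_le_sum fun X _ => sum_le_sum fun Y _ => sum_le_sum fun l _ => dec_two h l.2 X Y _
  rw [sum_congr rfl fun z _ => by rw [err, mul_add], sum_add_distrib, h1, h2]
  nlinarith

end Crest.Agent.R304
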