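import Crest.Agent.R309.Tape

/-!
# R304/Defs: perfect matchings of the complete graph, arcs, Dirichlet forms (definitions, no task)

Overview of the proof of `S0464` (FPRAS for perfect matchings).  Matchings are fixed-point-free involutions (`PM V`), with weight `wt s X = ∏ v, s v (X v)`
(so an edge `uv` weighs `s u v ^ 2`) and law `pr s`.
* `Four`, `Ultra`: if all edge marginals are at least `1 / κ`, then `s u v ^ 2 ≈ α u α v / ρ u v` for an ultrametric `ρ`.
* `Dec`, `Case*`, `Rec`, `Agg`, `Top`: `Var φ ≤ poly (Dsw φ + Dex φ)`: switches in one matching, and the additivity defect of `φ` under the exchange of an odd alternating arc between two independent matchings.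
* `PairK`, `Pop*`: a population of `K` matchings with pair moves mixes quickly from a warm product start.
* `Ann*`, `Alg`, `Stage`, ...: annealing of the weights and the program.
-/

set_option autoImplicit false

namespace Crest.Agent.R304

open Finset Crest.Agent.R309

/-- perfect matchings of the complete graph on `V` -/
@[ext] structure PM (V : Type) where
  /-- the partner -/
  f : V → V
  inv : ∀ v, f (f v) = v
  ne : ∀ v, f v ≠ v

section basic

variable {V : Type}

noncomputable instance [Fintype V] [DecidableEq V] : Fintype (PM V) :=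
  Fintype.ofInjective PM.f fun _ _ h => PM.ext h

noncomputable instance : DecidableEq (PM V) := Classical.decEq _

/-- relabelling -/
instance : MulAction (Equiv.Perm V) (PM V) where
  smul σ X := ⟨fun v => σ (X.f (σ⁻¹ v)), fun v => by simp [X.inv], fun v h => by
    have h1 : X.f (σ⁻¹ v) = σ⁻¹ v := by
      have := congrArg (fun u => σ⁻¹ u) h
      simpa using this
    exact X.ne _ h1⟩
  one_smul _ := rfl
  mul_smul _ _ _ := rfl

theorem smul_f (σ : Equiv.Perm V) (X : PM V) (v : V) : (σ • X).f v = σ (X.f (σ⁻¹ v)) := rfl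

theorem PM.eq_iff (X : PM V) {u v : V} : X.f u = v ↔ X.f v = u :=
  ⟨fun h => by rw [← h, X.inv], fun h => by rw [← h, X.inv]⟩

theorem PM.inj (X : PM V) {u v : V} (h : X.f u = X.f v) : u = v := by
  rw [← X.inv u, h, X.inv]

/-- `W` matches `l[i]` with `l[i+1]` for all `i` of parity `c` -/
def Par (W : PM V) (c : ℕ) (l : List V) : Prop :=
  ∀ i a b, i % 2 = c → l[i]? = some a → l[i + 1]? = some b → W.f a = b

/-- `W` contains `l₀l₁, l₂l₃, …` -/
abbrev Pin (W : PM V) (l : List V) : Prop := Par W 0 l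

/-- `W` contains `l₁l₂, l₃l₄, …` -/
abbrev Qin (W : PM V) (l : List V) : Prop := Par W 1 l

/-- `l` alternates in the pair `z`, in one of the two ways -/
def AltE (z : PM V × PM V) (l : List V) : Prop :=
  (Pin z.1 l ∧ Qin z.2 l) ∨ (Pin z.2 l ∧ Qin z.1 l)

/-- first vertex -/
def hd [Inhabited V] (l : List V) : V := l.head?.getD default

/-- last vertex -/
def lst [Inhabited V] (l : List V) : V := l.getLast?.getD default

/-- the alternating walk with `L` edges from `a`, starting with an edge of `U` -/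
def walk (U W : PM V) (a : V) (L : ℕ) : List V :=
  (List.range (L + 1)).map fun i =>
    ((fun s : V × Bool => ((if s.2 = true then U else W).f s.1, !s.2))^[i] (a, true)).1

/-- lists without repetition (a `Fintype`) -/
abbrev NL (V : Type) : Type := {l : List V // l.Nodup}

variable [DecidableEq V]

/-- For `l` of odd length: from `l₁l₂, l₃l₄, …` (exit at the first vertex) to `l₀l₁, l₂l₃, …` (exit at the last vertex). -/
def toP (l : List V) (W : PM V) : PM V := l.formPerm⁻¹ • W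

/-- the inverse of `toP` -/
def toQ (l : List V) (U : PM V) : PM V := l.formPerm • U

theorem toP_toQ (l : List V) (U : PM V) : toP l (toQ l U) = U := inv_smul_smul _ _

theorem toQ_toP (l : List V) (W : PM V) : toQ l (toP l W) = W := smul_inv_smul _ _

/-- a switch -/
def sw (a b : V) (X : PM V) : PM V := Equiv.swap a b • X

theorem sw_sw (a b : V) (X : PM V) : sw a b (sw a b X) = X := by
  unfold sw
  rw [smul_smul, Equiv.swap_mul_self, one_smul]

end basic

section meas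

variable {V : Type} [Fintype V] [DecidableEq V]

/-- the weight of a matching -/
def wt (s : V → V → ℝ) (X : PM V) : ℝ := ∏ v, s v (X.f v)

/-- the partition function -/
noncomputable def Zs (s : V → V → ℝ) : ℝ := ∑ X : PM V, wt s X

/-- the law -/
noncomputable def pr (s : V → V → ℝ) (X : PM V) : ℝ := wt s X / Zs s

/-- edge marginals -/
noncomputable def xm (p : PM V → ℝ) (u v : V) : ℝ := ∑ X, p X * ind (X.f u = v)

/-- symmetric positive weights -/
structure Wt (s : V → V → ℝ) : Prop where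
  symm : ∀ u v, s u v = s v u
  pos : ∀ u v, 0 < s u v

theorem Wt.wt_pos {s : V → V → ℝ} (h : Wt s) (X : PM V) : 0 < wt s X :=
  prod_pos fun _ _ => h.pos _ _

theorem Wt.Zs_pos {s : V → V → ℝ} (h : Wt s) [Nonempty (PM V)] : 0 < Zs s :=
  sum_pos (fun X _ => h.wt_pos X) univ_nonempty

theorem Wt.pr_pos {s : V → V → ℝ} (h : Wt s) (X : PM V) : 0 < pr s X :=
  haveI : Nonempty (PM V) := ⟨X⟩
  div_pos (h.wt_pos X) h.Zs_pos

theorem Wt.sum_pr {s : V → V → ℝ} (h : Wt s) [Nonempty (PM V)] : ∑ X, pr s X = 1 := by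
  unfold pr
  rw [← sum_div]
  exact div_self h.Zs_pos.ne'

/-- the edge weights are, up to a factor `β`, inverse to an ultrametric -/
structure Ult (s ρ : V → V → ℝ) (β : ℝ) : Prop extends Wt s where
  one_le : 1 ≤ β
  rsymm : ∀ u v, ρ u v = ρ v u
  rself : ∀ u, ρ u u = 0
  rpos : ∀ u v, u ≠ v → 0 < ρ u v
  ultra : ∀ u v w, ρ u w ≤ max (ρ u v) (ρ v w)
  lo : ∀ u v, u ≠ v → s u v ^ 2 * ρ u v ≤ 1
  hi : ∀ u v, u ≠ v → 1 ≤ β * (s u v ^ 2 * ρ u v)

/-- Dirichlet form of the switches -/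
noncomputable def Dsw (p φ : PM V → ℝ) : ℝ :=
  ∑ X, ∑ a, ∑ b, min (p X) (p (sw a b X)) * (φ (sw a b X) - φ X) ^ 2

/-- additivity defect under the exchange of odd arcs -/
noncomputable def Dex (p φ : PM V → ℝ) : ℝ :=
  ∑ X, ∑ Y, ∑ l : NL V, ind (Odd l.1.length ∧ Pin Y l.1 ∧ Qin X l.1) *
    (min (p X * p Y) (p (toP l.1 X) * p (toQ l.1 Y)) *
      (φ (toP l.1 X) + φ (toQ l.1 Y) - φ X - φ Y) ^ 2)

variable [Inhabited V]

/-- admissible states with exit at the first vertex: the outside partner is `p` (mode `some p`) or far (mode `none`) -/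
def QS (ρ : V → V → ℝ) (l : List V) (m : Option V) (W : PM V) : Prop :=
  Qin W l ∧ m.elim (ρ (hd l) (lst l) ≤ ρ (hd l) (W.f (hd l))) fun p => W.f (hd l) = p

/-- admissible states with exit at the last vertex -/
def PS (ρ : V → V → ℝ) (l : List V) (m : Option V) (U : PM V) : Prop :=
  Pin U l ∧ m.elim (ρ (hd l) (lst l) ≤ ρ (lst l) (U.f (lst l))) fun p => U.f (lst l) = p

/-- the mean increment of `φ` under `toP l` -/
noncomputable def Gam (p : PM V → ℝ) (ρ : V → V → ℝ) (φ : PM V → ℝ) (l : List V) (m : Option V) : ℝ :=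
  (∑ W, ind (QS ρ l m W) * (p W * (φ (toP l W) - φ W))) / ∑ W, ind (QS ρ l m W) * p W

/-- the local error at a pair -/
noncomputable def err (p : PM V → ℝ) (ρ : V → V → ℝ) (φ : PM V → ℝ) (z : PM V × PM V) : ℝ :=
  (∑ l : NL V, ∑ m : Option V, ind (Odd l.1.length ∧ QS ρ l.1 m z.1 ∧ PS ρ l.1 m z.2) *
    ((φ (toP l.1 z.1) - φ z.1 - Gam p ρ φ l.1 m) ^ 2 +
      (φ z.2 - φ (toQ l.1 z.2) - Gam p ρ φ l.1 m) ^ 2)) +
  ∑ a, ∑ b, min 1 (p (sw a b z.1) / p z.1) * (φ (sw a b z.1) - φ z.1) ^ 2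

/-- the value of an arc; an even arc is closed up to a cycle -/
noncomputable def val (p : PM V → ℝ) (ρ : V → V → ℝ) (φ : PM V → ℝ) (l : List V) : ℝ :=
  if Odd l.length then Gam p ρ φ l none else Gam p ρ φ l.dropLast (some (lst l))

/-- an alternating arc whose two outside edges are at least as long as its diameter -/
structure Good (ρ : V → V → ℝ) (U W : PM V) (l : List V) : Prop where
  nd : l.Nodup
  ne : l ≠ []
  pin : Pin U l
  qin : Qin W l
  left : ∀ u ∈ l, ∀ v ∈ l, ρ u v ≤ ρ (hd l) (W.f (hd l))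
  right : ∀ u ∈ l, ∀ v ∈ l, ρ u v ≤ ρ (lst l) ((if Odd l.length then U else W).f (lst l))

/-- a good arc cut at its first longest edge -/
structure Split (ρ : V → V → ℝ) (U W : PM V) (l₁ l₂ : List V) : Prop where
  good : Good ρ U W (l₁ ++ l₂)
  ne₁ : l₁ ≠ []
  ne₂ : l₂ ≠ []
  lt : ∀ u ∈ l₁, ∀ v ∈ l₁, ρ u v < ρ (lst l₁) (hd l₂)
  le : ∀ u ∈ l₁ ++ l₂, ∀ v ∈ l₁ ++ l₂, ρ u v ≤ ρ (lst l₁) (hd l₂)

/-- the defect of additivity of `val` -/
noncomputable def eps (p : PM V → ℝ) (ρ : V → V → ℝ) (φ : PM V → ℝ) (l₁ l₂ : List V) : ℝ :=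
  val p ρ φ (l₁ ++ l₂) - val p ρ φ l₁ - (-1) ^ l₁.length * val p ρ φ l₂

/-- the sum of the squared defects of all splits in a pair -/
noncomputable def Esp (p : PM V → ℝ) (ρ : V → V → ℝ) (φ : PM V → ℝ) (U W : PM V) : ℝ :=
  ∑ l₁ : NL V, ∑ l₂ : NL V, ind (Split ρ U W l₁.1 l₂.1) * eps p ρ φ l₁.1 l₂.1 ^ 2

/-- the eight pairs at which errors are charged; `z = (W, U)`, `c = W.f (hd l₁)` -/
def Tr (l₁ l₂ : List V) (c : V) (j : Fin 8) (z : PM V × PM V) : PM V × PM V :=
  ![z, (toP l₂ z.1, toQ l₂ z.2), (sw (hd l₁) (lst l₂) (toP l₂ z.1), toQ l₂ z.2),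
    (toQ l₁ z.2, toP l₁ z.1), (sw (hd l₁) (lst l₂) (toQ l₁ z.2), toP l₁ z.1),
    (sw c (lst l₂) z.1, z.2), (sw (lst l₁) (lst l₂) (sw c (lst l₂) z.1), z.2),
    (toP l₁.dropLast (sw (lst l₁) (lst l₂) (sw c (lst l₂) z.1)), toQ l₁.dropLast z.2)] j

/-- the defect of a split is controlled by the errors at some of the eight pairs -/
def Ctl (p : PM V → ℝ) (ρ : V → V → ℝ) (β : ℝ) (φ : PM V → ℝ) (U W : PM V) (l₁ l₂ : List V) : Prop :=
  ∃ J : Finset (Fin 8), (∀ j ∈ J, AltE (Tr l₁ l₂ (W.f (hd l₁)) j (W, U)) l₁ ∧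
      AltE (Tr l₁ l₂ (W.f (hd l₁)) j (W, U)) l₂) ∧
    p U * p W * eps p ρ φ l₁ l₂ ^ 2 ≤ 16 * β ^ 3 * ∑ j ∈ J,
      p (Tr l₁ l₂ (W.f (hd l₁)) j (W, U)).1 * p (Tr l₁ l₂ (W.f (hd l₁)) j (W, U)).2 *
        err p ρ φ (Tr l₁ l₂ (W.f (hd l₁)) j (W, U))

end meas

section pop

variable {Ω : Type} [Fintype Ω]

/-- a reversible kernel on pairs that contracts sums of functions of one coordinate -/
structure PairK (p : Ω → ℝ) (P : Ω × Ω → Ω × Ω → ℝ) (γ : ℝ) : Prop where
  nonneg : ∀ z z', 0 ≤ P z z'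
  row : ∀ z, ∑ z', P z z' = 1
  rev : ∀ z z', p z.1 * p z.2 * P z z' = p z'.1 * p z'.2 * P z' z
  gap : ∀ φ ψ : Ω → ℝ, ∑ x, p x * φ x = 0 → ∑ x, p x * ψ x = 0 →
    ∑ z : Ω × Ω, p z.1 * p z.2 * (∑ z', P z z' * (φ z'.1 + ψ z'.2)) ^ 2 ≤
      (1 - γ) * (∑ x, p x * φ x ^ 2 + ∑ x, p x * ψ x ^ 2)

/-- change two coordinates -/
def upd2 {K : ℕ} (x : Fin K → Ω) (a b : Fin K) (z : Ω × Ω) : Fin K → Ω :=
  Function.update (Function.update x a z.1) b z.2

/-- one step of the population chain: among `M` labels, `K (K - 1)` select an ordered pair, the others do nothing -/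
noncomputable def popOp {K : ℕ} (P : Ω × Ω → Ω × Ω → ℝ) (M : ℕ) (F : (Fin K → Ω) → ℝ)
    (x : Fin K → Ω) : ℝ :=
  ((∑ a, ∑ b, if a = b then 0 else ∑ z, P (x a, x b) z * F (upd2 x a b z)) +
    ((M : ℝ) - K * (K - 1)) * F x) / M

end pop

end Crest.Agent.R304
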