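import Crest.Agent.R304.Defs
import Crest.Agent.R309.Tape2

/-!
# R304/EL: expectations over lists of independent samples (TASK)

Copy the proofs of `Ex_*` and `cheb_chunks` in `R309/Tape`, `R309/Tape2`.
-/

set_option autoImplicit false

namespace Crest.Agent.R304

open Finset Crest.Agent.R309

variable {Ω : Type} [Fintype Ω]

/-- expectation over `K` independent samples of `ν` -/
noncomputable def EL (ν : Ω → ℝ) : ℕ → (List Ω → ℝ) → ℝ
  | 0, F => F []
  | K + 1, F => ∑ x, ν x * EL ν K fun l => F (x :: l)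

/-- probability vectors -/
structure Law (ν : Ω → ℝ) : Prop where
  nonneg : ∀ x, 0 ≤ ν x
  sum : ∑ x, ν x = 1

variable {ν : Ω → ℝ} {K : ℕ}

theorem EL_mono (h : Law ν) {F G : List Ω → ℝ} (hF : ∀ l, l.length = K → F l ≤ G l) :
    EL ν K F ≤ EL ν K G := by
  induction K generalizing F G with
  | zero => exact hF [] rfl
  | succ K ih =>
    exact sum_le_sum fun x _ => mul_le_mul_of_nonneg_left
      (ih fun l hl => hF _ (by simp [hl])) (h.nonneg x)

theorem EL_congr {F G : List Ω → ℝ} (hF : ∀ l, l.length = K → F l = G l) :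
    EL ν K F = EL ν K G := by
  induction K generalizing F G with
  | zero => exact hF [] rfl
  | succ K ih =>
    exact sum_congr rfl fun x _ => congrArg _ (ih fun l hl => hF _ (by simp [hl]))

theorem EL_const (h : Law ν) (K : ℕ) (c : ℝ) : EL ν K (fun _ => c) = c := by
  induction K with
  | zero => rfl
  | succ K ih => simp only [EL, ih, ← sum_mul, h.sum, one_mul]

theorem EL_add (K : ℕ) (F G : List Ω → ℝ) :
    EL ν K (fun l => F l + G l) = EL ν K F + EL ν K G := by
  induction K generalizing F G with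
  | zero => rfl
  | succ K ih => simp only [EL, ih, mul_add, sum_add_distrib]

theorem EL_sub (K : ℕ) (F G : List Ω → ℝ) :
    EL ν K (fun l => F l - G l) = EL ν K F - EL ν K G := by
  induction K generalizing F G with
  | zero => rfl
  | succ K ih => simp only [EL, ih, mul_sub, sum_sub_distrib]

theorem EL_mul_left (K : ℕ) (c : ℝ) (F : List Ω → ℝ) :
    EL ν K (fun l => c * F l) = c * EL ν K F := by
  induction K generalizing F with
  | zero => rfl
  | succ K ih => simp only [EL, ih, mul_sum, mul_left_comm c]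

theorem EL_sum {ι : Type} (K : ℕ) (s : Finset ι) (F : ι → List Ω → ℝ) :
    EL ν K (fun l => ∑ i ∈ s, F i l) = ∑ i ∈ s, EL ν K (F i) := by
  induction K generalizing F with
  | zero => rfl
  | succ K ih =>
    simp only [EL, ih, mul_sum]
    exact sum_comm

theorem EL_take_drop (b K : ℕ) (F : List Ω → List Ω → ℝ) :
    EL ν (b + K) (fun l => F (l.take b) (l.drop b)) = EL ν b fun B => EL ν K (F B) := by
  induction b generalizing F with
  | zero => simp [EL]
  | succ b ih =>
    rw [Nat.add_right_comm]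
    simp only [EL, List.take_succ_cons, List.drop_succ_cons]
    exact sum_congr rfl fun x _ => congrArg _ (ih fun B => F (x :: B))

theorem EL_eq_sum (K : ℕ) (F : List Ω → ℝ) :
    EL ν K F = ∑ x : Fin K → Ω, (∏ a, ν (x a)) * F (List.ofFn x) := by
  induction K generalizing F with
  | zero => simp [EL]
  | succ K ih =>
    rw [← (Fin.consEquiv fun _ : Fin (K + 1) => Ω).sum_comp, Fintype.sum_prod_type]
    simp only [EL, ih, mul_sum]
    refine sum_congr rfl fun x _ => sum_congr rfl fun y _ => ?_
    simp [Fin.consEquiv, Fin.prod_univ_succ, List.ofFn_succ, mul_assoc]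

theorem EL_centered (h : Law ν) (K : ℕ) (X : Ω → ℝ) :
    EL ν K (fun l => (l.map X).sum - K * ∑ x, ν x * X x) = 0 ∧
    EL ν K (fun l => ((l.map X).sum - K * ∑ x, ν x * X x) ^ 2) =
      K * ∑ x, ν x * (X x - ∑ y, ν y * X y) ^ 2 := by
  set m := ∑ x, ν x * X x with hm
  have h0 : ∑ x, ν x * (X x - m) = 0 := by
    simp only [mul_sub, sum_sub_distrib, ← sum_mul, h.sum, one_mul, ← hm, sub_self]
  induction K with
  | zero => simp [EL]
  | succ K ih =>
    constructor
    · have : ∀ x, EL ν K (fun l => ((x :: l).map X).sum - ((K + 1 : ℕ) : ℝ) * m) = X x - m := by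
        intro x
        rw [EL_congr (G := fun l => (X x - m) + ((l.map X).sum - K * m)) fun l _ => by
          simp only [List.map_cons, List.sum_cons]; push_cast; ring,
          EL_add, EL_const h, ih.1, add_zero]
      simp only [EL, this, h0]
    · have : ∀ x, EL ν K (fun l => (((x :: l).map X).sum - ((K + 1 : ℕ) : ℝ) * m) ^ 2) =
          (X x - m) ^ 2 + K * ∑ x, ν x * (X x - m) ^ 2 := by
        intro x
        rw [EL_congr (G := fun l => ((X x - m) ^ 2 + 2 * (X x - m) * ((l.map X).sum - K * m)) +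
            ((l.map X).sum - K * m) ^ 2) fun l _ => by
          simp only [List.map_cons, List.sum_cons]; push_cast; ring,
          EL_add, EL_add, EL_const h, EL_mul_left, ih.1, ih.2, mul_zero, add_zero]
      simp only [EL, this, mul_add, sum_add_distrib, ← sum_mul, h.sum]
      push_cast
      ring

/-- Chebyshev's inequality -/
theorem EL_cheb (h : Law ν) (K : ℕ) (X : Ω → ℝ) {R a : ℝ} (hX : ∀ x, |X x| ≤ R) (ha : 0 < a) :
    EL ν K (fun l => ind (a ≤ |(l.map X).sum - K * ∑ x, ν x * X x|)) ≤ K * R ^ 2 / a ^ 2 := by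
  set m := ∑ x, ν x * X x with hm
  have h1 : ∑ x, ν x * (X x - m) ^ 2 ≤ R ^ 2 := by
    have e : ∑ x, ν x * (X x - m) ^ 2 = ∑ x, ν x * X x ^ 2 - m ^ 2 := by
      have : ∀ x, ν x * (X x - m) ^ 2 = ν x * X x ^ 2 - 2 * m * (ν x * X x) + m ^ 2 * ν x :=
        fun x => by ring
      simp only [this, sum_add_distrib, sum_sub_distrib, ← mul_sum, h.sum, ← hm]
      ring
    have e2 : ∑ x, ν x * X x ^ 2 ≤ ∑ x, ν x * R ^ 2 := sum_le_sum fun x _ =>
      mul_le_mul_of_nonneg_left (sq_le_sq' (abs_le.1 (hX x)).1 (abs_le.1 (hX x)).2) (h.nonneg x)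
    rw [← sum_mul, h.sum, one_mul] at e2
    nlinarith [sq_nonneg m]
  have ha2 : 0 < a ^ 2 := by positivity
  calc _ ≤ EL ν K (fun l => (a ^ 2)⁻¹ * ((l.map X).sum - K * m) ^ 2) := by
        refine EL_mono h fun l _ => ?_
        by_cases hc : a ≤ |(l.map X).sum - K * m|
        · rw [ind_pos hc, ← div_eq_inv_mul, one_le_div ha2, ← sq_abs ((l.map X).sum - K * m)]
          exact pow_le_pow_left₀ ha.le hc 2
        · rw [ind_neg hc]
          positivity
    _ = (a ^ 2)⁻¹ * (K * ∑ x, ν x * (X x - m) ^ 2) := by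
        rw [EL_mul_left, (EL_centered h K X).2]
    _ ≤ K * R ^ 2 / a ^ 2 := by
        rw [div_eq_inv_mul]
        gcongr

theorem law_Pr (ρ : ℕ) (g : List Bool → Ω) : Law fun x => Pr ρ fun ω => g ω = x := by
  refine ⟨fun x => Pr_nonneg _ _, ?_⟩
  have := Ex_comp (n := ρ) (g := g) (s := univ) (fun _ _ => mem_univ _) fun _ => (1 : ℝ)
  simpa using this.symm

/-- samples read off the tape -/
theorem Ex_chunks (ρ K : ℕ) (g : List Bool → Ω) (F : List Ω → ℝ) :
    Ex (K * ρ) (fun l => F ((Crest.Agent.Lib.PT.chunks ρ K l).map g)) =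
      EL (fun x => Pr ρ fun ω => g ω = x) K F := by
  induction K generalizing F with
  | zero => simp [EL]
  | succ K ih =>
    simp only [chunks_succ, List.map_cons]
    rw [Ex_take_drop (k := ρ) (by nlinarith [Nat.zero_le (K * ρ)])
      fun ω l => F (g ω :: (Crest.Agent.Lib.PT.chunks ρ K l).map g),
      show (K + 1) * ρ - ρ = K * ρ by rw [Nat.succ_mul, Nat.add_sub_cancel]]
    have : ∀ ω, Ex (K * ρ) (fun l => F (g ω :: (Crest.Agent.Lib.PT.chunks ρ K l).map g)) =
        EL (fun x => Pr ρ fun ω => g ω = x) K fun l => F (g ω :: l) := fun ω =>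
      ih fun l => F (g ω :: l)
    simp only [this]
    exact Ex_comp (s := univ) (fun _ _ => mem_univ _)
      fun x => EL (fun x => Pr ρ fun ω => g ω = x) K fun l => F (x :: l)

end Crest.Agent.R304
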