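import Crest.Agent.R304.Zero
import Crest.Agent.R304.AlgPT2
import Crest.Prelude.Def_Randomized

/-!
# R304/Fin: the median trick and the input format
-/

set_option autoImplicit false

namespace Crest.Agent.R304

open Finset Crest.Agent.R309 Crest.Agent.Lib.PT

/-- A median of a list. -/
def med (L : List ℚ) : ℚ :=
  (L.find? fun z => decide (L.length ≤ 2 * L.countP fun y => decide (y ≤ z)) &&
    decide (L.length ≤ 2 * L.countP fun y => decide (z ≤ y))).getD 0

theorem med_pt {α : Type} [Enc α] {L : α → List ℚ} (hL : PT L) :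
    PT fun a => med (L a) := by
  unfold med; fun_prop

theorem exists_med {L : List ℚ} (hL : L ≠ []) :
    ∃ z ∈ L, L.length ≤ 2 * L.countP (fun y => decide (y ≤ z)) ∧
      L.length ≤ 2 * L.countP (fun y => decide (z ≤ y)) := by
  classical
  obtain ⟨m, hm, hmax⟩ := L.toFinset.exists_max_image id (by simpa using hL)
  obtain ⟨z, hz, hmin⟩ := (L.toFinset.filter fun z =>
    L.length ≤ 2 * L.countP (fun y => decide (y ≤ z))).exists_min_image id ⟨m, by
      refine mem_filter.2 ⟨hm, ?_⟩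
      rw [List.countP_eq_length.2 fun a ha => by simpa using hmax a (by simpa using ha)]
      omega⟩
  obtain ⟨hz1, hz2⟩ := mem_filter.1 hz
  refine ⟨z, by simpa using hz1, hz2, ?_⟩
  have e := List.length_eq_countP_add_countP (fun y => decide (z ≤ y)) (l := L)
  by_cases h0 : (L.toFinset.filter fun y => y < z).Nonempty
  · obtain ⟨w, hw, hwmax⟩ := (L.toFinset.filter fun y => y < z).exists_max_image id h0
    obtain ⟨hw1, hw2⟩ := mem_filter.1 hw
    have h1 : ¬ L.length ≤ 2 * L.countP (fun y => decide (y ≤ w)) := fun h =>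
      absurd (hmin w (mem_filter.2 ⟨hw1, h⟩)) (not_le.2 hw2)
    have h2 : L.countP (fun a => decide ¬ (decide (z ≤ a) = true)) ≤
        L.countP (fun y => decide (y ≤ w)) :=
      List.countP_mono_left fun a ha h => by
        simpa using hwmax a (mem_filter.2 ⟨by simpa using ha, by simpa using h⟩)
    omega
  · have h2 : L.countP (fun a => decide ¬ (decide (z ≤ a) = true)) = 0 :=
      List.countP_eq_zero.2 fun a ha h =>
        h0 ⟨a, mem_filter.2 ⟨by simpa using ha, by simpa using h⟩⟩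
    omega

theorem med_spec {L : List ℚ} (hL : L ≠ []) :
    L.length ≤ 2 * L.countP (fun y => decide (y ≤ med L)) ∧
      L.length ≤ 2 * L.countP (fun y => decide (med L ≤ y)) := by
  obtain ⟨z, hz, h1, h2⟩ := exists_med hL
  unfold med
  cases h : L.find? fun z => decide (L.length ≤ 2 * L.countP fun y => decide (y ≤ z)) &&
    decide (L.length ≤ 2 * L.countP fun y => decide (z ≤ y)) with
  | none => exact absurd (by simpa using ⟨h1, h2⟩) (List.find?_eq_none.1 h z hz)
  | some w => simpa using List.find?_some h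

theorem med_nonneg {L : List ℚ} (h : ∀ z ∈ L, 0 ≤ z) : 0 ≤ med L := by
  unfold med
  cases h' : L.find? fun z => decide (L.length ≤ 2 * L.countP fun y => decide (y ≤ z)) &&
    decide (L.length ≤ 2 * L.countP fun y => decide (z ≤ y)) with
  | none => exact le_rfl
  | some w => exact h w (List.mem_of_find?_eq_some h')

theorem med_good {L : List ℚ} (hL : L ≠ []) (c r : ℝ) (bad : ℚ → Bool)
    (hbad : ∀ z : ℚ, ¬ |(z : ℝ) - c| ≤ r → bad z = true) (h : ¬ L.length ≤ 2 * L.countP bad) :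
    |(med L : ℝ) - c| ≤ r := by
  obtain ⟨h1, h2⟩ := med_spec hL
  by_contra hc
  apply h
  rcases lt_abs.1 (not_le.1 hc) with h3 | h3
  · refine h2.trans (Nat.mul_le_mul_left 2 (List.countP_mono_left fun a _ ha => hbad a ?_))
    have : (med L : ℝ) ≤ a := by exact_mod_cast of_decide_eq_true ha
    exact not_le.2 (lt_abs.2 (Or.inl (by linarith)))
  · refine h1.trans (Nat.mul_le_mul_left 2 (List.countP_mono_left fun a _ ha => hbad a ?_))
    have : (a : ℝ) ≤ med L := by exact_mod_cast of_decide_eq_true ha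
    exact not_le.2 (lt_abs.2 (Or.inr (by linarith)))

theorem med_zero {L : List ℚ} (h : ∀ z ∈ L, z = 0) : med L = 0 := by
  unfold med
  cases h' : L.find? fun z => decide (L.length ≤ 2 * L.countP fun y => decide (y ≤ z)) &&
    decide (L.length ≤ 2 * L.countP fun y => decide (z ≤ y)) with
  | none => rfl
  | some w => exact h w (List.mem_of_find?_eq_some h')

/-- the median of `2 D + 1` runs -/
def cntA (N D : ℕ) (A : List (List Bool)) (l : List Bool) : ℚ :=
  med ((chunks (plen N) (2 * D + 1) l).map fun ω => est (⟨N⟩, A, ω))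

theorem cntA_nonneg (N D : ℕ) (A : List (List Bool)) (l : List Bool) : 0 ≤ cntA N D A l := by
  refine med_nonneg fun z hz => ?_
  obtain ⟨ω, -, rfl⟩ := List.mem_map.1 hz
  exact est_nonneg _

theorem cntA_pt {α : Type} [Enc α] {N D : α → ℕ} {A : α → List (List Bool)} {l : α → List Bool}
    (hN : PT N) (hN' : PB N) (hD : PT D) (hD' : PB D) (hA : PT A) (hl : PT l) :
    PT fun a => cntA (N a) (D a) (A a) (l a) := by
  have h1 := plen_pt hN hN'
  have h2 : PT fun a => Un.mk (N a) := hN.un_mk hN'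
  have h3 := est_pt
  unfold cntA
  exact med_pt (PT.map (PT.chunks h1 (by fun_prop) (by fun_prop) hl)
    (h3.comp ((h2.comp PT.id.fst).pair ((hA.comp PT.id.fst).pair PT.id.snd))))

section

variable {N n : ℕ} {adj : Fin n → Fin n → Prop} [DecidableRel adj]

theorem cntA_zero (hi : ∀ v, ¬ adj v v) (hc : cnt adj = 0) (N D : ℕ) (l : List Bool) :
    cntA N D (adjL adj) l = 0 := by
  refine med_zero fun z hz => ?_
  obtain ⟨ω, -, rfl⟩ := List.mem_map.1 hz
  exact est_zero hi hc _ _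

theorem cntA_good (h : Fits N n) (ha : ∀ u v, adj u v → adj v u) (hi : ∀ v, ¬ adj v v) (D : ℕ)
    {len : ℕ} (hle : (2 * D + 1) * plen N ≤ len) :
    1 - (1 / 2) ^ D ≤ Pr len fun l => |(cntA N D (adjL adj) l : ℝ) - cnt adj| ≤ cnt adj / N := by
  classical
  set ρ := plen N with hρ
  set M := 2 * D + 1 with hM
  let bad : ℚ → Bool := fun z => decide (¬ |(z : ℝ) - cnt adj| ≤ (cnt adj : ℝ) / N)
  have hb : Pr ρ (fun ω => bad (est (⟨N⟩, adjL adj, ω)) = true) ≤ 1 / 16 := by
    have := est_good h ha hi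
    simp only [bad, decide_eq_true_eq]
    rw [Pr_not]
    linarith
  have hm := major_chunks ρ M _ hb
  rw [← Pr_take hle] at hm
  simp only [chunks_take le_rfl] at hm
  have h35 : (3 / 5 : ℝ) ^ M ≤ (1 / 2) ^ D := by
    rw [hM, pow_succ, pow_mul]
    have : ((3 / 5 : ℝ) ^ 2) ^ D ≤ (1 / 2) ^ D :=
      pow_le_pow_left₀ (by positivity) (by norm_num) _
    have h' : (0 : ℝ) ≤ ((3 / 5 : ℝ) ^ 2) ^ D := by positivity
    linarith
  refine le_trans ?_ (Pr_mono (E := fun l => ¬ M ≤ 2 * (chunks ρ M l).countP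
    fun ω => bad (est (⟨N⟩, adjL adj, ω))) fun l _ hl => ?_)
  · rw [Pr_not]; linarith
  · refine med_good (List.ne_nil_of_length_pos (by simp [hM])) _ _ bad
      (fun z hz => decide_eq_true hz) ?_
    rwa [List.length_map, length_chunks, List.countP_map]

end

open Crest.Enc Crest.FinProb Crest.Randomized Crest.Matchings

/-- the size parameter -/
def szN (m : ℕ) : ℕ := 2 ^ (m.size + 20)

theorem le_szN (m : ℕ) : m ≤ szN m :=
  (Nat.lt_size_self m).le.trans (Nat.pow_le_pow_right (by norm_num) (by omega))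

theorem fits_szN {n m : ℕ} (h : n ≤ m) : Fits (szN m) n :=
  ⟨by rw [szN, Nat.log_pow (by norm_num)], Nat.pow_le_pow_right (by norm_num) (by omega),
    h.trans (le_szN m)⟩

theorem szN_le (m : ℕ) : szN m ≤ (2 * m + 1) * 2 ^ 20 := by
  rw [szN, pow_add]
  refine Nat.mul_le_mul_right _ ?_
  rcases Nat.eq_zero_or_pos m with rfl | hm
  · simp
  · have h1 : 0 < m.size := Nat.size_pos.2 hm
    have h2 : 2 ^ (m.size - 1) ≤ m := Nat.lt_size.1 (by omega)
    have h3 : 2 ^ m.size = 2 * 2 ^ (m.size - 1) := by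
      rw [← pow_succ']; congr 1; omega
    omega

/-- the accuracy parameter -/
def accI (x : List Bool) : ℕ := (parseRat (parseRat (parseGraph x).2).2).2.length

/-- the confidence parameter -/
def confI (x : List Bool) : ℕ := (parseRat (parseRat (parseGraph x).2).2).1.den.size

/-- the size parameter of an input -/
def sizeI (x : List Bool) : ℕ := szN ((parseGraph x).1.length + accI x)

theorem accI_pt : PT accI := by unfold accI; fun_prop

theorem accI_pb : PB accI := by unfold accI; fun_prop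

theorem confI_pt : PT confI := by unfold confI; fun_prop

theorem confI_pb : PB confI := by unfold confI; fun_prop

theorem sizeI_pb : PB sizeI := by
  have := accI_pb
  refine PB.mono (g := fun x => (2 * ((parseGraph x).1.length + accI x) + 1) * 2 ^ 20)
    (by fun_prop) fun x => szN_le _

theorem sizeI_pt : PT sizeI := by
  have := accI_pt
  unfold sizeI szN
  exact (PT.const 2).nat_pow (by fun_prop) (by fun_prop)

theorem half_pow_le {δ : ℚ} (hδ : 0 < δ) : ((1 : ℝ) / 2) ^ δ.den.size ≤ δ := by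
  have h1 : (δ.den : ℝ) ≤ 2 ^ δ.den.size := by exact_mod_cast (Nat.lt_size_self δ.den).le
  have h2 : (0 : ℝ) < δ.den := by exact_mod_cast δ.den_pos
  have h3 : (1 : ℝ) ≤ δ.num := by exact_mod_cast Rat.num_pos.2 hδ
  rw [one_div, inv_pow, Rat.cast_def]
  calc ((2 : ℝ) ^ δ.den.size)⁻¹ ≤ (δ.den : ℝ)⁻¹ := inv_anti₀ h2 h1
    _ = 1 / δ.den := (one_div _).symm
    _ ≤ _ := by gcongr

theorem inv_le_eps {ε : ℚ} (hε : 0 < ε) {N : ℕ} (h : ⌈ε⁻¹⌉₊ ≤ N) : (1 : ℝ) / N ≤ ε := by
  have h1 : ((ε : ℝ))⁻¹ ≤ (⌈ε⁻¹⌉₊ : ℕ) := by exact_mod_cast Nat.le_ceil ε⁻¹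
  have h2 : (0 : ℝ) < ε := by exact_mod_cast hε
  have h3 : ((⌈ε⁻¹⌉₊ : ℕ) : ℝ) ≤ N := by exact_mod_cast h
  rw [one_div]
  exact inv_le_of_inv_le₀ h2 (h1.trans h3)

theorem exists_poly {g : List Bool → ℕ} (h : PB g) :
    ∃ r : Polynomial ℕ, ∀ x, g x ≤ r.eval x.length := by
  obtain ⟨c, k, h⟩ := h
  refine ⟨Polynomial.C c * (Polynomial.C 4 * Polynomial.X + 1) ^ k, fun x => (h x).trans ?_⟩
  simp only [Polynomial.eval_mul, Polynomial.eval_C, Polynomial.eval_pow, Polynomial.eval_add,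
    Polynomial.eval_X, Polynomial.eval_one]
  exact Nat.mul_le_mul_left _ (Nat.pow_le_pow_left (sz_boolList_le x) _)

theorem fpras :
    ∃ (A : List Bool × List Bool → List Bool) (r : Polynomial ℕ), RandPolyTime A ∧
      ∀ (n : ℕ) (G : SimpleGraph (Fin n)) [DecidableRel G.Adj] (ε δ : ℚ),
        0 < ε → ε < 1 → 0 < δ → δ < 1 / 2 →
        (∀ ω : Fin (r.eval (graphCode n G ++ ratCode ε ++ ratCode δ ++ List.replicate ⌈ε⁻¹⌉₊ true).length) → Bool,
          ∃ z : ℚ, 0 ≤ z ∧ A (graphCode n G ++ ratCode ε ++ ratCode δ ++ List.replicate ⌈ε⁻¹⌉₊ true, List.ofFn ω) = ratCode z) ∧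
        (numPerfectMatchings G = 0 →
          ∀ ω : Fin (r.eval (graphCode n G ++ ratCode ε ++ ratCode δ ++
              List.replicate ⌈ε⁻¹⌉₊ true).length) → Bool,
            A (graphCode n G ++ ratCode ε ++ ratCode δ ++ List.replicate ⌈ε⁻¹⌉₊ true,
              List.ofFn ω) = ratCode 0) ∧
        1 - (δ : ℝ) ≤ uniformProb {ω : Fin (r.eval (graphCode n G ++ ratCode ε ++ ratCode δ ++
              List.replicate ⌈ε⁻¹⌉₊ true).length) → Bool |
            ∃ z : ℚ, A (graphCode n G ++ ratCode ε ++ ratCode δ ++ List.replicate ⌈ε⁻¹⌉₊ true,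
              List.ofFn ω) = ratCode z ∧
              (1 - ε) * numPerfectMatchings G ≤ z ∧ z ≤ (1 + ε) * numPerfectMatchings G} := by
  obtain ⟨r, hr⟩ := exists_poly (g := fun x => (2 * confI x + 1) * plen (sizeI x))
    ((((PB.const 2).mul confI_pb).add (PB.const 1)).mul (plen_pb sizeI_pb))
  refine ⟨fun p => ratCode (cntA (sizeI p.1) (confI p.1) (parseGraph p.1).1 p.2), r,
    PT.randPolyTime (PT.ratCode (cntA_pt (sizeI_pt.comp PT.id.fst) (sizeI_pb.comp PT.id.fst)
      (confI_pt.comp PT.id.fst) (confI_pb.comp PT.id.fst) (by fun_prop) PT.id.snd)),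
    fun n G _ ε δ hε _ hδ _ => ?_⟩
  have hr' := hr (graphCode n G ++ ratCode ε ++ ratCode δ ++ List.replicate ⌈ε⁻¹⌉₊ true)
  have e1 : parseGraph (graphCode n G ++ ratCode ε ++ ratCode δ ++ List.replicate ⌈ε⁻¹⌉₊ true) =
      (adjL G.Adj, ratCode ε ++ (ratCode δ ++ List.replicate ⌈ε⁻¹⌉₊ true)) := by
    simp only [List.append_assoc, parseGraph_graphCode, adjL]
  have e2 : sizeI (graphCode n G ++ ratCode ε ++ ratCode δ ++ List.replicate ⌈ε⁻¹⌉₊ true) =
      szN (n + ⌈ε⁻¹⌉₊) := by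
    unfold sizeI accI
    rw [e1, parseRat_ratCode, parseRat_ratCode, length_adjL, List.length_replicate]
  have e3 : confI (graphCode n G ++ ratCode ε ++ ratCode δ ++ List.replicate ⌈ε⁻¹⌉₊ true) =
      δ.den.size := by
    unfold confI
    rw [e1, parseRat_ratCode, parseRat_ratCode]
  generalize graphCode n G ++ ratCode ε ++ ratCode δ ++ List.replicate ⌈ε⁻¹⌉₊ true = x
    at hr' e1 e2 e3 ⊢
  simp only [e1, e2, e3] at hr' ⊢
  have hc := numPerfectMatchings_eq G
  have hi : ∀ v, ¬ G.Adj v v := fun v => G.irrefl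
  refine ⟨fun ω => ⟨_, cntA_nonneg _ _ _ _, rfl⟩,
    fun h0 ω => by rw [cntA_zero hi (hc.symm.trans h0)], ?_⟩
  have hg := cntA_good (adj := G.Adj) (fits_szN (Nat.le_add_right n ⌈ε⁻¹⌉₊))
    (fun _ _ => G.adj_symm) hi _ hr'
  rw [uniformProb_eq _ fun l => ∃ z : ℚ,
    ratCode (cntA (szN (n + ⌈ε⁻¹⌉₊)) δ.den.size (adjL G.Adj) l) = ratCode z ∧
      (1 - ε) * numPerfectMatchings G ≤ z ∧ z ≤ (1 + ε) * numPerfectMatchings G]
  refine le_trans (by have := half_pow_le hδ; linarith) (hg.trans (Pr_mono fun l _ hl => ?_))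
  refine ⟨_, rfl, ?_⟩
  rw [← hc] at hl
  have h1 : (numPerfectMatchings G : ℝ) / (szN (n + ⌈ε⁻¹⌉₊) : ℕ) ≤ ε * numPerfectMatchings G := by
    rw [div_eq_mul_one_div, mul_comm]
    exact mul_le_mul_of_nonneg_right
      (inv_le_eps hε ((Nat.le_add_left _ _).trans (le_szN _))) (Nat.cast_nonneg _)
  obtain ⟨h2, h3⟩ := abs_le.1 (hl.trans h1)
  constructor
  · have : (1 - (ε : ℝ)) * numPerfectMatchings G ≤
        cntA (szN (n + ⌈ε⁻¹⌉₊)) δ.den.size (adjL G.Adj) l := by linarith
    exact_mod_cast this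
  · have : (cntA (szN (n + ⌈ε⁻¹⌉₊)) δ.den.size (adjL G.Adj) l : ℝ) ≤
        (1 + (ε : ℝ)) * numPerfectMatchings G := by linarith
    exact_mod_cast this

end Crest.Agent.R304
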