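import Crest.Agent.R304.Arc

/-!
# R304/Flip: the moves `toP`, `toQ`, `sw` and their weights (TASK)

`l.formPerm` sends `l[i]` to `l[i+1]` cyclically and fixes the other vertices (`List.formPerm_apply_getElem`, `List.formPerm_apply_of_notMem`, `List.formPerm_reverse`).
It is enough to prove the statements for `toQ` and to use `toP_toQ`, or `toP_reverse` with `pin_reverse_odd`.
-/

set_option autoImplicit false

namespace Crest.Agent.R304

open Finset Crest.Agent.R309

variable {V : Type} [DecidableEq V] {W U W' : PM V} {l : List V}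

theorem flip_smul_apply (σ : Equiv.Perm V) (X : PM V) (u : V) : (σ • X).f (σ u) = σ (X.f u) := by
  rw [smul_f]
  simp

theorem flip_sw_f (a b v : V) (X : PM V) :
    (sw a b X).f v = Equiv.swap a b (X.f (Equiv.swap a b v)) := by
  unfold sw
  rw [smul_f, Equiv.swap_inv]

theorem toP_reverse (l : List V) (W : PM V) : toP l.reverse W = toQ l W := by
  unfold toP toQ
  rw [List.formPerm_reverse, inv_inv]

theorem toQ_reverse (l : List V) (W : PM V) : toQ l.reverse W = toP l W := by
  unfold toP toQ
  rw [List.formPerm_reverse]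

theorem toP_singleton (a : V) (W : PM V) : toP [a] W = W := by
  unfold toP
  rw [List.formPerm_singleton, inv_one, one_smul]

/-- a degenerate switch -/
theorem sw_of_eq {a b : V} (h : a = b ∨ W.f a = b) : sw a b W = W := by
  rcases h with rfl | h
  · unfold sw
    rw [Equiv.swap_self]
    exact one_smul (Equiv.Perm V) W
  · have h' : W.f b = a := W.eq_iff.1 h
    ext v
    rw [flip_sw_f]
    by_cases h1 : v = a
    · rw [h1, Equiv.swap_apply_left, h', Equiv.swap_apply_left, h]
    by_cases h2 : v = b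
    · rw [h2, Equiv.swap_apply_right, h, Equiv.swap_apply_right, h']
    rw [Equiv.swap_apply_of_ne_of_ne h1 h2, Equiv.swap_apply_of_ne_of_ne]
    · intro h3
      exact h2 (by rw [← W.eq_iff.1 h3, h])
    · intro h3
      exact h1 (by rw [← W.eq_iff.1 h3, h'])

theorem sw_left (a b : V) (h1 : a ≠ b) (h2 : W.f a ≠ b) : (sw a b W).f a = W.f b := by
  rw [flip_sw_f, Equiv.swap_apply_left,
    Equiv.swap_apply_of_ne_of_ne (fun h => h2 (W.eq_iff.1 h)) (W.ne b)]

theorem sw_right (a b : V) (h1 : a ≠ b) (h2 : W.f a ≠ b) : (sw a b W).f b = W.f a := by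
  rw [flip_sw_f, Equiv.swap_apply_right, Equiv.swap_apply_of_ne_of_ne (W.ne a) h2]

theorem sw_other {a b v : V} (h1 : v ≠ a) (h2 : v ≠ b) (h3 : v ≠ W.f a) (h4 : v ≠ W.f b) :
    (sw a b W).f v = W.f v := by
  rw [flip_sw_f, Equiv.swap_apply_of_ne_of_ne h1 h2,
    Equiv.swap_apply_of_ne_of_ne (fun h => h3 (W.eq_iff.1 h).symm)
      (fun h => h4 (W.eq_iff.1 h).symm)]

variable [Inhabited V]

theorem flip_form_lt (hn : l.Nodup) {i : ℕ} (hi : i + 1 < l.length) :
    l.formPerm (arcEl l i) = arcEl l (i + 1) := by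
  rw [arcEl_eq (by omega : i < l.length), arcEl_eq hi]
  exact List.formPerm_apply_lt_getElem l hn i hi

theorem flip_form_lst (hn : l.Nodup) (h0 : l ≠ []) : l.formPerm (lst l) = hd l := by
  have hl := List.length_pos_iff.2 h0
  rw [arc_lst_eq, arc_hd_eq, arcEl_eq (by omega : l.length - 1 < l.length), arcEl_eq hl,
    List.formPerm_apply_getElem l hn]
  congr 1
  rw [Nat.sub_add_cancel hl, Nat.mod_self]

theorem flip_ne_nil (ho : Odd l.length) : l ≠ [] := by
  rintro rfl
  simp at ho

theorem flip_toQ_qin (hn : l.Nodup) (hp : Pin U l) : Qin (toQ l U) l := by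
  rw [Qin, arc_par_iff]
  intro i hi hl
  obtain ⟨j, rfl⟩ : ∃ j, i = j + 1 := ⟨i - 1, by omega⟩
  unfold toQ
  rw [← flip_form_lt hn (by omega : j + 1 < l.length), flip_smul_apply,
    Par.fwd hp (by omega) (by omega), flip_form_lt hn hl]

theorem flip_toQ_hd (hn : l.Nodup) (ho : Odd l.length) (hp : Pin U l) :
    (toQ l U).f (hd l) = U.f (lst l) := by
  unfold toQ
  rw [← flip_form_lst hn (flip_ne_nil ho), flip_smul_apply,
    List.formPerm_apply_of_notMem (pin_lst_notMem hn hp ho)]

theorem flip_toQ_other (hn : l.Nodup) (ho : Odd l.length) (hp : Pin U l) {v : V} (h1 : v ∉ l)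
    (h2 : v ≠ U.f (lst l)) : (toQ l U).f v = U.f v := by
  have h3 : U.f v ∉ l := fun h => by
    have := (pin_mem_odd hn hp ho h fun h' => h2 (U.eq_iff.1 h').symm).1
    rw [U.inv] at this
    exact h1 this
  unfold toQ
  conv_lhs => rw [← List.formPerm_apply_of_notMem h1]
  rw [flip_smul_apply, List.formPerm_apply_of_notMem h3]

theorem toP_pin (hn : l.Nodup) (ho : Odd l.length) (hq : Qin W l) : Pin (toP l W) l := by
  rw [← toQ_reverse, ← qin_reverse_odd ho]
  exact flip_toQ_qin (List.nodup_reverse.2 hn) ((pin_reverse_odd ho).2 hq)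

theorem toP_lst (hn : l.Nodup) (ho : Odd l.length) (hq : Qin W l) :
    (toP l W).f (lst l) = W.f (hd l) := by
  rw [← toQ_reverse, ← hd_reverse l, ← lst_reverse l]
  exact flip_toQ_hd (List.nodup_reverse.2 hn) (by rwa [List.length_reverse])
    ((pin_reverse_odd ho).2 hq)

theorem toP_other (hn : l.Nodup) (ho : Odd l.length) (hq : Qin W l) {v : V} (h1 : v ∉ l)
    (h2 : v ≠ W.f (hd l)) : (toP l W).f v = W.f v := by
  rw [← toQ_reverse]
  exact flip_toQ_other (List.nodup_reverse.2 hn) (by rwa [List.length_reverse])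
    ((pin_reverse_odd ho).2 hq) (by rwa [List.mem_reverse]) (by rwa [lst_reverse])

theorem toQ_qin (hn : l.Nodup) (ho : Odd l.length) (hp : Pin U l) : Qin (toQ l U) l := by
  exact flip_toQ_qin hn hp

theorem toQ_hd (hn : l.Nodup) (ho : Odd l.length) (hp : Pin U l) :
    (toQ l U).f (hd l) = U.f (lst l) := by
  exact flip_toQ_hd hn ho hp

theorem toQ_other (hn : l.Nodup) (ho : Odd l.length) (hp : Pin U l) {v : V} (h1 : v ∉ l)
    (h2 : v ≠ U.f (lst l)) : (toQ l U).f v = U.f v := by
  exact flip_toQ_other hn ho hp h1 h2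

/-- characterisation of `toP` -/
theorem toP_eq (hn : l.Nodup) (ho : Odd l.length) (hq : Qin W l) (hp : Pin W' l)
    (h1 : W'.f (lst l) = W.f (hd l)) (h2 : ∀ v, v ∉ l → v ≠ W.f (hd l) → W'.f v = W.f v) :
    toP l W = W' := by
  ext v
  by_cases hv : v ∈ l
  · by_cases hb : v = lst l
    · rw [hb, toP_lst hn ho hq, h1]
    · exact pin_eq_odd (toP_pin hn ho hq) hp ho hv hb
  · by_cases hc : v = W.f (hd l)
    · rw [hc, (toP l W).eq_iff.1 (toP_lst hn ho hq), W'.eq_iff.1 h1]
    · rw [toP_other hn ho hq hv hc, h2 v hv hc]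

/-- characterisation of `toQ` -/
theorem toQ_eq (hn : l.Nodup) (ho : Odd l.length) (hp : Pin U l) (hq : Qin W' l)
    (h1 : W'.f (hd l) = U.f (lst l)) (h2 : ∀ v, v ∉ l → v ≠ U.f (lst l) → W'.f v = U.f v) :
    toQ l U = W' := by
  ext v
  by_cases hv : v ∈ l
  · by_cases hb : v = hd l
    · rw [hb, toQ_hd hn ho hp, h1]
    · exact qin_eq_odd (toQ_qin hn ho hp) hq ho hv hb
  · by_cases hc : v = U.f (lst l)
    · rw [hc, (toQ l U).eq_iff.1 (toQ_hd hn ho hp), W'.eq_iff.1 h1]
    · rw [toQ_other hn ho hp hv hc, h2 v hv hc]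

/-- the formula used by the program -/
theorem toP_f (hn : l.Nodup) (ho : Odd l.length) (hp : Pin U l) (hq : Qin W l) (v : V) :
    (toP l W).f v = if v = W.f (hd l) then lst l else if v = lst l then W.f (hd l)
      else if v ∈ l then U.f v else W.f v := by
  split_ifs with h1 h2 h3
  · rw [h1, (toP l W).eq_iff.1 (toP_lst hn ho hq)]
  · rw [h2, toP_lst hn ho hq]
  · exact pin_eq_odd (toP_pin hn ho hq) hp ho h3 h2
  · exact toP_other hn ho hq h3 h1

theorem toQ_f (hn : l.Nodup) (ho : Odd l.length) (hp : Pin U l) (hq : Qin W l) (v : V) :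
    (toQ l U).f v = if v = U.f (lst l) then hd l else if v = hd l then U.f (lst l)
      else if v ∈ l then W.f v else U.f v := by
  split_ifs with h1 h2 h3
  · rw [h1, (toQ l U).eq_iff.1 (toQ_hd hn ho hp)]
  · rw [h2, toQ_hd hn ho hp]
  · exact qin_eq_odd (toQ_qin hn ho hp) hq ho h3 h2
  · exact toQ_other hn ho hp h3 h1

variable [Fintype V] {s : V → V → ℝ}

omit [Inhabited V] in
theorem flip_prod_adjust (F F' : V → ℝ) (a p b q : V) (x₁ x₂ x₃ x₄ y₁ y₂ y₃ y₄ : ℝ)
    (h : ∀ v, F' v * ((if v = a then x₁ else 1) * (if v = p then x₂ else 1) *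
        (if v = b then x₃ else 1) * (if v = q then x₄ else 1)) =
      F v * ((if v = a then y₁ else 1) * (if v = p then y₂ else 1) *
        (if v = b then y₃ else 1) * (if v = q then y₄ else 1))) :
    (∏ v, F' v) * (x₁ * x₂ * x₃ * x₄) = (∏ v, F v) * (y₁ * y₂ * y₃ * y₄) := by
  have h1 := Finset.prod_congr (s₁ := univ) rfl fun v _ => h v
  simpa only [Finset.prod_mul_distrib, Finset.prod_ite_eq', Finset.mem_univ, if_true] using h1

omit [Inhabited V] in
/-- The edges at `a` and `b` are exchanged.  Split the products over the four vertices `a, b, W a, W b`. -/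
theorem pr_sw (hs : Wt s) (a b : V) (h1 : a ≠ b) (h2 : W.f a ≠ b) :
    pr s (sw a b W) * (s a (W.f a) ^ 2 * s b (W.f b) ^ 2) =
      pr s W * (s b (W.f a) ^ 2 * s a (W.f b) ^ 2) := by
  have hap : a ≠ W.f a := (W.ne a).symm
  have hbq : b ≠ W.f b := (W.ne b).symm
  have haq : a ≠ W.f b := fun h => h2 (W.eq_iff.1 h.symm)
  have hpq : W.f a ≠ W.f b := fun h => h1 (W.inj h)
  have e1 := sw_left a b h1 h2
  have e2 := sw_right a b h1 h2
  have e3 := (sw a b W).eq_iff.1 e1
  have e4 := (sw a b W).eq_iff.1 e2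
  have key := flip_prod_adjust (fun v => s v (W.f v)) (fun v => s v ((sw a b W).f v))
    a (W.f a) b (W.f b) (s a (W.f a)) (s a (W.f a)) (s b (W.f b)) (s b (W.f b))
    (s a (W.f b)) (s b (W.f a)) (s b (W.f a)) (s a (W.f b)) (by
      intro v
      by_cases c1 : v = a
      · subst c1
        simp only [e1, if_true, if_neg hap, if_neg h1, if_neg haq]
        ring
      by_cases c2 : v = b
      · subst c2
        simp only [e2, if_true, if_neg c1, if_neg h2.symm, if_neg hbq]
        ring
      by_cases c3 : v = W.f a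
      · subst c3
        simp only [e4, if_true, if_neg c1, if_neg c2, if_neg hpq, W.inv, hs.symm (W.f a)]
        ring
      by_cases c4 : v = W.f b
      · subst c4
        simp only [e3, if_true, if_neg c1, if_neg c2, if_neg c3, W.inv, hs.symm (W.f b)]
        ring
      simp only [sw_other c1 c2 c3 c4, if_neg c1, if_neg c2, if_neg c3, if_neg c4])
  unfold pr wt
  linear_combination (Zs s)⁻¹ * key

/-- Let `a = hd l`, `b = lst l`, `p = W a`, `q = U b`, `F v = s v (W v) * s v (U v)` and `F'` the same for the new pair.  For every `v`,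
`F' v * (g v) = F v * (g' v)` where `g v = [v = a] s a p * [v = p] s a p * [v = b] s b q * [v = q] s b q` (empty brackets are `1`) and `g'` has `s a q` at `a`, `s b p` at `p`,
`s b p` at `b`, `s a q` at `q` (`toP_f`, `toQ_f`; the cases `a = b` and `p = q` are allowed); take the product over `v`. -/
theorem pr_exch (hs : Wt s) (hn : l.Nodup) (ho : Odd l.length) (hp : Pin U l) (hq : Qin W l) :
    pr s (toP l W) * pr s (toQ l U) *
        (s (hd l) (W.f (hd l)) ^ 2 * s (lst l) (U.f (lst l)) ^ 2) =
      pr s W * pr s U * (s (lst l) (W.f (hd l)) ^ 2 * s (hd l) (U.f (lst l)) ^ 2) := by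
  have h0 := flip_ne_nil ho
  have ha := hd_mem h0
  have hb := lst_mem h0
  have hp' := qin_hd_notMem hn hq ho
  have hq' := pin_lst_notMem hn hp ho
  have key := flip_prod_adjust (fun v => s v (W.f v) * s v (U.f v))
    (fun v => s v ((toP l W).f v) * s v ((toQ l U).f v))
    (hd l) (W.f (hd l)) (lst l) (U.f (lst l))
    (s (hd l) (W.f (hd l))) (s (hd l) (W.f (hd l))) (s (lst l) (U.f (lst l)))
    (s (lst l) (U.f (lst l)))
    (s (hd l) (U.f (lst l))) (s (lst l) (W.f (hd l))) (s (lst l) (W.f (hd l)))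
    (s (hd l) (U.f (lst l))) (by
      intro v
      simp only [toP_f hn ho hp hq, toQ_f hn ho hp hq]
      by_cases hv : v ∈ l
      · have c1 : v ≠ W.f (hd l) := fun h => hp' (h ▸ hv)
        have c2 : v ≠ U.f (lst l) := fun h => hq' (h ▸ hv)
        simp only [if_neg c1, if_neg c2, if_pos hv]
        by_cases c3 : v = hd l
        · by_cases c4 : v = lst l
          · simp only [if_pos c3, if_pos c4]
            rw [← c3, ← c4]
            ring
          · simp only [if_pos c3, if_neg c4]
            rw [← c3]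
            ring
        · by_cases c4 : v = lst l
          · simp only [if_neg c3, if_pos c4]
            rw [← c4]
            ring
          · simp only [if_neg c3, if_neg c4]
            ring
      · have c1 : v ≠ hd l := fun h => hv (h ▸ ha)
        have c2 : v ≠ lst l := fun h => hv (h ▸ hb)
        simp only [if_neg c1, if_neg c2, if_neg hv]
        by_cases c3 : v = W.f (hd l)
        · have e3 : W.f v = hd l := W.eq_iff.1 c3.symm
          by_cases c4 : v = U.f (lst l)
          · have e4 : U.f v = lst l := U.eq_iff.1 c4.symm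
            simp only [if_pos c3, if_pos c4]
            rw [← c3, ← c4, e3, e4]
            ring
          · simp only [if_pos c3, if_neg c4]
            rw [← c3, e3, hs.symm (hd l) v, hs.symm (lst l) v]
            ring
        · by_cases c4 : v = U.f (lst l)
          · have e4 : U.f v = lst l := U.eq_iff.1 c4.symm
            simp only [if_neg c3, if_pos c4]
            rw [← c4, e4, hs.symm (hd l) v, hs.symm (lst l) v]
            ring
          · simp only [if_neg c3, if_neg c4])
  rw [Finset.prod_mul_distrib, Finset.prod_mul_distrib] at key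
  unfold pr wt
  linear_combination (Zs s)⁻¹ * (Zs s)⁻¹ * key

end Crest.Agent.R304
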