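import Crest.Agent.R304.Flip
import Crest.Agent.R304.Walk

/-!
# R304/Four: the four-point inequality (TASK)

Take `(X, Y)` with `X a = b`, `Y c = d`, and the cycle `L` of `exists_cycle Y X b` (so `lst L = a`).  If `c ∈ L`, then `{c, d} = {L[2t], L[2t+1]}` for some `t`; let `l = L.take (2t+1)`.
Otherwise `d ∉ L`, let `l = L.dropLast`.  In all cases `l` is odd, `hd l = b`, `Pin Y l`, `Qin X l`; let `(X', Y') = (toP l X, toQ l Y)`; `l` alternates in `(X', Y')` (`toP_pin`, `toQ_qin`).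
* `lst l = d`: `X' d = a`, `Y' b = c`; * `lst l = c`: `X' c = a`, `Y' b = d`; * else `Y (lst l) = a`, `Y' b = a`, `Y' c = d`, `lst l = X' a`, same weight.
On each class the map is injective (`alt_unique` in `(X', Y')`, then `toQ_toP`); weights by `pr_exch`.  So state an existence lemma for `l`, and a lemma
`∑_{z ∈ A} f z ≤ ∑_{z' ∈ B} g z'` for a relation given by lists.  Finally `pr {Y b = a, Y c = d} λ(a c) λ(b d) = pr {Y a = c, Y b = d} λ(a b) λ(c d) ≤ λ(a b) λ(c d)` by the switch `sw b c` (`pr_sw`).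
-/

set_option autoImplicit false

namespace Crest.Agent.R304

open Finset Crest.Agent.R309

variable {V : Type} [Fintype V] [DecidableEq V] {s : V → V → ℝ}

omit [Fintype V] [DecidableEq V] in
theorem four_par_take {W : PM V} {c : ℕ} {l : List V} (h : Par W c l) (k : ℕ) :
    Par W c (l.take k) := by
  intro i a b hi h1 h2
  rw [List.getElem?_take] at h1 h2
  split_ifs at h1 h2
  exact h i a b hi h1 h2

omit [Fintype V] [DecidableEq V] in
theorem four_take [Inhabited V] {X Y : PM V} {L : List V} (hn : L.Nodup) (hp : Pin Y L)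
    (hq : Qin X L) {k : ℕ} (hk : k % 2 = 0) {v : V} (hv : L[k]? = some v) :
    ∃ l : List V, (l.Nodup ∧ Odd l.length ∧ hd l = hd L ∧ Pin Y l ∧ Qin X l) ∧ lst l = v := by
  have hlt : k < L.length := (List.getElem?_eq_some_iff.1 hv).1
  have hlen : (L.take (k + 1)).length = k + 1 := by rw [List.length_take]; omega
  have hne : L.take (k + 1) ≠ [] := List.ne_nil_of_length_pos (by omega)
  refine ⟨L.take (k + 1), ⟨hn.sublist (List.take_sublist _ _), ?_, ?_, four_par_take hp _,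
    four_par_take hq _⟩, ?_⟩
  · rw [hlen, Nat.odd_iff]; omega
  · nth_rewrite 2 [← List.take_append_drop (k + 1) L]
    rw [hd_append hne]
  · have := getElem?_lst hne
    rw [hlen, Nat.add_sub_cancel, List.getElem?_take, if_pos (by omega), hv] at this
    exact (Option.some.inj this).symm

theorem four_exists [Inhabited V] {X Y : PM V} {a b c d : V} (h1 : X.f a = b) (h2 : Y.f c = d) :
    ∃ l : List V, (l.Nodup ∧ Odd l.length ∧ hd l = b ∧ Pin Y l ∧ Qin X l) ∧
      (lst l = d ∨ lst l = c ∨ (Y.f (lst l) = a ∧ c ∉ l)) := by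
  obtain ⟨L, hn, h0, hb, he, hp, hq, hl⟩ := exists_cycle Y X b
  have ha : lst L = a := X.inj (hl.trans h1.symm)
  by_cases hc : c ∈ L
  · obtain ⟨i, hi⟩ := List.mem_iff_getElem?.1 hc
    rcases Nat.mod_two_eq_zero_or_one i with h3 | h3
    · obtain ⟨l, k1, k2⟩ := four_take hn hp hq h3 hi
      exact ⟨l, hb ▸ k1, Or.inr (Or.inl k2)⟩
    · obtain ⟨j, rfl⟩ : ∃ j, i = j + 1 := ⟨i - 1, by omega⟩
      have hlt : j < L.length := by have := (List.getElem?_eq_some_iff.1 hi).1; omega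
      have hj : L[j]? = some L[j] := List.getElem?_eq_getElem hlt
      have e : L[j] = d := by rw [← h2, ← hp j _ _ (by omega) hj hi, Y.inv]
      obtain ⟨l, k1, k2⟩ := four_take hn hp hq (k := j) (by omega) hj
      exact ⟨l, hb ▸ k1, Or.inl (k2.trans e)⟩
  · have h2 : 2 ≤ L.length := by
      obtain ⟨k, hk⟩ := he
      have := List.length_pos_iff.2 h0
      omega
    obtain ⟨k1, k2⟩ := (pin_dropLast he h0).1 hp
    exact ⟨L.dropLast, ⟨hn.sublist (List.dropLast_sublist _), odd_dropLast he h0,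
      (hd_dropLast h2).trans hb, k1, (qin_dropLast he).1 hq⟩,
      Or.inr (Or.inr ⟨k2.trans ha, fun h => hc (List.mem_of_mem_dropLast h)⟩)⟩

theorem four_inj [Inhabited V] (b : V) (A : PM V × PM V → Prop) (e : PM V → V)
    (f g : PM V × PM V → ℝ) (hg : ∀ z, 0 ≤ g z)
    (h : ∀ z, A z → ∃ l : List V, (l.Nodup ∧ Odd l.length ∧ hd l = b ∧ Pin z.2 l ∧ Qin z.1 l) ∧
      lst l = e (toP l z.1) ∧ f z ≤ g (toP l z.1, toQ l z.2)) :
    ∑ z, ind (A z) * f z ≤ ∑ z, g z := by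
  classical
  choose! L hL using h
  have hinj : Set.InjOn (fun z : PM V × PM V => (toP (L z) z.1, toQ (L z) z.2))
      (univ.filter A : Finset (PM V × PM V)) := by
    intro z hz z' hz' e1
    obtain ⟨⟨a1, a2, a3, a4, a5⟩, a6, -⟩ := hL z (mem_filter.1 hz).2
    obtain ⟨⟨b1, b2, b3, b4, b5⟩, b6, -⟩ := hL z' (mem_filter.1 hz').2
    obtain ⟨e2, e3⟩ := Prod.ext_iff.1 e1
    dsimp only at e2 e3
    have e4 : L z = L z' := alt_unique a1 b1 (List.ne_nil_of_length_pos a2.pos)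
      (List.ne_nil_of_length_pos b2.pos) (toP_pin a1 a2 a5) (toQ_qin a1 a2 a4)
      (e2 ▸ toP_pin b1 b2 b5) (e3 ▸ toQ_qin b1 b2 b4) (a3.trans b3.symm) (by rw [a6, b6, e2])
    rw [← e4] at e2 e3
    refine Prod.ext ?_ ?_
    · rw [← toQ_toP (L z) z.1, e2, toQ_toP]
    · rw [← toP_toQ (L z) z.2, e3, toP_toQ]
  calc ∑ z, ind (A z) * f z = ∑ z ∈ univ.filter A, f z := by
        rw [sum_filter]
        exact sum_congr rfl fun z _ => by rw [ind_eq]; split_ifs <;> simp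
    _ ≤ ∑ z ∈ univ.filter A, g (toP (L z) z.1, toQ (L z) z.2) :=
        sum_le_sum fun z hz => (hL z (mem_filter.1 hz).2).2.2
    _ = ∑ z ∈ (univ.filter A).image fun z => (toP (L z) z.1, toQ (L z) z.2), g z :=
        (sum_image hinj).symm
    _ ≤ _ := sum_le_sum_of_subset_of_nonneg (subset_univ _) fun z _ _ => hg z

theorem four_sum_le (hs : Wt s) : ∑ X, pr s X ≤ 1 := by
  rcases isEmpty_or_nonempty (PM V) with h | h
  · simp
  · exact hs.sum_pr.le

theorem four_prod (F G : PM V → ℝ) (t : ℝ) :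
    ∑ z : PM V × PM V, F z.1 * G z.2 / t = (∑ X, F X) * (∑ Y, G Y) / t := by
  rw [← sum_div, Fintype.sum_prod_type, sum_mul_sum]

theorem four_point (hs : Wt s) {a b c d : V} (hab : a ≠ b) (hac : a ≠ c) (had : a ≠ d)
    (hbc : b ≠ c) (hbd : b ≠ d) (hcd : c ≠ d) :
    xm (pr s) a b / s a b ^ 2 * (xm (pr s) c d / s c d ^ 2) ≤
      xm (pr s) a d / s a d ^ 2 * (xm (pr s) b c / s b c ^ 2) +
      xm (pr s) a c / s a c ^ 2 * (xm (pr s) b d / s b d ^ 2) + 1 / (s a c ^ 2 * s b d ^ 2) := by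
  letI : Inhabited V := ⟨a⟩
  have hp := fun X => (hs.pr_pos X).le
  have hl : ∀ u v, 0 < s u v ^ 2 := fun u v => pow_pos (hs.pos u v) 2
  obtain ⟨f, hf⟩ : ∃ f : PM V × PM V → ℝ,
    f = fun z => pr s z.1 * pr s z.2 / (s a b ^ 2 * s c d ^ 2) := ⟨_, rfl⟩
  have hf0 : ∀ z, 0 ≤ f z := fun z => by
    rw [hf]; exact div_nonneg (mul_nonneg (hp _) (hp _)) (mul_pos (hl _ _) (hl _ _)).le
  let A : (PM V × PM V → List V → Prop) → PM V × PM V → Prop := fun P z =>
    z.1.f a = b ∧ z.2.f c = d ∧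
      ∃ l : List V, (l.Nodup ∧ Odd l.length ∧ hd l = b ∧ Pin z.2 l ∧ Qin z.1 l) ∧ P z l
  have k1 := four_inj b (A fun _ l => lst l = d) (fun _ => d) f (fun z => pr s z.1 * ind (z.1.f a = d) *
      (pr s z.2 * ind (z.2.f b = c)) / (s a d ^ 2 * s b c ^ 2))
    (fun z => div_nonneg (mul_nonneg (mul_nonneg (hp _) (ind_nonneg _))
      (mul_nonneg (hp _) (ind_nonneg _))) (mul_pos (hl _ _) (hl _ _)).le) (by
      rintro ⟨X, Y⟩ ⟨h1, h2, l, ⟨a1, a2, a3, a4, a5⟩, a6⟩
      refine ⟨l, ⟨a1, a2, a3, a4, a5⟩, a6, le_of_eq ?_⟩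
      have e1 := toP_lst a1 a2 a5
      have e2 := toQ_hd a1 a2 a4
      have e3 := pr_exch hs a1 a2 a4 a5
      rw [a3, a6, X.eq_iff.1 h1] at e1
      rw [a3, a6, Y.eq_iff.1 h2] at e2
      rw [a3, a6, X.eq_iff.1 h1, Y.eq_iff.1 h2, hs.symm b a, hs.symm d c, hs.symm d a] at e3
      rw [hf]
      dsimp only
      rw [ind_pos ((PM.eq_iff _).1 e1), ind_pos e2, mul_one, mul_one,
        div_eq_div_iff (mul_pos (hl _ _) (hl _ _)).ne' (mul_pos (hl _ _) (hl _ _)).ne', e3])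
  have k2 := four_inj b (A fun _ l => lst l = c) (fun _ => c) f (fun z => pr s z.1 * ind (z.1.f a = c) *
      (pr s z.2 * ind (z.2.f b = d)) / (s a c ^ 2 * s b d ^ 2))
    (fun z => div_nonneg (mul_nonneg (mul_nonneg (hp _) (ind_nonneg _))
      (mul_nonneg (hp _) (ind_nonneg _))) (mul_pos (hl _ _) (hl _ _)).le) (by
      rintro ⟨X, Y⟩ ⟨h1, h2, l, ⟨a1, a2, a3, a4, a5⟩, a6⟩
      refine ⟨l, ⟨a1, a2, a3, a4, a5⟩, a6, le_of_eq ?_⟩
      have e1 := toP_lst a1 a2 a5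
      have e2 := toQ_hd a1 a2 a4
      have e3 := pr_exch hs a1 a2 a4 a5
      dsimp only at h2
      rw [a3, a6, X.eq_iff.1 h1] at e1
      rw [a3, a6, h2] at e2
      rw [a3, a6, X.eq_iff.1 h1, h2, hs.symm b a, hs.symm c a] at e3
      rw [hf]
      dsimp only
      rw [ind_pos ((PM.eq_iff _).1 e1), ind_pos e2, mul_one, mul_one,
        div_eq_div_iff (mul_pos (hl _ _) (hl _ _)).ne' (mul_pos (hl _ _) (hl _ _)).ne', e3])
  have k3 := four_inj b (A fun z l => z.2.f (lst l) = a ∧ c ∉ l) (fun X => X.f a) f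
    (fun z => pr s z.1 * (pr s z.2 * ind (z.2.f b = a ∧ z.2.f c = d)) / (s a b ^ 2 * s c d ^ 2))
    (fun z => div_nonneg (mul_nonneg (hp _) (mul_nonneg (hp _) (ind_nonneg _)))
      (mul_pos (hl _ _) (hl _ _)).le) (by
      rintro ⟨X, Y⟩ ⟨h1, h2, l, ⟨a1, a2, a3, a4, a5⟩, a6, a7⟩
      have e1 := toP_lst a1 a2 a5
      have e2 := toQ_hd a1 a2 a4
      have e3 := pr_exch hs a1 a2 a4 a5
      have e4 := toQ_other a1 a2 a4 a7 (by rw [a6]; exact hac.symm)
      dsimp only at h2 a6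
      rw [a3, X.eq_iff.1 h1] at e1
      rw [a3, a6] at e2
      rw [a3, a6, X.eq_iff.1 h1, mul_comm (s b a ^ 2)] at e3
      refine ⟨l, ⟨a1, a2, a3, a4, a5⟩, ((PM.eq_iff _).1 e1).symm, le_of_eq ?_⟩
      rw [hf]
      dsimp only
      rw [ind_pos ⟨e2, e4.trans h2⟩, mul_one,
        mul_right_cancel₀ (mul_pos (hl _ _) (hl _ _)).ne' e3])
  rw [four_prod (fun X => pr s X * ind (X.f a = d)) (fun Y => pr s Y * ind (Y.f b = c))] at k1
  rw [four_prod (fun X => pr s X * ind (X.f a = c)) (fun Y => pr s Y * ind (Y.f b = d))] at k2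
  rw [four_prod (pr s) (fun Y => pr s Y * ind (Y.f b = a ∧ Y.f c = d))] at k3
  have k4 : (∑ Y, pr s Y * ind (Y.f b = a ∧ Y.f c = d)) / (s a b ^ 2 * s c d ^ 2) ≤
      1 / (s a c ^ 2 * s b d ^ 2) := by
    have e : ∑ Y, pr s (sw b c Y) = ∑ Y, pr s Y :=
      (Function.Involutive.bijective (f := sw b c) (sw_sw b c)).sum_comp (pr s)
    refine le_trans ?_ (div_le_div_of_nonneg_right (e.le.trans (four_sum_le hs))
      (mul_pos (hl _ _) (hl _ _)).le)
    rw [sum_div, sum_div]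
    refine sum_le_sum fun Y _ => ?_
    by_cases hY : Y.f b = a ∧ Y.f c = d
    · have e3 := pr_sw (W := Y) hs b c hbc (by rw [hY.1]; exact hac)
      rw [hY.1, hY.2, hs.symm b a, hs.symm c a] at e3
      rw [ind_pos hY, mul_one,
        div_le_div_iff₀ (mul_pos (hl _ _) (hl _ _)) (mul_pos (hl _ _) (hl _ _)), e3]
    · rw [ind_neg hY, mul_zero, zero_div]
      exact div_nonneg (hp _) (mul_pos (hl _ _) (hl _ _)).le
  have k5 : (∑ X, pr s X) * (∑ Y, pr s Y * ind (Y.f b = a ∧ Y.f c = d)) / (s a b ^ 2 * s c d ^ 2) ≤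
      1 / (s a c ^ 2 * s b d ^ 2) := by
    rw [mul_div_assoc]
    refine le_trans (mul_le_of_le_one_left (div_nonneg (sum_nonneg fun Y _ =>
      mul_nonneg (hp _) (ind_nonneg _)) (mul_pos (hl _ _) (hl _ _)).le) (four_sum_le hs)) k4
  have k0 : xm (pr s) a b / s a b ^ 2 * (xm (pr s) c d / s c d ^ 2) ≤
      ∑ z, ind (A (fun _ l => lst l = d) z) * f z + ∑ z, ind (A (fun _ l => lst l = c) z) * f z +
        ∑ z, ind (A (fun z l => z.2.f (lst l) = a ∧ c ∉ l) z) * f z := by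
    rw [div_mul_div_comm, xm, xm, ← four_prod, ← sum_add_distrib, ← sum_add_distrib]
    refine sum_le_sum fun z _ => ?_
    have n1 := mul_nonneg (ind_nonneg (A (fun _ l => lst l = d) z)) (hf0 z)
    have n2 := mul_nonneg (ind_nonneg (A (fun _ l => lst l = c) z)) (hf0 z)
    have n3 := mul_nonneg (ind_nonneg (A (fun z l => z.2.f (lst l) = a ∧ c ∉ l) z)) (hf0 z)
    by_cases h1 : z.1.f a = b
    · by_cases h2 : z.2.f c = d
      · have e : pr s z.1 * ind (z.1.f a = b) * (pr s z.2 * ind (z.2.f c = d)) /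
            (s a b ^ 2 * s c d ^ 2) = f z := by rw [ind_pos h1, ind_pos h2, mul_one, mul_one, hf]
        rw [e]
        obtain ⟨l, b1, b2 | b2 | b2⟩ := four_exists h1 h2
        · rw [ind_pos (p := A (fun _ l => lst l = d) z) ⟨h1, h2, l, b1, b2⟩]; linarith
        · rw [ind_pos (p := A (fun _ l => lst l = c) z) ⟨h1, h2, l, b1, b2⟩]; linarith
        · rw [ind_pos (p := A (fun z l => z.2.f (lst l) = a ∧ c ∉ l) z) ⟨h1, h2, l, b1, b2⟩]; linarith
      · rw [ind_neg h2, mul_zero, mul_zero, zero_div]; linarith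
    · rw [ind_neg h1, mul_zero, zero_mul, zero_div]; linarith
  rw [div_mul_div_comm (xm (pr s) a d), div_mul_div_comm (xm (pr s) a c)]
  unfold xm at k0 ⊢
  linarith

end Crest.Agent.R304
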