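import Crest.Agent.R304.Refine
import Crest.Agent.R304.Count

/-!
# R304/Init: the initial samples (TASK)

Invariant of `iter istep` after `i ≤ n / 2` steps, on every tape: the first component `L` is a list without repetition of `n - 2 i` numbers below `n`, the table `t` has length `n`, and for `v < n` not in `L`:
`t v < n`, `t v ∉ L`, `t v ≠ v`, `t (t v) = v`.  Entries of matched vertices never change.
For the bound prove by induction on `m`: from a state with `L.length = 2 m` the probability that after `m` steps the table agrees with `X` on `L` is at most `∏_{i < m} (1 / (2 i + 1) + 1 / 2 ^ pq N)`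
(`Ex_iter_succ`; the first step must choose the partner `X (head L)`, and `Pr ρ (ofBits ω % d = r) ≤ 1 / d + 1 / 2 ^ ρ`, `Nat.count_modEq_card` or an injection into `range (2 ^ ρ / d + 1)`).
Finally `(1 + N / N ^ 240) ^ N ≤ exp (N² / N ^ 240) ≤ 1 + 2 N² / N ^ 240`.
-/

set_option autoImplicit false

namespace Crest.Agent.R304

open Finset Crest.Agent.R309 Crest.Agent.Lib.PT

variable {N n : ℕ}

theorem Pr_mod_le (ρ : ℕ) {d : ℕ} (hd : 0 < d) (r : ℕ) :
    Pr ρ (fun ω => ofBits ω % d = r) ≤ 1 / d + 1 / 2 ^ ρ := by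
  have e := Ex_ofBits ρ (fun i => ind (i % d = r))
  have hd' : (0 : ℝ) < d := by exact_mod_cast hd
  have h2 : (0 : ℝ) < 2 ^ ρ := by positivity
  have hc : ((range (2 ^ ρ)).filter (fun i => i % d = r)).card ≤ 2 ^ ρ / d + 1 := by
    rw [← card_range (2 ^ ρ / d + 1)]
    refine card_le_card_of_injOn (fun i => i / d) (fun i hi => ?_) (fun i hi j hj hij => ?_)
    · have := (mem_filter.1 (mem_coe.1 hi)).1
      exact mem_coe.2 (mem_range.2 (Nat.lt_succ_of_le (Nat.div_le_div_right (mem_range.1 this).le)))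
    · have h1 := (mem_filter.1 (mem_coe.1 hi)).2
      have h2 := (mem_filter.1 (mem_coe.1 hj)).2
      simp only at hij
      rw [← Nat.div_add_mod i d, ← Nat.div_add_mod j d, hij, h1, h2]
  have hs : ∑ i ∈ range (2 ^ ρ), ind (i % d = r) ≤ (2 : ℝ) ^ ρ / d + 1 := by
    simp only [ind_eq]
    rw [sum_boole]
    calc (((range (2 ^ ρ)).filter (fun i => i % d = r)).card : ℝ) ≤ ((2 ^ ρ / d + 1 : ℕ) : ℝ) := by
          exact_mod_cast hc
      _ ≤ _ := by
          push_cast
          have := Nat.cast_div_le (α := ℝ) (m := 2 ^ ρ) (n := d)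
          push_cast at this
          linarith
  unfold Pr
  rw [e, div_le_iff₀ h2]
  refine hs.trans (le_of_eq ?_)
  field_simp

/-- the invariant of the initial sampler: `2 m` free vertices -/
structure IniJ (n m : ℕ) (s : List ℕ × List ℕ) : Prop where
  nd : s.1.Nodup
  len : s.1.length = 2 * m
  lt : ∀ v ∈ s.1, v < n
  tl : s.2.length = n
  mt : ∀ v < n, v ∉ s.1 → s.2.getD v 0 < n ∧ s.2.getD v 0 ∉ s.1 ∧ s.2.getD v 0 ≠ v ∧
    s.2.getD (s.2.getD v 0) 0 = v

theorem ini_getD {t : List ℕ} {a b : ℕ} (ha : a < t.length) (hb : b < t.length) (v : ℕ) :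
    ((t.set a b).set b a).getD v 0 = if v = b then a else if v = a then b else t.getD v 0 := by
  simp only [List.getD_eq_getElem?_getD, List.getElem?_set, List.length_set]
  by_cases h1 : v = b
  · simp [h1, hb]
  · by_cases h2 : v = a
    · subst h2
      simp [h1, ha, Ne.symm h1]
    · simp [h1, h2, Ne.symm h1, Ne.symm h2]

theorem ini_pair {m a b : ℕ} {T t : List ℕ} (h : IniJ n (m + 1) (a :: T, t)) (hb : b ∈ T) :
    IniJ n m (ipair (a :: T, t) a b) ∧ a ∉ (ipair (a :: T, t) a b).1 ∧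
      (ipair (a :: T, t) a b).2.getD a 0 = b ∧
      (∀ v ∈ (ipair (a :: T, t) a b).1, v ∈ a :: T) ∧
      ∀ v, v ∉ a :: T → (ipair (a :: T, t) a b).2.getD v 0 = t.getD v 0 := by
  obtain ⟨nd, len, lt, tl, mt⟩ := h
  simp only at nd len lt tl mt
  obtain ⟨haT, ndT⟩ := List.nodup_cons.1 nd
  have hab : a ≠ b := fun e => haT (e ▸ hb)
  have han : a < n := lt a (List.mem_cons_self ..)
  have hbn : b < n := lt b (List.mem_cons_of_mem _ hb)
  have hg := ini_getD (t := t) (a := a) (b := b) (tl ▸ han) (tl ▸ hbn)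
  have hm : ∀ v, v ∈ T.erase b ↔ v ≠ b ∧ v ∈ T := fun v => ndT.mem_erase_iff
  simp only [ipair, List.tail_cons]
  refine ⟨⟨ndT.erase b, ?_, fun v hv => lt v (List.mem_cons_of_mem _ ((hm v).1 hv).2), by simpa using tl,
    fun v hv hv' => ?_⟩, fun h => haT ((hm a).1 h).2, by rw [hg, if_neg hab, if_pos rfl],
    fun v hv => List.mem_cons_of_mem _ ((hm v).1 hv).2, fun v hv => ?_⟩
  · simp only [List.length_cons] at len
    simp only [List.length_erase_of_mem hb]
    omega
  · simp only at hv' ⊢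
    by_cases h1 : v = b
    · rw [hg v, if_pos h1, hg a, if_neg hab, if_pos rfl]
      exact ⟨han, fun h => haT ((hm a).1 h).2, h1 ▸ hab, h1.symm⟩
    · by_cases h2 : v = a
      · rw [hg v, if_neg h1, if_pos h2, hg b, if_pos rfl]
        exact ⟨hbn, fun h => ((hm b).1 h).1 rfl, fun e => h1 e.symm, h2.symm⟩
      · have h3 : v ∉ a :: T := fun h => by
          rcases List.mem_cons.1 h with h | h
          · exact h2 h
          · exact hv' ((hm v).2 ⟨h1, h⟩)
        obtain ⟨k1, k2, k3, k4⟩ := mt v hv h3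
        have k5 : t.getD v 0 ≠ b := fun e => k2 (e ▸ List.mem_cons_of_mem _ hb)
        have k6 : t.getD v 0 ≠ a := fun e => k2 (e ▸ List.mem_cons_self ..)
        rw [hg v, if_neg h1, if_neg h2, hg, if_neg k5, if_neg k6]
        exact ⟨k1, fun h => k2 (List.mem_cons_of_mem _ ((hm _).1 h).2), k3, k4⟩
  · have h1 : v ≠ b := fun e => hv (e ▸ List.mem_cons_of_mem _ hb)
    have h2 : v ≠ a := fun e => hv (e ▸ List.mem_cons_self ..)
    rw [hg, if_neg h1, if_neg h2]

theorem ini_cons {m : ℕ} {s : List ℕ × List ℕ} (h : IniJ n (m + 1) s) :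
    ∃ a T t, s = (a :: T, t) ∧ T.length = 2 * m + 1 := by
  obtain ⟨L, t⟩ := s
  have := h.len
  cases L with
  | nil => simp at this
  | cons a T => exact ⟨a, T, t, rfl, by simp at this; omega⟩

theorem ini_mem {T : List ℕ} (hT : 0 < T.length) (r : ℕ) : T.getD (r % T.length) 0 ∈ T := by
  rw [List.getD_eq_getElem _ _ (Nat.mod_lt _ hT)]
  exact List.getElem_mem _

theorem ini_run (ρ : ℕ) : ∀ (m : ℕ) (s : List ℕ × List ℕ) (ω : List Bool), IniJ n m s →
    IniJ n 0 (iter istep ρ m s ω) ∧ ∀ v, v ∉ s.1 → (iter istep ρ m s ω).2.getD v 0 = s.2.getD v 0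
  | 0, s, ω, h => ⟨by simpa using h, fun v _ => by simp⟩
  | m + 1, s, ω, h => by
    obtain ⟨a, T, t, rfl, hT⟩ := ini_cons h
    obtain ⟨k1, -, -, k4, k5⟩ := ini_pair h (ini_mem (T := T) (by omega) (ofBits (ω.take ρ)))
    rw [iter_succ]
    obtain ⟨j1, j2⟩ := ini_run ρ m _ (ω.drop ρ) k1
    exact ⟨j1, fun v hv => (j2 v fun h' => hv (k4 v h')).trans (k5 v hv)⟩

theorem ini_prob (ρ : ℕ) (X : ℕ → ℕ) : ∀ (m : ℕ) (s : List ℕ × List ℕ), IniJ n m s →
    Pr (m * ρ) (fun ω => ∀ v ∈ s.1, (iter istep ρ m s ω).2.getD v 0 = X v) ≤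
      ∏ i ∈ range m, (1 / (2 * (i : ℝ) + 1) + 1 / 2 ^ ρ)
  | 0, s, _ => by simpa using Pr_le_one _ _
  | m + 1, s, h => by
    obtain ⟨a, T, t, rfl, hT⟩ := ini_cons h
    have ndT := (List.nodup_cons.1 h.nd).2
    have e := Ex_iter_succ (f := istep) (ρ := ρ) m (a :: T, t)
      (fun s' => ind (∀ v ∈ a :: T, s'.2.getD v 0 = X v))
    have hP : 0 ≤ ∏ i ∈ range m, (1 / (2 * (i : ℝ) + 1) + 1 / 2 ^ ρ) :=
      prod_nonneg fun i _ => by positivity
    unfold Pr
    rw [e, prod_range_succ, mul_comm (∏ i ∈ range m, _)]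
    refine (Ex_mono (g := fun ω => ind (ofBits ω % T.length = T.idxOf (X a)) *
      ∏ i ∈ range m, (1 / (2 * (i : ℝ) + 1) + 1 / 2 ^ ρ)) fun ω _ => ?_).trans ?_
    · obtain ⟨k1, k2, k3, k4, -⟩ := ini_pair h (ini_mem (T := T) (by omega) (ofBits ω))
      by_cases hc : ofBits ω % T.length = T.idxOf (X a)
      · rw [ind_pos hc, one_mul]
        exact (Pr_mono fun l _ hl v hv => hl v (k4 v hv)).trans (ini_prob ρ X m _ k1)
      · rw [ind_neg hc, zero_mul]
        refine le_of_eq (Pr_false fun l _ hl => hc ?_)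
        have h1 := ((ini_run ρ m _ l k1).2 a k2).symm.trans (hl a (List.mem_cons_self ..))
        rw [k3, List.getD_eq_getElem _ _ (Nat.mod_lt _ (by omega))] at h1
        rw [← h1, ndT.idxOf_getElem]
    · rw [Ex_mul_right]
      refine mul_le_mul_of_nonneg_right ?_ hP
      have := Pr_mod_le ρ (d := T.length) (by omega) (T.idxOf (X a))
      rw [hT] at this ⊢
      push_cast at this
      exact this

theorem ini_dfact (m : ℕ) :
    ((((List.range m).map fun i => 2 * i + 1).prod : ℕ) : ℝ) = ∏ i ∈ range m, (2 * (i : ℝ) + 1) := by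
  induction m with
  | zero => simp
  | succ m ih =>
    rw [List.range_succ, List.map_append, List.prod_append, prod_range_succ, Nat.cast_mul, ih]
    simp

theorem ini_num (h : Fits N n) :
    ∏ i ∈ range (n / 2), (1 / (2 * (i : ℝ) + 1) + 1 / 2 ^ pq N) ≤
      (1 + 1 / (1280 * (N : ℝ) ^ 180)) / dfact n := by
  have hN := h.real_big
  have hN1 : (1 : ℝ) ≤ N := le_trans (by norm_num) hN
  have hN0 : (0 : ℝ) < N := by linarith
  have hQ : (2 : ℝ) ^ pq N = (N : ℝ) ^ 240 := by exact_mod_cast h.two_pow_pq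
  set x : ℝ := N / (N : ℝ) ^ 240 with hx
  have hx0 : 0 ≤ x := by positivity
  have h1 : ∏ i ∈ range (n / 2), (1 / (2 * (i : ℝ) + 1) + 1 / 2 ^ pq N) ≤
      ∏ i ∈ range (n / 2), ((1 + x) / (2 * (i : ℝ) + 1)) := by
    refine prod_le_prod (fun i _ => by positivity) fun i hi => ?_
    have hi' : 2 * (i : ℝ) + 1 ≤ N := by
      have := mem_range.1 hi
      have := h.le
      exact_mod_cast (show 2 * i + 1 ≤ N by omega)
    rw [add_div, hQ, hx]
    refine add_le_add le_rfl ?_
    rw [div_div, div_le_div_iff₀ (by positivity) (by positivity)]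
    nlinarith [pow_pos hN0 240]
  rw [prod_div_distrib, prod_const, card_range, ← ini_dfact] at h1
  refine h1.trans (div_le_div_of_nonneg_right ?_ (Nat.cast_nonneg _))
  have h2 : (1 + x) ^ (n / 2) ≤ Real.exp (N * x) := by
    calc (1 + x) ^ (n / 2) ≤ (1 + x) ^ N :=
          pow_le_pow_right₀ (by linarith) ((Nat.div_le_self _ _).trans h.le)
      _ ≤ Real.exp x ^ N := pow_le_pow_left₀ (by linarith) (by linarith [Real.add_one_le_exp x]) _
      _ = _ := by rw [← Real.exp_nat_mul]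
  have h3 : 2 * (N * x) ≤ 1 / (1280 * (N : ℝ) ^ 180) := by
    have h4 : (2560 : ℝ) ≤ (N : ℝ) ^ 58 :=
      le_trans (le_trans (by norm_num) hN) (le_self_pow₀ hN1 (by norm_num))
    have e : 2 * (N * x) = 2 / ((N : ℝ) ^ 58 * N ^ 180) := by
      rw [hx]; field_simp
    rw [e, div_le_div_iff₀ (by positivity) (by positivity)]
    nlinarith [pow_pos hN0 180]
  have h5 : 1 / (1280 * (N : ℝ) ^ 180) ≤ 1 := by
    rw [div_le_one (by positivity)]
    nlinarith [one_le_pow₀ (n := 180) hN1]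
  have h6 : 0 ≤ N * x := by positivity
  have h7 := Real.abs_exp_sub_one_le (x := N * x) (by rw [abs_of_nonneg h6]; linarith)
  rw [abs_of_nonneg h6] at h7
  linarith [le_abs_self (Real.exp (N * x) - 1)]

theorem exists_init (h : Fits N n) (he : Even n) : ∃ g : List Bool → PM (Fin n),
    (∀ ω, init1 N n ω = toL (g ω)) ∧
      ∀ X, Pr (rho0 N) (fun ω => g ω = X) ≤ (1 + 1 / (1280 * (N : ℝ) ^ 180)) / dfact n := by
  have h0 : IniJ n (n / 2) (List.range n, List.replicate n 0) :=
    ⟨List.nodup_range, by obtain ⟨m, hm⟩ := he; simp; omega, fun v hv => List.mem_range.1 hv,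
      by simp, fun v hv hv' => absurd (List.mem_range.2 hv) hv'⟩
  have hr := fun ω => (ini_run (pq N) (n / 2) _ ω h0).1
  have hm : ∀ ω v, v < n → _ := fun ω v hv => (hr ω).mt v hv (by
    have := (hr ω).len
    rw [List.length_eq_zero_iff.1 this]
    simp)
  refine ⟨fun ω => ⟨fun v => ⟨_, (hm ω v v.2).1⟩, fun v => Fin.ext (hm ω v v.2).2.2.2,
    fun v e => (hm ω v v.2).2.2.1 (congrArg Fin.val e)⟩, fun ω => ?_, fun X => ?_⟩
  · refine List.ext_getElem (by simp [init1, mkL, toL]) fun i h1 h2 => ?_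
    have hi : i < n := by simpa [toL] using h2
    simp only [init1, mkL, toL, List.getElem_map, List.getElem_range, List.getElem_ofFn]
    exact min_eq_left (hm ω i hi).1.le
  · refine le_trans ?_ ((ini_prob (pq N) (fun v => if hv : v < n then (X.f ⟨v, hv⟩).val else 0)
      (n / 2) _ h0).trans (ini_num h))
    have e := Ex_iter (f := istep) (ρ := pq N) (t := n / 2) (n := rho0 N)
      (Nat.mul_le_mul_right _ ((Nat.div_le_self _ _).trans h.le)) (List.range n, List.replicate n 0)
      (fun s' => ind (∀ v ∈ List.range n,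
        s'.2.getD v 0 = if hv : v < n then (X.f ⟨v, hv⟩).val else 0))
    refine le_trans (Pr_mono fun ω _ hω v hv => ?_) (le_of_eq e)
    rw [dif_pos (List.mem_range.1 hv), ← hω]

end Crest.Agent.R304
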