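import Crest.Agent.R304.Defs

/-!
# R304/Metro: Metropolis kernels with labelled proposals (TASK)
-/

set_option autoImplicit false

namespace Crest.Agent.R304

open Finset Crest.Agent.R309

variable {Z Λ : Type} [Fintype Z] [Fintype Λ]

/-- choose a label uniformly, propose `J l z`, accept with the Metropolis probability -/
noncomputable def mkK (μ : Z → ℝ) (J : Λ → Z → Z) (z z' : Z) : ℝ :=
  (∑ l, (min 1 (μ (J l z) / μ z) * ind (J l z = z') +
    (1 - min 1 (μ (J l z) / μ z)) * ind (z = z'))) / Fintype.card Λ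

/-- the Dirichlet form, not normalised -/
noncomputable def Tf (μ : Z → ℝ) (J : Λ → Z → Z) (u : Z → ℝ) : ℝ :=
  ∑ z, ∑ l, min (μ z) (μ (J l z)) * (u (J l z) - u z) ^ 2

/-- every proposal is undone by a proposal -/
structure Prop2 (μ : Z → ℝ) (J : Λ → Z → Z) : Prop where
  pos : ∀ z, 0 < μ z
  inv : ∃ L : Z → Λ → Λ, ∀ z l, J (L z l) (J l z) = z ∧ L (J l z) (L z l) = l

variable {μ : Z → ℝ} {J : Λ → Z → Z}

theorem metro_sum_ind (w : Z) (F : Z → ℝ) : ∑ z', ind (w = z') * F z' = F w := by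
  classical
  simp [ind_eq]

omit [Fintype Z] [Fintype Λ] in
theorem Prop2.mul_min (h : Prop2 μ J) (z w : Z) : μ z * min 1 (μ w / μ z) = min (μ z) (μ w) := by
  rw [mul_min_of_nonneg _ _ (h.pos z).le, mul_one, mul_div_cancel₀ _ (h.pos z).ne']

omit [Fintype Z] [Fintype Λ] in
theorem Prop2.acc_nonneg (h : Prop2 μ J) (z w : Z) : 0 ≤ min 1 (μ w / μ z) :=
  le_min zero_le_one (div_pos (h.pos w) (h.pos z)).le

theorem mkK_apply (z : Z) (F : Z → ℝ) : ∑ z', mkK μ J z z' * F z' =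
    (∑ l, (min 1 (μ (J l z) / μ z) * F (J l z) + (1 - min 1 (μ (J l z) / μ z)) * F z)) /
      Fintype.card Λ := by
  unfold mkK
  simp only [div_mul_eq_mul_div, ← sum_div, sum_mul]
  rw [sum_comm]
  congr 1
  refine sum_congr rfl fun l _ => ?_
  simp only [add_mul, mul_assoc, sum_add_distrib, ← mul_sum, metro_sum_ind]

theorem Prop2.nonneg (h : Prop2 μ J) (z z' : Z) : 0 ≤ mkK μ J z z' := by
  refine div_nonneg (sum_nonneg fun l _ => add_nonneg
    (mul_nonneg (h.acc_nonneg _ _) (ind_nonneg _))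
    (mul_nonneg (sub_nonneg.2 (min_le_left _ _)) (ind_nonneg _))) (Nat.cast_nonneg _)

theorem mkK_row [Nonempty Λ] (z : Z) : ∑ z', mkK μ J z z' = 1 := by
  have h := mkK_apply (μ := μ) (J := J) z fun _ => 1
  have hc : (Fintype.card Λ : ℝ) ≠ 0 := Nat.cast_ne_zero.2 Fintype.card_ne_zero
  simp only [mul_one, add_sub_cancel, sum_const, card_univ, nsmul_eq_mul] at h
  rw [h, div_self hc]

/-- the involution `(z, l) ↦ (J l z, L z l)` -/
theorem Prop2.sum_swap (h : Prop2 μ J) (F : Z → Z → ℝ) :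
    ∑ z, ∑ l, F z (J l z) = ∑ z, ∑ l, F (J l z) z := by
  obtain ⟨L, hL⟩ := h.inv
  have hinv : Function.Involutive fun x : Z × Λ => (J x.2 x.1, L x.1 x.2) := fun x => by
    simp only [(hL x.1 x.2).1, (hL x.1 x.2).2]
  rw [← Fintype.sum_prod_type', ← Fintype.sum_prod_type', ← Equiv.sum_comp hinv.toPerm]
  refine sum_congr rfl fun x _ => ?_
  simp only [Function.Involutive.coe_toPerm, (hL x.1 x.2).1]

theorem Prop2.rev (h : Prop2 μ J) (z z' : Z) : μ z * mkK μ J z z' = μ z' * mkK μ J z' z := by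
  by_cases hz : z = z'
  · rw [hz]
  have key : ∀ x y : Z, x ≠ y → μ x * mkK μ J x y =
      min (μ x) (μ y) * (∑ l, ind (J l x = y)) / Fintype.card Λ := by
    intro x y hxy
    unfold mkK
    rw [← mul_div_assoc, mul_sum, mul_sum]
    congr 1
    refine sum_congr rfl fun l _ => ?_
    rw [ind_neg hxy, mul_zero, add_zero, ← mul_assoc, h.mul_min]
    by_cases hl : J l x = y
    · rw [hl]
    · rw [ind_neg hl, mul_zero, mul_zero]
  have hs := h.sum_swap fun x y => ind (z = x) * ind (y = z')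
  have e1 : ∑ x, ∑ l, ind (z = x) * ind (J l x = z') = ∑ l, ind (J l z = z') := by
    simp only [← mul_sum]
    exact metro_sum_ind z fun x => ∑ l, ind (J l x = z')
  have e2 : ∑ x, ∑ l, ind (z = J l x) * ind (x = z') = ∑ l, ind (J l z' = z) := by
    rw [← metro_sum_ind z' fun x => ∑ l, ind (J l x = z)]
    refine sum_congr rfl fun x _ => ?_
    rw [mul_sum]
    refine sum_congr rfl fun l _ => ?_
    rw [mul_comm]
    simp only [eq_comm]
  rw [key z z' hz, key z' z (Ne.symm hz), min_comm, ← e1, hs, e2]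

theorem Prop2.dir [Nonempty Λ] (h : Prop2 μ J) (u : Z → ℝ) :
    ∑ z, μ z * u z ^ 2 - ∑ z, μ z * (u z * ∑ z', mkK μ J z z' * u z') =
      Tf μ J u / (2 * Fintype.card Λ) := by
  have hc : (Fintype.card Λ : ℝ) ≠ 0 := Nat.cast_ne_zero.2 Fintype.card_ne_zero
  have h1 : ∀ z, μ z * u z ^ 2 - μ z * (u z * ∑ z', mkK μ J z z' * u z') =
      (∑ l, min (μ z) (μ (J l z)) * (u z * (u z - u (J l z)))) / Fintype.card Λ := by
    intro z
    rw [mkK_apply, eq_div_iff hc, sub_mul, mul_assoc (μ z) (u z * _), mul_assoc (u z),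
      div_mul_cancel₀ _ hc, mul_sum, mul_sum, ← card_univ, mul_comm _ ((univ : Finset Λ).card : ℝ),
      ← nsmul_eq_mul, ← sum_const, ← sum_sub_distrib]
    refine sum_congr rfl fun l _ => ?_
    rw [← h.mul_min]
    ring
  have h2 := h.sum_swap fun x y => min (μ x) (μ y) * (u x * (u x - u y))
  have h3 : Tf μ J u = ∑ z, ∑ l, min (μ z) (μ (J l z)) * (u z * (u z - u (J l z))) +
      ∑ z, ∑ l, min (μ (J l z)) (μ z) * (u (J l z) * (u (J l z) - u z)) := by
    unfold Tf
    rw [← sum_add_distrib]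
    refine sum_congr rfl fun z _ => ?_
    rw [← sum_add_distrib]
    refine sum_congr rfl fun l _ => ?_
    rw [min_comm (μ (J l z))]
    ring
  rw [← sum_sub_distrib, sum_congr rfl fun z _ => h1 z, ← sum_div, h3, ← h2]
  field_simp
  ring

theorem Prop2.Tf_le (h : Prop2 μ J) (u : Z → ℝ) :
    Tf μ J u ≤ 4 * Fintype.card Λ * ∑ z, μ z * u z ^ 2 := by
  have h2 := h.sum_swap fun x _ => μ x * u x ^ 2
  have h3 : ∑ z, ∑ _l : Λ, μ z * u z ^ 2 = Fintype.card Λ * ∑ z, μ z * u z ^ 2 := by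
    simp only [sum_const, card_univ, nsmul_eq_mul, mul_sum]
  calc Tf μ J u ≤ ∑ z, ∑ l, (2 * (μ z * u z ^ 2) + 2 * (μ (J l z) * u (J l z) ^ 2)) := by
        refine sum_le_sum fun z _ => sum_le_sum fun l _ => ?_
        have m0 : 0 ≤ min (μ z) (μ (J l z)) := le_min (h.pos _).le (h.pos _).le
        have m1 := mul_le_mul_of_nonneg_right (min_le_left (μ z) (μ (J l z))) (sq_nonneg (u z))
        have m2 := mul_le_mul_of_nonneg_right (min_le_right (μ z) (μ (J l z)))
          (sq_nonneg (u (J l z)))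
        nlinarith [mul_nonneg m0 (sq_nonneg (u (J l z) + u z))]
    _ = _ := by
        simp only [sum_add_distrib, ← mul_sum _ _ (2 : ℝ)]
        rw [← h2, h3]
        ring

theorem Prop2.Tf_add (h : Prop2 μ J) (u v : Z → ℝ) :
    Tf μ J (fun z => u z + v z) ≤ 2 * Tf μ J u + 2 * Tf μ J v := by
  unfold Tf
  simp only [mul_sum, ← sum_add_distrib]
  refine sum_le_sum fun z _ => sum_le_sum fun l _ => ?_
  have m0 : 0 ≤ min (μ z) (μ (J l z)) := le_min (h.pos _).le (h.pos _).le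
  nlinarith [mul_nonneg m0 (sq_nonneg ((u (J l z) - u z) - (v (J l z) - v z)))]

/-- If half of the labels do nothing, `P' = 2 P - 1` is a reversible Markov kernel, so `‖P' u‖ ≤ ‖u‖` (Jensen, stationarity), and `⟨u, P u⟩ - ‖P u‖² = (‖u‖² - ‖P' u‖²) / 4`. -/
theorem Prop2.lazy [Nonempty Λ] (h : Prop2 μ J) (S : Finset Λ) (hS : ∀ l ∈ S, ∀ z, J l z = z)
    (hc : Fintype.card Λ ≤ 2 * S.card) (u : Z → ℝ) :
    ∑ z, μ z * (∑ z', mkK μ J z z' * u z') ^ 2 ≤
      ∑ z, μ z * u z ^ 2 - Tf μ J u / (2 * Fintype.card Λ) := by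
  classical
  have hc0 : (0 : ℝ) < Fintype.card Λ := Nat.cast_pos.2 Fintype.card_pos
  have hdiag : ∀ z, 1 ≤ 2 * mkK μ J z z := by
    intro z
    have h1 : (S.card : ℝ) ≤ ∑ l, (min 1 (μ (J l z) / μ z) * ind (J l z = z) +
        (1 - min 1 (μ (J l z) / μ z)) * ind (z = z)) := by
      refine le_trans (le_of_eq ?_) (sum_le_sum_of_subset_of_nonneg (subset_univ S)
        fun l _ _ => add_nonneg (mul_nonneg (h.acc_nonneg _ _) (ind_nonneg _))
          (mul_nonneg (sub_nonneg.2 (min_le_left _ _)) (ind_nonneg _)))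
      rw [card_eq_sum_ones, Nat.cast_sum]
      refine sum_congr rfl fun l hl => ?_
      rw [ind_pos (hS l hl z), ind_pos rfl]
      simp
    have h2 : (Fintype.card Λ : ℝ) ≤ 2 * S.card := by exact_mod_cast hc
    unfold mkK
    rw [← mul_div_assoc, one_le_div hc0]
    linarith
  set P : Z → Z → ℝ := fun z z' => 2 * mkK μ J z z' - ind (z = z') with hP
  have hP0 : ∀ z z', 0 ≤ P z z' := by
    intro z z'
    simp only [hP]
    by_cases hz : z = z'
    · rw [ind_pos hz, ← hz]; linarith [hdiag z]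
    · rw [ind_neg hz]; linarith [h.nonneg z z']
  have hPa : ∀ z (F : Z → ℝ), ∑ z', P z z' * F z' = 2 * ∑ z', mkK μ J z z' * F z' - F z := by
    intro z F
    simp only [hP, sub_mul, sum_sub_distrib, metro_sum_ind, mul_assoc, ← mul_sum]
  have hP1 : ∀ z, ∑ z', P z z' = 1 := by
    intro z
    have := hPa z fun _ => 1
    simp only [mul_one, mkK_row] at this
    linarith
  have hJ : ∀ z, (∑ z', P z z' * u z') ^ 2 ≤ ∑ z', P z z' * u z' ^ 2 := by
    intro z
    set m := ∑ z', P z z' * u z' with hm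
    have h1 : 0 ≤ ∑ z', P z z' * (u z' - m) ^ 2 :=
      sum_nonneg fun z' _ => mul_nonneg (hP0 z z') (sq_nonneg _)
    have h2 : ∀ z', P z z' * (u z' - m) ^ 2 =
        P z z' * u z' ^ 2 - 2 * m * (P z z' * u z') + m ^ 2 * P z z' := fun z' => by ring
    simp only [h2, sum_add_distrib, sum_sub_distrib, ← mul_sum, hP1, ← hm] at h1
    nlinarith
  have hst : ∑ z, μ z * ∑ z', mkK μ J z z' * u z' ^ 2 = ∑ z, μ z * u z ^ 2 := by
    simp only [mul_sum, ← mul_assoc]
    rw [sum_comm]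
    refine sum_congr rfl fun z _ => ?_
    simp only [fun z' => h.rev z' z]
    rw [← sum_mul, ← mul_sum, mkK_row, mul_one]
  have h3 : ∑ z, μ z * (2 * ∑ z', mkK μ J z z' * u z' - u z) ^ 2 ≤ ∑ z, μ z * u z ^ 2 := by
    calc _ ≤ ∑ z, μ z * (2 * ∑ z', mkK μ J z z' * u z' ^ 2 - u z ^ 2) := by
          refine sum_le_sum fun z _ => mul_le_mul_of_nonneg_left ?_ (h.pos z).le
          rw [← hPa z u, ← hPa z fun z' => u z' ^ 2]
          exact hJ z
      _ = _ := by
          simp only [mul_sub, sum_sub_distrib, mul_left_comm _ (2 : ℝ), ← mul_sum, hst]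
          ring
  have h4 : ∀ z, μ z * (2 * ∑ z', mkK μ J z z' * u z' - u z) ^ 2 =
      4 * (μ z * (∑ z', mkK μ J z z' * u z') ^ 2) - 4 * (μ z * (u z * ∑ z', mkK μ J z z' * u z')) +
        μ z * u z ^ 2 := fun z => by ring
  simp only [h4, sum_add_distrib, sum_sub_distrib, ← mul_sum] at h3
  rw [← h.dir u]
  linarith

end Crest.Agent.R304
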