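import Crest.Agent.R304.Pop2

/-!
# R304/Pop3: mixing of the population chain (TASK)

Let `e i` be the basis of `exists_onb`, `E i x = ∏ a, e (i a) (x a)`, `A i j = ∑_{z, z'} p z.1 p z.2 * P z z' * e i.1 z'.1 * e i.2 z'.2 * e j.1 z.1 * e j.2 z.2`, so that
`∑_{z'} P z z' e i.1 z'.1 e i.2 z'.2 = ∑_j A i j e j.1 z.1 e j.2 z.2`.  `coefK`: for `f = ∑_j v j (e j.1 ⊗ e j.2)`, reversibility gives `(A v) i = ⟨e i, P f⟩`, so `‖A v‖ = ‖P f‖` (Parseval); `‖P f‖ ≤ ‖f‖` by Jensen and stationarity.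
`popOp P M (E i) = fun x => popOp A M (fun j => E j x) i`.  Hence `c t i = ∑_x (∏ ν (x a)) * (popOp P M)^[t] (E i) x` satisfies `c (t+1) = popOp A M (c t)` (linearity of the iterates), `c t (const i0) = 1`,
`c 0 i = ∏ a, νh (i a)` with `νh i = ∑ ν e i`, `νh i0 = 1`, `∑ νh² = ∑ ν² / p ≤ 1 + ζ`, so `∑ (1 + γ/4)^deg c² ≤ (1 + 2 ζ)^K` (`Finset.prod_univ_sum`).
Expand `F = ∑_i Fh i * E i`, `∑ Fh² = ∑ (∏ p) F² ≤ 1`, `Fh (const i0) = ∑ (∏ p) F`; Cauchy-Schwarz and `coef_decay`.
-/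

set_option autoImplicit false

namespace Crest.Agent.R304

open Finset Crest.Agent.R309

variable {Ω : Type} [Fintype Ω] [DecidableEq Ω] {p : Ω → ℝ}

/-- Householder reflection: `w = √p - δ_{i0}`, `H = 1 - 2 w wᵀ / |w|²` is symmetric, `H² = 1`, `H δ_{i0} = √p` (also if `w = 0`); `e i x = H i x / √(p x)`. -/
theorem exists_onb (hp : ∀ x, 0 < p x) (hp1 : ∑ x, p x = 1) (i0 : Ω) : ∃ e : Ω → Ω → ℝ,
    (∀ x, e i0 x = 1) ∧ (∀ i j, ∑ x, p x * (e i x * e j x) = if i = j then 1 else 0) ∧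
      ∀ x y, p y * ∑ i, e i x * e i y = if x = y then 1 else 0 := by
  let q : Ω → ℝ := fun x => √(p x)
  have hq : ∀ x, 0 < q x := fun x => Real.sqrt_pos.2 (hp x)
  have hq2 : ∀ x, p x = q x * q x := fun x => (Real.mul_self_sqrt (hp x).le).symm
  let w : Ω → ℝ := fun x => q x - if x = i0 then 1 else 0
  obtain ⟨s, hs⟩ : ∃ s, s = ∑ x, w x * w x := ⟨_, rfl⟩
  have hs1 : s = -2 * w i0 := by
    have e : ∀ x, w x * w x = p x - 2 * (if x = i0 then q x else 0) + if x = i0 then 1 else 0 :=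
      fun x => by
        rw [hq2]
        simp only [w]
        split_ifs <;> ring
    simp only [hs, e, sum_add_distrib, sum_sub_distrib, ← mul_sum, sum_ite_eq', mem_univ, if_true,
      hp1]
    simp only [w, if_true]
    ring
  let H : Ω → Ω → ℝ := fun x y => (if x = y then 1 else 0) - 2 / s * (w x * w y)
  have hH : ∀ x y, H x y = H y x := fun x y => by
    simp only [H, eq_comm (a := x), mul_comm (w x)]
  have hHH : ∀ i j, ∑ x, H i x * H j x = if i = j then 1 else 0 := fun i j => by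
    have e : ∀ x, H i x * H j x = (if i = x then (if j = x then 1 else 0) else 0) -
        (if i = x then 2 / s * (w j * w x) else 0) - (if j = x then 2 / s * (w i * w x) else 0) +
        (2 / s) ^ 2 * (w i * w j) * (w x * w x) := fun x => by
      simp only [H]
      split_ifs <;> ring
    simp only [e, sum_add_distrib, sum_sub_distrib, ← mul_sum, sum_ite_eq, mem_univ, if_true, ← hs]
    simp only [eq_comm (a := j)]
    by_cases h0 : s = 0
    · simp [h0]
    · field_simp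
      ring
  have hH0 : ∀ x, H i0 x = q x := fun x => by
    have e : q x = (if i0 = x then 1 else 0) + w x := by simp [w, eq_comm (a := x)]
    rw [e]
    by_cases h0 : s = 0
    · have h1 : w x * w x = 0 := (sum_eq_zero_iff_of_nonneg fun y _ => mul_self_nonneg (w y)).1
        (hs.symm.trans h0) x (mem_univ x)
      simp [H, mul_self_eq_zero.1 h1]
    · have h1 : w i0 ≠ 0 := fun h1 => h0 (by rw [hs1, h1, mul_zero])
      simp only [H]
      rw [hs1]
      field_simp
      ring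
  refine ⟨fun i x => H i x / q x, fun x => by simp only [hH0, div_self (hq x).ne'], fun i j => ?_,
    fun x y => ?_⟩
  · rw [← hHH]
    refine sum_congr rfl fun x _ => ?_
    have := (hq x).ne'
    rw [hq2]
    field_simp
  · have e : ∀ i, H i x / q x * (H i y / q y) = H x i * H y i / (q x * q y) := fun i => by
      rw [hH i x, hH i y, div_mul_div_comm]
    simp only [e, ← sum_div, hHH]
    split_ifs with h
    · rw [h, ← hq2, mul_one_div_cancel (hp y).ne']
    · simp

/-- an orthonormal basis of `L²(π)` -/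
structure Onb {X : Type} [Fintype X] [DecidableEq X] (π : X → ℝ) (e : X → X → ℝ) : Prop where
  orth : ∀ i j, ∑ x, π x * (e i x * e j x) = if i = j then 1 else 0
  comp : ∀ x y, π y * ∑ i, e i x * e i y = if x = y then 1 else 0

section onb

variable {X : Type} [Fintype X] [DecidableEq X] {π : X → ℝ} {e : X → X → ℝ}

theorem Onb.expand (h : Onb π e) (f : X → ℝ) (x : X) :
    ∑ i, (∑ y, π y * (f y * e i y)) * e i x = f x := by
  simp only [sum_mul]
  rw [sum_comm]
  have e1 : ∀ y, ∑ i, π y * (f y * e i y) * e i x = if x = y then f y else 0 := fun y => by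
    rw [← mul_boole, ← h.comp x y, mul_sum, mul_sum]
    exact sum_congr rfl fun i _ => by ring
  simp [e1]

theorem Onb.parseval (h : Onb π e) (f : X → ℝ) :
    ∑ i, (∑ y, π y * (f y * e i y)) ^ 2 = ∑ y, π y * f y ^ 2 := by
  have e1 : ∀ i, (∑ y, π y * (f y * e i y)) ^ 2 =
      ∑ x, π x * f x * ((∑ y, π y * (f y * e i y)) * e i x) := fun i => by
    rw [sq]
    generalize hc : ∑ y, π y * (f y * e i y) = c
    nth_rewrite 2 [← hc]
    rw [mul_sum]
    exact sum_congr rfl fun x _ => by ring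
  simp only [e1]
  rw [sum_comm]
  refine sum_congr rfl fun x _ => ?_
  rw [← mul_sum, h.expand]
  ring

theorem Onb.coef (h : Onb π e) (v : X → ℝ) (i : X) :
    ∑ y, π y * ((∑ j, v j * e j y) * e i y) = v i := by
  simp only [sum_mul, mul_sum]
  rw [sum_comm]
  have e1 : ∀ j, ∑ y, π y * (v j * e j y * e i y) = if j = i then v j else 0 := fun j => by
    rw [← mul_boole, ← h.orth j i, mul_sum]
    exact sum_congr rfl fun i _ => by ring
  simp [e1]

theorem Onb.synth (h : Onb π e) (v : X → ℝ) :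
    ∑ y, π y * (∑ j, v j * e j y) ^ 2 = ∑ j, v j ^ 2 := by
  rw [← h.parseval]
  simp only [h.coef]

theorem Onb.pi (h : Onb π e) (K : ℕ) :
    Onb (fun x : Fin K → X => ∏ a, π (x a)) fun i x => ∏ a, e (i a) (x a) := by
  constructor
  · intro i j
    simp only [← prod_mul_distrib]
    rw [← Fintype.piFinset_univ,
      ← prod_univ_sum (fun _ => univ) fun a y => π y * (e (i a) y * e (j a) y)]
    simp only [h.orth, prod_boole, mem_univ, true_imp_iff, funext_iff]
  · intro x y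
    simp only [← prod_mul_distrib]
    rw [← Fintype.piFinset_univ,
      ← prod_univ_sum (fun _ => univ) fun a i => e i (x a) * e i (y a), ← prod_mul_distrib]
    simp only [h.comp, prod_boole, mem_univ, true_imp_iff, funext_iff]

theorem Onb.pair (h : Onb π e) :
    Onb (fun z : X × X => π z.1 * π z.2) fun i z => e i.1 z.1 * e i.2 z.2 := by
  constructor
  · intro i j
    have e1 : (if i = j then (1 : ℝ) else 0) =
        (if i.1 = j.1 then 1 else 0) * if i.2 = j.2 then 1 else 0 := by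
      simp only [Prod.ext_iff, ite_and, boole_mul]
    rw [e1, ← h.orth, ← h.orth, sum_mul_sum, Fintype.sum_prod_type]
    exact sum_congr rfl fun _ _ => sum_congr rfl fun _ _ => by ring
  · intro x y
    have e1 : (if x = y then (1 : ℝ) else 0) =
        (if x.1 = y.1 then 1 else 0) * if x.2 = y.2 then 1 else 0 := by
      simp only [Prod.ext_iff, ite_and, boole_mul]
    rw [e1, ← h.comp, ← h.comp, mul_mul_mul_comm, sum_mul_sum, Fintype.sum_prod_type]
    congr 1
    exact sum_congr rfl fun _ _ => sum_congr rfl fun _ _ => by ring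

end onb

/-- the pair kernel in the basis `e ⊗ e` -/
noncomputable def pop3A (p : Ω → ℝ) (P : Ω × Ω → Ω × Ω → ℝ) (e : Ω → Ω → ℝ) (i j : Ω × Ω) : ℝ :=
  ∑ z : Ω × Ω, p z.1 * p z.2 *
    ((∑ z', P z z' * (e i.1 z'.1 * e i.2 z'.2)) * (e j.1 z.1 * e j.2 z.2))

omit [DecidableEq Ω] in
theorem pop3_rev {P : Ω × Ω → Ω × Ω → ℝ} {γ : ℝ} (hP : PairK p P γ) (f g : Ω × Ω → ℝ) :
    ∑ z : Ω × Ω, p z.1 * p z.2 * ((∑ z', P z z' * f z') * g z) =
      ∑ z : Ω × Ω, p z.1 * p z.2 * ((∑ z', P z z' * g z') * f z) := by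
  simp only [sum_mul, mul_sum]
  rw [sum_comm]
  exact sum_congr rfl fun z _ => sum_congr rfl fun z' _ => by
    linear_combination (f z * g z') * hP.rev z' z

theorem pop3_coefK {P : Ω × Ω → Ω × Ω → ℝ} {γ : ℝ} (hp : ∀ x, 0 < p x) (hP : PairK p P γ)
    {e : Ω → Ω → ℝ} {i0 : Ω} (h0 : ∀ x, e i0 x = 1) (h : Onb p e) : CoefK i0 (pop3A p P e) γ := by
  have hr : ∀ j, pop3A p P e (i0, i0) j = if j = (i0, i0) then 1 else 0 := fun j => by
    rw [← h.pair.orth]
    simp only [pop3A, h0, mul_one, hP.row, one_mul]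
  have hA : ∀ (v : Ω × Ω → ℝ), ∑ i, (∑ j, pop3A p P e i j * v j) ^ 2 = ∑ z : Ω × Ω, p z.1 * p z.2 *
      (∑ z', P z z' * ∑ j, v j * (e j.1 z'.1 * e j.2 z'.2)) ^ 2 := fun v => by
    rw [← h.pair.parseval]
    refine sum_congr rfl fun i _ => ?_
    rw [← pop3_rev hP]
    congr 1
    rw [sum_congr rfl fun j _ => show pop3A p P e i j * v j = _ from sum_mul _ _ _, sum_comm]
    refine sum_congr rfl fun z _ => ?_
    rw [mul_sum, mul_sum]
    exact sum_congr rfl fun j _ => by ring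
  refine ⟨hr, fun j => by rw [pop3A, pop3_rev hP]; exact hr j, fun v => ?_, fun v hv => ?_⟩
  · rw [hA, ← h.pair.synth]
    generalize hf : (fun z' : Ω × Ω => ∑ j, v j * (e j.1 z'.1 * e j.2 z'.2)) = f
    simp only [congrFun hf]
    have h1 := pop3_rev hP (fun z => f z ^ 2) fun _ => 1
    simp only [mul_one, hP.row, one_mul] at h1
    rw [← h1]
    refine sum_le_sum fun z _ => mul_le_mul_of_nonneg_left ?_ (mul_pos (hp _) (hp _)).le
    have h2 := sum_sq_le_sum_mul_sum_of_sq_le_mul univ (r := fun z' => P z z' * f z')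
      (f := fun z' => P z z') (g := fun z' => P z z' * f z' ^ 2) (fun z' _ => hP.nonneg z z')
      (fun z' _ => mul_nonneg (hP.nonneg z z') (sq_nonneg _)) fun z' _ => le_of_eq (by ring)
    rwa [hP.row, one_mul] at h2
  · have hs : ∀ g : Ω × Ω → ℝ → ℝ, (∀ j, g j 0 = 0) →
        ∑ j, g j (v j) = ∑ k, g (k, i0) (v (k, i0)) + ∑ k, g (i0, k) (v (i0, k)) := fun g hg => by
      have e1 : ∀ k l, g (k, l) (v (k, l)) = (if l = i0 then g (k, l) (v (k, l)) else 0) +
          if k = i0 then g (k, l) (v (k, l)) else 0 := fun k l => by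
        by_cases hk : k = i0 <;> by_cases hl : l = i0
        · rw [hv _ (by simp [dg, hk, hl]), hg]
          simp
        · simp [hk, hl]
        · simp [hk, hl]
        · rw [hv _ (by simp [dg, hk, hl]), hg]
          simp
      rw [Fintype.sum_prod_type, sum_congr rfl fun k _ => sum_congr rfl fun l _ => e1 k l]
      simp only [sum_add_distrib]
      rw [sum_comm (f := fun k l => if k = i0 then g (k, l) (v (k, l)) else 0)]
      simp only [sum_ite_eq', mem_univ, if_true]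
    have e2 : ∀ z' : Ω × Ω, ∑ j, v j * (e j.1 z'.1 * e j.2 z'.2) =
        ∑ k, v (k, i0) * e k z'.1 + ∑ k, v (i0, k) * e k z'.2 := fun z' => by
      simpa only [h0, mul_one, one_mul] using
        hs (fun j t => t * (e j.1 z'.1 * e j.2 z'.2)) fun _ => zero_mul _
    have e3 : ∀ u : Ω → ℝ, ∑ x, p x * ∑ k, u k * e k x = u i0 := fun u => by
      simpa only [h0, mul_one] using h.coef u i0
    have hv0 : v (i0, i0) = 0 := hv _ (by simp [dg])
    rw [hA, hs (fun _ t => t ^ 2) fun _ => by simp, ← h.synth, ← h.synth]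
    simp only [e2]
    exact hP.gap (fun x => ∑ k, v (k, i0) * e k x) (fun x => ∑ k, v (i0, k) * e k x)
      ((e3 _).trans hv0) ((e3 _).trans hv0)

theorem pop3_lin {K : ℕ} (P : Ω × Ω → Ω × Ω → ℝ) (M : ℕ) :
    ∃ Q : (Fin K → Ω) → (Fin K → Ω) → ℝ, ∀ F x, popOp P M F x = ∑ y, Q x y * F y := by
  refine ⟨fun x y => popOp P M (fun y' => if y' = y then 1 else 0) x, fun F x => ?_⟩
  simp only [popOp, div_mul_eq_mul_div, ← sum_div, add_mul, sum_add_distrib, sum_mul]
  congr 2
  · refine Eq.trans (sum_congr rfl fun a _ => ?_) sum_comm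
    refine Eq.trans (sum_congr rfl fun b _ => ?_) sum_comm
    split_ifs
    · simp
    · simp only [sum_mul]
      rw [sum_comm]
      simp
  · simp

theorem pop3_iter {K : ℕ} (P : Ω × Ω → Ω × Ω → ℝ) (M t : ℕ) {κ : Type} [Fintype κ] (a : κ → ℝ)
    (f : κ → (Fin K → Ω) → ℝ) : (popOp P M)^[t] (fun x => ∑ j, a j * f j x) =
      fun x => ∑ j, a j * (popOp P M)^[t] (f j) x := by
  obtain ⟨Q, hQ⟩ := pop3_lin (K := K) P M
  induction t with
  | zero => rfl
  | succ t ih =>
    funext x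
    simp only [Function.iterate_succ_apply', ih, hQ, mul_sum]
    rw [sum_comm]
    exact sum_congr rfl fun _ _ => sum_congr rfl fun _ _ => by ring

theorem pop3_basis {K : ℕ} (P : Ω × Ω → Ω × Ω → ℝ) (M : ℕ) {e : Ω → Ω → ℝ} (h : Onb p e)
    (i x : Fin K → Ω) : popOp P M (fun x => ∏ a, e (i a) (x a)) x =
      popOp (pop3A p P e) M (fun j => ∏ a, e (j a) (x a)) i := by
  unfold popOp
  congr 2
  refine sum_congr rfl fun a _ => sum_congr rfl fun b _ => ?_
  split_ifs with hab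
  · rfl
  simp only [prod_upd2 hab fun c y => e (i c) y, prod_upd2 hab fun c k => e k (x c), ← mul_assoc,
    ← sum_mul]
  congr 1
  simp only [mul_assoc]
  exact (h.pair.expand (fun z => ∑ z', P z z' * (e (i a) z'.1 * e (i b) z'.2)) (x a, x b)).symm

omit [DecidableEq Ω] in
theorem pop3_one {K : ℕ} {P : Ω × Ω → Ω × Ω → ℝ} {M : ℕ} (hM : 0 < M) (hP : ∀ z, ∑ z', P z z' = 1) :
    popOp P M (fun _ : Fin K → Ω => (1 : ℝ)) = fun _ => 1 := by
  funext x
  have e : ∀ a b : Fin K, (if a = b then (0 : ℝ) else 1) = 1 - if a = b then 1 else 0 :=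
    fun a b => by split_ifs <;> simp
  simp only [popOp, mul_one, hP, e, sum_sub_distrib, sum_ite_eq, mem_univ, if_true, sum_const,
    card_univ, Fintype.card_fin, nsmul_eq_mul]
  rw [div_eq_one_iff_eq (Nat.cast_pos.2 hM).ne']
  ring

theorem pop_mix {ν : Ω → ℝ} {P : Ω × Ω → Ω × Ω → ℝ} {G K M T : ℕ} (hp : ∀ x, 0 < p x)
    (hp1 : ∑ x, p x = 1) (hP : PairK p P (1 / G)) (hG : 4096 ≤ G) (hK : G ^ 5 ≤ K)
    (hK' : K ≤ 2 ^ G) (hM : K ^ 2 ≤ M) (hM' : M ≤ 16 * K ^ 2) (hT : K ^ 2 ≤ T) (hT' : T ≤ 8 ^ G)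
    (hν0 : ∀ x, 0 ≤ ν x) (hν1 : ∑ x, ν x = 1)
    (hν : ∀ x, ν x ≤ (1 + 1 / (1280 * (G : ℝ) ^ 3)) * p x) (F : (Fin K → Ω) → ℝ)
    (hF : ∀ x, |F x| ≤ 1) :
    |∑ x : Fin K → Ω, (∏ a, ν (x a)) * (popOp P M)^[T] F x -
      ∑ x : Fin K → Ω, (∏ a, p (x a)) * F x| ≤ (1 / 2) ^ G := by
  have hg : (4096 : ℝ) ≤ G := by exact_mod_cast hG
  obtain ⟨i0⟩ : Nonempty Ω := by
    by_contra hne
    rw [not_nonempty_iff] at hne
    simp at hp1
  obtain ⟨e, h0, h1, h2⟩ := exists_onb hp hp1 i0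
  have h : Onb p e := ⟨h1, h2⟩
  have hM0 : 0 < M := lt_of_lt_of_le (pow_pos (lt_of_lt_of_le (by positivity) hK) 2) hM
  let c : ℕ → (Fin K → Ω) → ℝ := fun t i =>
    ∑ x : Fin K → Ω, (∏ a, ν (x a)) * (popOp P M)^[t] (fun x => ∏ a, e (i a) (x a)) x
  have hc : ∀ t, c t = (popOp (pop3A p P e) M)^[t] (c 0) := fun t => by
    obtain ⟨Q, hQ⟩ := pop3_lin (K := K) (pop3A p P e) M
    induction t with
    | zero => rfl
    | succ t ih =>
      rw [Function.iterate_succ_apply', ← ih]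
      funext i
      have e1 : popOp P M (fun x => ∏ a, e (i a) (x a)) =
          fun x => ∑ j, Q i j * ∏ a, e (j a) (x a) := by
        funext x
        rw [pop3_basis P M h, hQ]
      simp only [c, Function.iterate_succ_apply, e1, pop3_iter, hQ, mul_sum]
      rw [sum_comm]
      exact sum_congr rfl fun _ _ => sum_congr rfl fun _ _ => by ring
  have hc1 : c T (fun _ => i0) = 1 := by
    simp only [c, h0, prod_const_one]
    rw [Function.iterate_fixed (pop3_one hM0 hP.row)]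
    simp only [mul_one]
    rw [← Fintype.piFinset_univ, ← prod_univ_sum (fun _ => univ) fun _ y => ν y]
    simp [hν1]
  let νh : Ω → ℝ := fun k => ∑ y, p y * (ν y / p y * e k y)
  have hνh : ∀ k, νh k = ∑ y, ν y * e k y := fun k => sum_congr rfl fun y _ => by
    rw [← mul_assoc, mul_div_cancel₀ _ (hp y).ne']
  have hc0 : ∀ i, c 0 i = ∏ a, νh (i a) := fun i => by
    simp only [c, Function.iterate_zero, id, ← prod_mul_distrib, hνh]
    rw [← Fintype.piFinset_univ, ← prod_univ_sum (fun _ => univ) fun a y => ν y * e (i a) y]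
  obtain ⟨ζ, hζ⟩ : ∃ ζ, ζ = 1 / (1280 * (G : ℝ) ^ 3) := ⟨_, rfl⟩
  obtain ⟨r, hr⟩ : ∃ r, r = 1 + 1 / (4 * (G : ℝ)) := ⟨_, rfl⟩
  have hζ0 : 0 ≤ ζ := by rw [hζ]; positivity
  have hr1 : 1 ≤ r := by rw [hr]; exact le_add_of_nonneg_right (by positivity)
  have hr2 : r ≤ 2 := by
    have : 1 / (4 * (G : ℝ)) ≤ 1 := (div_le_one (by positivity)).2 (by linarith)
    linarith
  have a1 : ∑ k, νh k ^ 2 ≤ 1 + ζ := by
    rw [h.parseval, ← mul_one (1 + ζ)]
    nth_rewrite 2 [← hν1]
    rw [mul_sum]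
    refine sum_le_sum fun y _ => ?_
    have h3 : ν y / p y ≤ 1 + ζ := by rw [div_le_iff₀ (hp y), hζ]; exact hν y
    rw [sq, ← mul_assoc, mul_div_cancel₀ _ (hp y).ne', mul_comm]
    exact mul_le_mul_of_nonneg_right h3 (hν0 y)
  have a2 : ∑ k, (if k = i0 then 1 else r) * νh k ^ 2 ≤ Real.exp (2 * ζ) := by
    have e1 : ∀ k, (if k = i0 then 1 else r) * νh k ^ 2 =
        r * νh k ^ 2 - if k = i0 then r - 1 else 0 := fun k => by
      split_ifs with hk
      · simp [hk, hνh, h0, hν1]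
      · simp
    simp only [e1, sum_sub_distrib, ← mul_sum, sum_ite_eq', mem_univ, if_true]
    have h3 := mul_le_mul_of_nonneg_left a1 (zero_le_one.trans hr1)
    have h4 := mul_le_mul_of_nonneg_right hr2 hζ0
    linarith [Real.add_one_le_exp (2 * ζ)]
  have a3 : ∑ i, r ^ deg i0 i * c 0 i ^ 2 ≤ Real.exp (K / (640 * (G : ℝ) ^ 3)) := by
    have e1 : ∀ i : Fin K → Ω, r ^ deg i0 i * c 0 i ^ 2 =
        ∏ a, (if i a = i0 then 1 else r) * νh (i a) ^ 2 := fun i => by
      rw [hc0, deg_eq_sum, ← prod_pow_eq_pow_sum, ← prod_pow, ← prod_mul_distrib]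
      exact prod_congr rfl fun a _ => by split_ifs <;> simp
    simp only [e1]
    rw [← Fintype.piFinset_univ,
      ← prod_univ_sum (fun _ => univ) fun _ k => (if k = i0 then 1 else r) * νh k ^ 2,
      prod_const, card_univ, Fintype.card_fin]
    refine (pow_le_pow_left₀ (sum_nonneg fun k _ => mul_nonneg (by split_ifs <;> linarith)
      (sq_nonneg _)) a2 K).trans (le_of_eq ?_)
    rw [← Real.exp_nat_mul, hζ]
    congr 1
    field_simp
    ring
  have a4 := coef_decay (pop3_coefK hp hP h0 h) hG hK hK' hM hM' hT hT' (c 0) (hr ▸ a3)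
  rw [← hc] at a4
  let Fh : (Fin K → Ω) → ℝ := fun i => ∑ y : Fin K → Ω, (∏ a, p (y a)) * (F y * ∏ a, e (i a) (y a))
  have a5 : ∑ i, Fh i ^ 2 ≤ 1 := by
    rw [(h.pi K).parseval]
    refine (sum_le_sum fun y _ => mul_le_of_le_one_right (prod_pos fun a _ => hp _).le
      ((sq_le_one_iff_abs_le_one _).2 (hF y))).trans (le_of_eq ?_)
    rw [← Fintype.piFinset_univ, ← prod_univ_sum (fun _ => univ) fun _ y => p y]
    simp [hp1]
  have a6 : ∑ x : Fin K → Ω, (∏ a, ν (x a)) * (popOp P M)^[T] F x = ∑ i, Fh i * c T i := by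
    have e1 : F = fun x => ∑ i, Fh i * ∏ a, e (i a) (x a) :=
      funext fun x => ((h.pi K).expand F x).symm
    conv_lhs => rw [e1]
    simp only [pop3_iter, c, mul_sum]
    rw [sum_comm]
    exact sum_congr rfl fun _ _ => sum_congr rfl fun _ _ => by ring
  have a7 : ∑ i, Fh i * c T i - ∑ x : Fin K → Ω, (∏ a, p (x a)) * F x =
      ∑ i, Fh i * ((if deg i0 i = 0 then 0 else 1) * c T i) := by
    have e1 : ∀ i : Fin K → Ω, Fh i * ((if deg i0 i = 0 then 0 else 1) * c T i) =
        Fh i * c T i - if i = fun _ => i0 then Fh i else 0 := fun i => by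
      have : deg i0 i = 0 ↔ i = fun _ => i0 := by simp [deg, funext_iff]
      by_cases hi : i = fun _ => i0
      · rw [if_pos (this.2 hi), if_pos hi, hi, hc1]
        ring
      · rw [if_neg (mt this.1 hi), if_neg hi]
        ring
    simp only [e1, sum_sub_distrib, sum_ite_eq', mem_univ, if_true]
    simp only [Fh, h0, prod_const_one, mul_one]
  rw [a6, a7]
  refine abs_le_of_sq_le_sq' ?_ (by positivity) |> abs_le.2
  refine (sum_mul_sq_le_sq_mul_sq _ _ _).trans ?_
  have e2 : ∀ i : Fin K → Ω, ((if deg i0 i = 0 then 0 else 1) * c T i) ^ 2 =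
      (if deg i0 i = 0 then 0 else 1) * c T i ^ 2 := fun i => by split_ifs <;> simp
  simp only [e2]
  refine (mul_le_of_le_one_left (sum_nonneg fun i _ => e2 i ▸ sq_nonneg _) a5).trans
    (a4.trans (le_of_eq ?_))
  rw [← pow_mul, mul_comm, pow_mul]
  norm_num

end Crest.Agent.R304
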