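import Crest.Agent.R304.Close

/-!
# R304/Rec: the recursion over splits (TASK)
-/

set_option autoImplicit false

namespace Crest.Agent.R304

open Finset Crest.Agent.R309

variable {V : Type} [Fintype V] [DecidableEq V] [Inhabited V] {s ρ : V → V → ℝ} {β : ℝ}
  {U W : PM V} {l l₁ l₂ : List V}

/-- Let `r = max_{v ∈ l} ρ (hd l) v > 0`, `l₁ = l.takeWhile (ρ (hd l) · < r)`, `l₂ = l.dropWhile ..`; then `ρ (hd l) (hd l₂) = r`, so `ρ (lst l₁) (hd l₂) = r`. -/
theorem exists_split (h : Ult s ρ β) (hg : Good ρ U W l) (h2 : 2 ≤ l.length) :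
    ∃ l₁ l₂, l = l₁ ++ l₂ ∧ Split ρ U W l₁ l₂ := by
  classical
  obtain ⟨m, hm, hmax⟩ := exists_max_image l.toFinset (fun v => ρ (hd l) v)
    ⟨hd l, List.mem_toFinset.2 (hd_mem hg.ne)⟩
  have hmax' : ∀ v ∈ l, ρ (hd l) v ≤ ρ (hd l) m := fun v hv => hmax v (List.mem_toFinset.2 hv)
  have hr : 0 < ρ (hd l) m := (h.rpos _ _ (hd_ne_lst hg.nd h2)).trans_le (hmax' _ (lst_mem hg.ne))
  obtain ⟨P, hP⟩ : ∃ P : V → Bool, P = fun v => decide (ρ (hd l) v < ρ (hd l) m) := ⟨_, rfl⟩
  have hP' : ∀ v, P v = true ↔ ρ (hd l) v < ρ (hd l) m := fun v => by rw [hP]; simp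
  have e : l.takeWhile P ++ l.dropWhile P = l := List.takeWhile_append_dropWhile
  have h1 : ∀ v ∈ l.takeWhile P, ρ (hd l) v < ρ (hd l) m := fun v hv =>
    (hP' v).1 (List.mem_takeWhile_imp hv)
  have n1 : l.takeWhile P ≠ [] := by
    obtain ⟨a, t, rfl⟩ := List.exists_cons_of_ne_nil hg.ne
    have : P a = true := (hP' a).2 (by
      change ρ a a < _
      rw [h.rself]; exact hr)
    simp [this]
  have n2 : l.dropWhile P ≠ [] := fun h0 => by
    rw [h0, List.append_nil] at e
    exact lt_irrefl _ (h1 m (by rw [e]; exact List.mem_toFinset.1 hm))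
  have h3 : ρ (hd l) m ≤ ρ (hd l) (hd (l.dropWhile P)) := by
    have := List.head_dropWhile_not P n2
    have e2 : hd (l.dropWhile P) = (l.dropWhile P).head n2 := by
      rw [hd, List.head?_eq_some_head n2]; rfl
    rw [e2]
    by_contra hc
    rw [(hP' _).2 (not_le.1 hc)] at this
    exact absurd this (by simp)
  have h4 : ρ (hd l) m ≤ ρ (lst (l.takeWhile P)) (hd (l.dropWhile P)) := by
    have a1 := h.ultra (hd l) (lst (l.takeWhile P)) (hd (l.dropWhile P))
    have a2 := h1 _ (lst_mem n1)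
    rcases le_max_iff.1 (h3.trans a1) with a3 | a3
    · linarith
    · exact a3
  refine ⟨_, _, e.symm, by rwa [e], n1, n2, fun u hu v hv => ?_, fun u hu v hv => ?_⟩
  · refine lt_of_le_of_lt (h.ultra u (hd l) v) (max_lt ?_ ?_)
    · rw [h.rsymm]; exact (h1 u hu).trans_le h4
    · exact (h1 v hv).trans_le h4
  · rw [e] at hu hv
    refine (h.ultra u (hd l) v).trans (max_le ?_ ?_)
    · rw [h.rsymm]; exact (hmax' u hu).trans h4
    · exact (hmax' v hv).trans h4

theorem Split.good_left (hs : Split ρ U W l₁ l₂) : Good ρ U W l₁ := by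
  have hl : ∀ u ∈ l₁, ∀ v ∈ l₁, ρ u v ≤ ρ (hd l₁) (W.f (hd l₁)) := fun u hu v hv => by
    have := hs.good.left u (List.mem_append_left _ hu) v (List.mem_append_left _ hv)
    rwa [hd_append hs.ne₁] at this
  rcases Nat.even_or_odd l₁.length with he | ho
  · obtain ⟨q1, q2, -⟩ := (qin_append_even he hs.ne₁ hs.ne₂).1 hs.good.qin
    refine ⟨hs.good.nd.of_append_left, hs.ne₁, ((pin_append_even he).1 hs.good.pin).1, q1, hl,
      fun u hu v hv => ?_⟩
    rw [if_neg (Nat.not_odd_iff_even.2 he), q2]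
    exact (hs.lt u hu v hv).le
  · obtain ⟨q1, q2, -⟩ := (pin_append_odd ho hs.ne₂).1 hs.good.pin
    refine ⟨hs.good.nd.of_append_left, hs.ne₁, q1, ((qin_append_odd ho).1 hs.good.qin).1, hl,
      fun u hu v hv => ?_⟩
    rw [if_pos ho, q2]
    exact (hs.lt u hu v hv).le

theorem Split.good_right_even (h : Ult s ρ β) (hs : Split ρ U W l₁ l₂) (he : Even l₁.length) :
    Good ρ U W l₂ := by
  obtain ⟨-, q2, q3⟩ := (qin_append_even he hs.ne₁ hs.ne₂).1 hs.good.qin
  refine ⟨hs.good.nd.of_append_right, hs.ne₂, ((pin_append_even he).1 hs.good.pin).2, q3,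
    fun u hu v hv => ?_, fun u hu v hv => ?_⟩
  · rw [W.eq_iff.1 q2, h.rsymm (hd l₂)]
    exact hs.le u (List.mem_append_right _ hu) v (List.mem_append_right _ hv)
  · have := hs.good.right u (List.mem_append_right _ hu) v (List.mem_append_right _ hv)
    have e : Odd (l₁ ++ l₂).length ↔ Odd l₂.length := by
      rw [List.length_append, Nat.odd_add']; simp [he]
    rwa [lst_append hs.ne₂, if_congr e rfl rfl] at this

theorem Split.good_right_odd (h : Ult s ρ β) (hs : Split ρ U W l₁ l₂) (ho : Odd l₁.length) :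
    Good ρ W U l₂ := by
  obtain ⟨-, q2, q3⟩ := (pin_append_odd ho hs.ne₂).1 hs.good.pin
  refine ⟨hs.good.nd.of_append_right, hs.ne₂, ((qin_append_odd ho).1 hs.good.qin).2, q3,
    fun u hu v hv => ?_, fun u hu v hv => ?_⟩
  · rw [U.eq_iff.1 q2, h.rsymm (hd l₂)]
    exact hs.le u (List.mem_append_right _ hu) v (List.mem_append_right _ hv)
  · have := hs.good.right u (List.mem_append_right _ hu) v (List.mem_append_right _ hv)
    have e : Odd (l₁ ++ l₂).length ↔ ¬Odd l₂.length := by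
      rw [List.length_append, Nat.odd_add, Nat.not_odd_iff_even]; simp [ho]
    rwa [lst_append hs.ne₂, if_congr e rfl rfl, ite_not] at this

theorem Esp_nonneg (p φ : PM V → ℝ) (U W : PM V) : 0 ≤ Esp p ρ φ U W := by
  exact sum_nonneg fun _ _ => sum_nonneg fun _ _ => mul_nonneg (ind_nonneg _) (sq_nonneg _)

/-- Strong induction on the length, for both orders of `U, W`: `|val l| ≤ (l.length - 1) * √(Esp U W + Esp W U)`; `val [a] = 0` by `toP_singleton`. -/
theorem val_sq_le (h : Ult s ρ β) (p φ : PM V → ℝ) (hg : Good ρ U W l) :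
    val p ρ φ l ^ 2 ≤ (Fintype.card V : ℝ) ^ 2 * (Esp p ρ φ U W + Esp p ρ φ W U) := by
  have key : ∀ (n : ℕ) (U W : PM V) (l : List V), l.length ≤ n → Good ρ U W l →
      |val p ρ φ l| ≤ ((l.length : ℝ) - 1) * √(Esp p ρ φ U W + Esp p ρ φ W U) := by
    intro n
    induction n with
    | zero => exact fun U W l hl hg => absurd (List.length_eq_zero_iff.1 (by omega)) hg.ne
    | succ n ih =>
      intro U W l hl hg
      by_cases h2 : 2 ≤ l.length
      · obtain ⟨l₁, l₂, rfl, hs⟩ := exists_split h hg h2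
        have p1 := List.length_pos_iff.2 hs.ne₁
        have p2 := List.length_pos_iff.2 hs.ne₂
        rw [List.length_append] at hl ⊢
        have a1 := ih U W l₁ (by omega) hs.good_left
        have a2 : |val p ρ φ l₂| ≤ ((l₂.length : ℝ) - 1) * √(Esp p ρ φ U W + Esp p ρ φ W U) := by
          rcases Nat.even_or_odd l₁.length with he | ho
          · exact ih U W l₂ (by omega) (hs.good_right_even h he)
          · rw [add_comm (Esp p ρ φ U W)]
            exact ih W U l₂ (by omega) (hs.good_right_odd h ho)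
        have a3 : |eps p ρ φ l₁ l₂| ≤ √(Esp p ρ φ U W + Esp p ρ φ W U) := by
          refine Real.abs_le_sqrt (le_trans ?_ (le_add_of_nonneg_right (Esp_nonneg p φ W U)))
          refine le_trans ?_ (single_le_sum (f := fun l₁ : NL V => ∑ l₂ : NL V,
            ind (Split ρ U W l₁.1 l₂.1) * eps p ρ φ l₁.1 l₂.1 ^ 2)
            (fun _ _ => sum_nonneg fun _ _ => mul_nonneg (ind_nonneg _) (sq_nonneg _))
            (mem_univ ⟨l₁, hg.nd.of_append_left⟩))
          refine le_trans (le_of_eq ?_) (single_le_sum (f := fun l₂ : NL V =>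
            ind (Split ρ U W l₁ l₂.1) * eps p ρ φ l₁ l₂.1 ^ 2)
            (fun _ _ => mul_nonneg (ind_nonneg _) (sq_nonneg _))
            (mem_univ ⟨l₂, hg.nd.of_append_right⟩))
          rw [ind_pos hs, one_mul]
        have a4 : |(-1 : ℝ) ^ l₁.length * val p ρ φ l₂| = |val p ρ φ l₂| := by
          rw [abs_mul, abs_pow, abs_neg, abs_one, one_pow, one_mul]
        have e : val p ρ φ (l₁ ++ l₂) =
            eps p ρ φ l₁ l₂ + val p ρ φ l₁ + (-1) ^ l₁.length * val p ρ φ l₂ := by
          rw [eps]; ring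
        have a5 := abs_add_three (eps p ρ φ l₁ l₂) (val p ρ φ l₁) ((-1) ^ l₁.length * val p ρ φ l₂)
        rw [e]
        push_cast
        linarith
      · obtain ⟨a, rfl⟩ := List.length_eq_one_iff.1
          (show l.length = 1 by have := List.length_pos_iff.2 hg.ne; omega)
        simp [val, Gam, toP_singleton]
  have h1 := key _ U W l le_rfl hg
  have h0 : 0 ≤ Esp p ρ φ U W + Esp p ρ φ W U := add_nonneg (Esp_nonneg _ _ _ _) (Esp_nonneg _ _ _ _)
  have h2 : (l.length : ℝ) ≤ Fintype.card V := by exact_mod_cast hg.nd.length_le_card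
  have h3 : |val p ρ φ l| ≤ Fintype.card V * √(Esp p ρ φ U W + Esp p ρ φ W U) :=
    h1.trans (mul_le_mul_of_nonneg_right (by linarith) (Real.sqrt_nonneg _))
  rw [← sq_abs, ← Real.sq_sqrt h0, ← mul_pow]
  exact pow_le_pow_left₀ (abs_nonneg _) h3 2

end Crest.Agent.R304
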