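import Crest.Agent.R304.Agg
import Crest.Agent.R304.Rec

/-!
# R304/Top: the key inequality (TASK)

Components: `u ~ v` if `Relation.ReflTransGen (fun x y => y = X x ∨ y = Y x) u v` (an equivalence relation).  For a set `A` closed under `X` and `Y` let `mix A X Y` be `Y` on `A` and `X` off `A`.
The map `(X, Y) ↦ (mix A X Y, mix A Y X)` keeps the relation, hence the components, and the product of the weights.
Let `F (X, Y) = ∑_v (φ (mix (comp v) X Y) - φ X)²`.  For a finite set `T` of vertices let `A T` be the union of the components of the `v ∈ T`.  Induction on `T`: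
`E (φ (mix (A T) X Y) - φ X)² ≤ |T|² E F`, using the measure preserving involution `(X, Y) ↦ (mix (A T) X Y, mix (A T) Y X)` and `(x + y)² ≤ (1 + 1/k) x² + (1 + k) y²`.
One component: choose among the edges of `X` and `Y` in the component of `v` a longest one, `a - W a` with `(W, U) = (X, Y)` or `(Y, X)`, and let `l` be the cycle of `exists_cycle U W a`.
Its vertex set is the component, it is `Good` (the ball of radius `ρ a (W a)` around `a` is closed under the edges of the component), and `mix (comp v) X Y` is `toP l.dropLast X` or `toQ l.dropLast X` (`flip_eq`, `unflip_eq`).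
So `(φ (mix ..) - φ X)² ≤ 2 val² + 2 err (W, U) ≤ 2 n² (Esp X Y + Esp Y X) + 2 (err (X, Y) + err (Y, X))` (`err_Q`, `err_P`, `val_sq_le`), and
`n² * n * (4 n² * 1024 n⁵ β⁵ + 4 * 2 β²) ≤ 2 ^ 13 n ^ 10 β ^ 5`.
-/

set_option autoImplicit false

namespace Crest.Agent.R304

open Finset Crest.Agent.R309

variable {V : Type} [Fintype V] [DecidableEq V] [Inhabited V] {s ρ : V → V → ℝ} {β : ℝ}
  {U W : PM V} {l l₁ l₂ : List V}

section comp
omit [Fintype V] [DecidableEq V] [Inhabited V]

/-- the components of a pair -/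
def topR (z : PM V × PM V) : V → V → Prop :=
  Relation.ReflTransGen fun x y => y = z.1.f x ∨ y = z.2.f x

theorem topR_symm {z : PM V × PM V} {u v : V} (h : topR z u v) : topR z v u := by
  induction h with
  | refl => exact .refl
  | tail _ h ih => exact .head (h.imp (fun e => by rw [e, PM.inv]) fun e => by rw [e, PM.inv]) ih

theorem topR_swap (z : PM V × PM V) : topR z.swap = topR z :=
  congrArg Relation.ReflTransGen (funext₂ fun _ _ => propext or_comm)

/-- the union of the components of the vertices in `T` -/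
def topA (z : PM V × PM V) (T : Finset V) (u : V) : Prop := ∃ v ∈ T, topR z v u

theorem topA_fst (z : PM V × PM V) (T : Finset V) (u : V) : topA z T (z.1.f u) ↔ topA z T u :=
  ⟨fun ⟨v, hv, h⟩ => ⟨v, hv, h.tail (Or.inl (z.1.inv u).symm)⟩,
    fun ⟨v, hv, h⟩ => ⟨v, hv, h.tail (Or.inl rfl)⟩⟩

theorem topA_snd (z : PM V × PM V) (T : Finset V) (u : V) : topA z T (z.2.f u) ↔ topA z T u :=
  ⟨fun ⟨v, hv, h⟩ => ⟨v, hv, h.tail (Or.inr (z.2.inv u).symm)⟩,
    fun ⟨v, hv, h⟩ => ⟨v, hv, h.tail (Or.inr rfl)⟩⟩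

open Classical in
/-- `Y` on `A`, `X` off `A` -/
noncomputable def topMix (A : V → Prop) (X Y : PM V) (hX : ∀ u, A (X.f u) ↔ A u)
    (hY : ∀ u, A (Y.f u) ↔ A u) : PM V where
  f u := if A u then Y.f u else X.f u
  inv u := by by_cases h : A u <;> simp [h, hX, hY, PM.inv]
  ne u := by split_ifs; exacts [Y.ne u, X.ne u]

/-- exchange of the two matchings on the components meeting `T` -/
noncomputable def topM (T : Finset V) (z : PM V × PM V) : PM V × PM V :=
  (topMix (topA z T) z.1 z.2 (topA_fst z T) (topA_snd z T),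
    topMix (topA z T) z.2 z.1 (topA_snd z T) (topA_fst z T))

theorem topM_pos {T : Finset V} {z : PM V × PM V} {u : V} (h : topA z T u) :
    (topM T z).1.f u = z.2.f u ∧ (topM T z).2.f u = z.1.f u := ⟨if_pos h, if_pos h⟩

theorem topM_neg {T : Finset V} {z : PM V × PM V} {u : V} (h : ¬ topA z T u) :
    (topM T z).1.f u = z.1.f u ∧ (topM T z).2.f u = z.2.f u := ⟨if_neg h, if_neg h⟩

theorem topA_M (T T' : Finset V) (z : PM V × PM V) : topA (topM T z) T' = topA z T' := by
  have : topR (topM T z) = topR z := congrArg Relation.ReflTransGen (funext₂ fun x y => by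
    by_cases h : topA z T x
    · rw [(topM_pos h).1, (topM_pos h).2, or_comm]
    · rw [(topM_neg h).1, (topM_neg h).2])
  unfold topA
  rw [this]

theorem topM_topM (T : Finset V) : Function.Involutive (topM T) := fun z => by
  refine Prod.ext (PM.ext (funext fun u => ?_)) (PM.ext (funext fun u => ?_)) <;>
    by_cases h : topA z T u
  · rw [(topM_pos (by rwa [topA_M])).1, (topM_pos h).2]
  · rw [(topM_neg (by rwa [topA_M])).1, (topM_neg h).1]
  · rw [(topM_pos (by rwa [topA_M])).2, (topM_pos h).1]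
  · rw [(topM_neg (by rwa [topA_M])).2, (topM_neg h).2]

theorem topM_cons {T : Finset V} {v : V} (hv : v ∉ T) (z : PM V × PM V) :
    (topM (cons v T hv) z).1 = (topM T z).1 ∨
      (topM (cons v T hv) z).1 = (topM {v} (topM T z)).1 := by
  have e : ∀ u, topA z (cons v T hv) u ↔ topR z v u ∨ topA z T u := fun u => by
    simp only [topA, mem_cons, exists_eq_or_imp]
  have e' : ∀ u, topA (topM T z) {v} u ↔ topR z v u := fun u => by rw [topA_M]; simp [topA]
  by_cases h : topA z T v
  · refine Or.inl (PM.ext (funext fun u => ?_))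
    by_cases hu : topA z T u
    · rw [(topM_pos hu).1, (topM_pos ((e u).2 (Or.inr hu))).1]
    · obtain ⟨w, hw, h⟩ := h
      rw [(topM_neg hu).1, (topM_neg fun k => hu (((e u).1 k).elim
        (fun k => ⟨w, hw, h.trans k⟩) id)).1]
  · refine Or.inr (PM.ext (funext fun u => ?_))
    by_cases hu : topR z v u
    · rw [(topM_pos ((e u).2 (Or.inl hu))).1, (topM_pos ((e' u).2 hu)).1,
        (topM_neg fun ⟨w, hw, k⟩ => h ⟨w, hw, k.trans (topR_symm hu)⟩).2]
    · rw [(topM_neg (mt (e' u).1 hu)).1]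
      by_cases hu' : topA z T u
      · rw [(topM_pos hu').1, (topM_pos ((e u).2 (Or.inr hu'))).1]
      · rw [(topM_neg hu').1, (topM_neg fun k => ((e u).1 k).elim hu hu').1]

end comp

omit [Inhabited V] in
theorem topM_pr (s : V → V → ℝ) (T : Finset V) (z : PM V × PM V) :
    pr s (topM T z).1 * pr s (topM T z).2 = pr s z.1 * pr s z.2 := by
  simp only [pr, wt, div_mul_div_comm, ← prod_mul_distrib]
  refine congrArg (· / _) (prod_congr rfl fun u _ => ?_)
  by_cases h : topA z T u
  · rw [(topM_pos h).1, (topM_pos h).2, mul_comm]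
  · rw [(topM_neg h).1, (topM_neg h).2]

omit [Inhabited V] in
/-- the hybrid argument -/
theorem top_hybrid (hs : Wt s) (φ : PM V → ℝ) {K : ℝ}
    (hK : ∀ v, ∑ z : PM V × PM V, pr s z.1 * pr s z.2 * (φ (topM {v} z).1 - φ z.1) ^ 2 ≤ K)
    {T : Finset V} (hT : T.Nonempty) :
    ∑ z : PM V × PM V, pr s z.1 * pr s z.2 * (φ (topM T z).1 - φ z.1) ^ 2 ≤ T.card ^ 2 * K := by
  induction hT using Finset.Nonempty.cons_induction with
  | singleton v => simpa using hK v
  | cons v T hv hT ih =>
    have hk : (0 : ℝ) < T.card := by exact_mod_cast hT.card_pos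
    have h1 := hK v
    rw [← (topM_topM T).bijective.sum_comp] at h1
    refine le_of_mul_le_mul_left (le_trans ?_ ((add_le_add
      (mul_le_mul_of_nonneg_left ih (show (0 : ℝ) ≤ T.card + 1 by positivity))
      (mul_le_mul_of_nonneg_left h1 (show (0 : ℝ) ≤ T.card * (T.card + 1) by positivity))).trans_eq
        (by rw [card_cons]; push_cast; ring))) hk
    rw [mul_sum, mul_sum, mul_sum, ← sum_add_distrib]
    refine sum_le_sum fun z _ => ?_
    have hp := (mul_pos (hs.pr_pos z.1) (hs.pr_pos z.2)).le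
    rw [topM_pr, mul_left_comm, mul_left_comm (_ + 1 : ℝ), mul_left_comm (_ * (_ + 1) : ℝ), ← mul_add]
    refine mul_le_mul_of_nonneg_left ?_ hp
    rcases topM_cons hv z with e | e <;> rw [e]
    · linarith [sq_nonneg (φ (topM T z).1 - φ z.1), mul_nonneg (mul_pos hk (add_pos hk one_pos)).le
        (sq_nonneg (φ (topM {v} (topM T z)).1 - φ (topM T z).1))]
    · linarith [sq_nonneg (φ (topM T z).1 - φ z.1 -
        T.card * (φ (topM {v} (topM T z)).1 - φ (topM T z).1))]

/-- the cycle through a longest edge of a component -/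
theorem top_cycle (h : Ult s ρ β) {a : V} (hm : ∀ u, topR (W, U) a u →
    ρ u (W.f u) ≤ ρ a (W.f a) ∧ ρ u (U.f u) ≤ ρ a (W.f a)) :
    ∃ l, Good ρ U W l ∧ Even l.length ∧ W.f (hd l) = lst l ∧ ∀ u, u ∈ l ↔ topR (W, U) a u := by
  obtain ⟨l, hn, h0, rfl, he, hp, hq, hc⟩ := exists_cycle U W a
  have hc' := W.eq_iff.1 hc
  have h1 : ∀ u, u ∈ l ↔ topR (W, U) (hd l) u := fun u => by
    constructor
    · intro hu
      obtain ⟨i, hi⟩ := List.mem_iff_getElem?.1 hu
      clear hu
      induction i generalizing u with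
      | zero => exact Option.some.inj ((getElem?_hd h0).symm.trans hi) ▸ .refl
      | succ i ih =>
        have hi' : i < l.length := by have := (List.getElem?_eq_some_iff.1 hi).1; omega
        have e := List.getElem?_eq_getElem hi'
        refine (ih _ e).tail ?_
        rcases Nat.mod_two_eq_zero_or_one i with k | k
        exacts [Or.inr (hp i _ _ k e hi).symm, Or.inl (hq i _ _ k e hi).symm]
    · intro hu
      induction hu with
      | refl => exact hd_mem h0
      | @tail x y _ hy ih =>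
        rcases hy with rfl | rfl
        · by_cases k1 : x = hd l
          · exact k1 ▸ hc' ▸ lst_mem h0
          by_cases k2 : x = lst l
          · exact k2 ▸ hc ▸ hd_mem h0
          · exact (qin_mem_even hn hq he ih k1 k2).1
        · exact pin_mem_even hp he ih
  have h2 : ∀ u, topR (W, U) (hd l) u → ρ (hd l) u ≤ ρ (hd l) (W.f (hd l)) := fun u hu => by
    induction hu with
    | refl => exact (h.rself _).trans_le (h.rpos _ _ (W.ne _).symm).le
    | @tail x y hx hy ih =>
      refine (h.ultra _ x _).trans (max_le ih ?_)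
      rcases hy with rfl | rfl
      exacts [(hm x hx).1, (hm x hx).2]
  have h3 : ∀ u ∈ l, ∀ v ∈ l, ρ u v ≤ ρ (hd l) (W.f (hd l)) := fun u hu v hv =>
    (h.ultra u (hd l) v).trans (max_le ((h.rsymm _ _).trans_le (h2 u ((h1 u).1 hu)))
      (h2 v ((h1 v).1 hv)))
  refine ⟨l, ⟨hn, h0, hp, hq, h3, ?_⟩, he, hc', h1⟩
  rwa [if_neg (Nat.not_odd_iff_even.2 he), hc, h.rsymm (lst l), ← hc']

/-- one component -/
theorem top_one (h : Ult s ρ β) (φ : PM V → ℝ) (v : V) (z : PM V × PM V) :
    (φ (topM {v} z).1 - φ z.1) ^ 2 ≤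
      2 * (Fintype.card V : ℝ) ^ 2 * (Esp (pr s) ρ φ z.2 z.1 + Esp (pr s) ρ φ z.1 z.2) +
        2 * (err (pr s) ρ φ z + err (pr s) ρ φ z.swap) := by
  classical
  obtain ⟨X, Y⟩ := z
  obtain ⟨a, ha, hm⟩ := exists_max_image (univ.filter (topR (X, Y) v))
    (fun u => max (ρ u (X.f u)) (ρ u (Y.f u))) ⟨v, mem_filter.2 ⟨mem_univ _, .refl⟩⟩
  replace ha := (mem_filter.1 ha).2
  replace hm := fun u (hu : topR (X, Y) a u) =>
    max_le_iff.1 (hm u (mem_filter.2 ⟨mem_univ _, ha.trans hu⟩))
  have e : ∀ u, topA (X, Y) {v} u ↔ topR (X, Y) a u := fun u => by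
    simp only [topA, mem_singleton, exists_eq_left]
    exact ⟨(topR_symm ha).trans, ha.trans⟩
  have k1 := err_nonneg (ρ := ρ) (φ := φ) h.toWt (X, Y)
  have k2 := err_nonneg (ρ := ρ) (φ := φ) h.toWt (Y, X)
  dsimp only [Prod.swap_prod_mk]
  rcases le_total (ρ a (Y.f a)) (ρ a (X.f a)) with k | k
  · rw [max_eq_left k] at hm
    obtain ⟨l, hg, he, hc, hl⟩ := top_cycle h hm
    have h1 := val_sq_le h (pr s) φ hg
    have h2 := err_Q (ρ := ρ) (φ := φ) (z := (X, Y)) h.toWt (hg.nd.sublist l.dropLast_sublist)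
      (odd_dropLast he hg.ne) (close_QS hg.nd he hg.ne hg.qin hc) (close_PS he hg.ne hg.pin)
    rw [val, if_neg (Nat.not_odd_iff_even.2 he)] at h1
    rw [flip_eq (W' := (topM {v} (X, Y)).1) hg.nd he hg.ne hg.qin hc
      (pin_congr_even hg.pin fun u hu => (topM_pos ((e u).2 ((hl u).1 hu))).1)
      fun u hu => (topM_neg fun k => hu ((hl u).2 ((e u).1 k))).1] at h2
    linarith [sq_nonneg (φ (topM {v} (X, Y)).1 - φ X - 2 * Gam (pr s) ρ φ l.dropLast (some (lst l)))]
  · rw [max_eq_right k, ← topR_swap] at hm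
    rw [← topR_swap] at e
    obtain ⟨l, hg, he, hc, hl⟩ := top_cycle (W := Y) (U := X) h fun u hu => (hm u hu).symm
    have h1 := val_sq_le h (pr s) φ hg
    have h2 := err_P (ρ := ρ) (φ := φ) (z := (Y, X)) h.toWt (hg.nd.sublist l.dropLast_sublist)
      (odd_dropLast he hg.ne) (close_QS hg.nd he hg.ne hg.qin hc) (close_PS he hg.ne hg.pin)
    rw [val, if_neg (Nat.not_odd_iff_even.2 he)] at h1
    rw [unflip_eq (W' := (topM {v} (X, Y)).1) hg.nd he hg.ne hg.pin
      (qin_congr_even hg.nd hg.qin fun u hu _ _ => (topM_pos ((e u).2 ((hl u).1 hu))).1)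
      ((topM_pos ((e _).2 ((hl _).1 (hd_mem hg.ne)))).1.trans hc)
      fun u hu => (topM_neg fun k => hu ((hl u).2 ((e u).1 k))).1] at h2
    linarith [sq_nonneg (φ X - φ (topM {v} (X, Y)).1 - 2 * Gam (pr s) ρ φ l.dropLast (some (lst l)))]

theorem key_ult (h : Ult s ρ β) (φ : PM V → ℝ) :
    ∑ X, ∑ Y, pr s X * pr s Y * (φ X - φ Y) ^ 2 ≤
      2 ^ 13 * (Fintype.card V : ℝ) ^ 10 * β ^ 5 * (Dsw (pr s) φ + Dex (pr s) φ) := by
  have hp := fun z : PM V × PM V => (mul_pos (h.pr_pos z.1) (h.pr_pos z.2)).le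
  have h1 := sum_Esp_le h φ
  have h2 := sum_err_le h φ
  have h3 := h1
  have h4 := h2
  rw [← (Equiv.prodComm _ _).sum_comp] at h3 h4
  simp only [Equiv.prodComm_apply, Prod.fst_swap, Prod.snd_swap, mul_comm (pr s (Prod.snd _))] at h3 h4
  have hβ := h.one_le
  have hn : (1 : ℝ) ≤ Fintype.card V := by exact_mod_cast Fintype.card_pos
  have hD : 0 ≤ Dsw (pr s) φ + Dex (pr s) φ := nonneg_of_mul_nonneg_right
    ((sum_nonneg fun z _ => mul_nonneg (hp z) (err_nonneg h.toWt z)).trans h2) (by positivity)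
  generalize Dsw (pr s) φ + Dex (pr s) φ = D at *
  have h5 := top_hybrid h.toWt φ
    (K := 4096 * (Fintype.card V : ℝ) ^ 7 * β ^ 5 * D + 8 * β ^ 2 * D) (fun v => by
      refine (sum_le_sum fun z _ => mul_le_mul_of_nonneg_left (top_one h φ v z) (hp z)).trans ?_
      simp only [mul_add, sum_add_distrib, mul_left_comm (pr s _ * pr s _), ← mul_sum]
      linarith [mul_le_mul_of_nonneg_left (add_le_add h1 h3) (sq_nonneg (Fintype.card V : ℝ))])
    univ_nonempty
  rw [← Fintype.sum_prod_type']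
  refine (le_of_eq (sum_congr rfl fun z _ => ?_)).trans (h5.trans ?_)
  · rw [show (topM univ z).1 = z.2 from
      PM.ext (funext fun u => (topM_pos ⟨u, mem_univ _, .refl⟩).1)]
    ring
  · rw [card_univ]
    have k1 : (Fintype.card V : ℝ) ^ 9 * β ^ 5 * D ≤ (Fintype.card V : ℝ) ^ 10 * β ^ 5 * D := by
      gcongr; norm_num
    have k2 : (Fintype.card V : ℝ) ^ 2 * β ^ 2 * D ≤ (Fintype.card V : ℝ) ^ 10 * β ^ 5 * D := by
      gcongr <;> norm_num
    linarith [show 0 ≤ (Fintype.card V : ℝ) ^ 10 * β ^ 5 * D by positivity]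

end Crest.Agent.R304
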