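import Crest.Agent.R304.Four
import Crest.Agent.R304.Top

/-!
# R304/Ultra: the ultrametric (TASK)

Fix `o : V`; `g u v = xm u v / s u v ^ 2`, `h u v = g u v / (g o u * g o v)` for distinct `u, v ≠ o`.  `four_point` with `(a, b, c, d) = (x, z, y, o)` and `1 ≤ κ xm` gives
`h x z ≤ h y z + (1 + κ²) h x y` for distinct `x, y, z ≠ o`.  So along a path `u = x₀, …, x_m = v` without repetition in `V \ {o}` with all `h xᵢ xᵢ₊₁ ≤ t`: `h u v ≤ m (1 + κ²) t` (induction from the end).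
Let `ρ u v` be the least `t` among the values of `h` such that `u, v` are joined in the graph `{h ≤ t}` on `V \ {o}` (`SimpleGraph.Reachable`, `Walk.toPath`/`bypass`, `IsPath.length_lt`), `ρ u u = 0`,
`ρ o u = ρ u o = R` with `R > 0` an upper bound of all values of `h`.  Then `ρ ≤ h ≤ n (1 + κ²) ρ`.  With `α u = 1 / g o u`, `α o = R` put `s' u v = s u v / √(α u α v)`:
`s'² ρ = xm * ρ / h` (or `xm o u`), and `wt s' X = wt s X / ∏ α`, so `pr s' = pr s`.
-/

set_option autoImplicit false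

namespace Crest.Agent.R304

open Finset Crest.Agent.R309

variable {V : Type} [Fintype V] [DecidableEq V] {s : V → V → ℝ} {κ : ℝ}

theorem ultra_sub (h : V → V → ℝ) {K : ℝ} (hK : 1 ≤ K) (hsym : ∀ u v, h u v = h v u)
    (hpos : ∀ u v, u ≠ v → 0 < h u v)
    (htri : ∀ x y z, x ≠ y → x ≠ z → y ≠ z → h x z ≤ h y z + K * h x y) :
    ∃ ρ : V → V → ℝ, (∀ u v, ρ u v = ρ v u) ∧ (∀ u, ρ u u = 0) ∧
      (∀ u v w, ρ u w ≤ max (ρ u v) (ρ v w)) ∧
      ∀ u v, u ≠ v → ρ u v ≤ h u v ∧ h u v ≤ Fintype.card V * K * ρ u v := by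
  let G : ℝ → SimpleGraph V := fun t => SimpleGraph.fromRel fun a b => h a b ≤ t
  have hG : ∀ t a b, (G t).Adj a b ↔ a ≠ b ∧ h a b ≤ t := fun t a b => by
    simp only [G, SimpleGraph.fromRel_adj, hsym b a, or_self]
  have hmono : ∀ t t', t ≤ t' → G t ≤ G t' := fun t t' ht a b hab =>
    (hG _ _ _).2 ⟨((hG _ _ _).1 hab).1, ((hG _ _ _).1 hab).2.trans ht⟩
  let S : V → V → Set ℝ := fun u v => {t | 0 ≤ t ∧ (G t).Reachable u v}
  have hbdd : ∀ u v, BddBelow (S u v) := fun u v => ⟨0, fun t ht => ht.1⟩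
  have hmem : ∀ u v, u ≠ v → h u v ∈ S u v := fun u v huv =>
    ⟨(hpos u v huv).le, ((hG _ _ _).2 ⟨huv, le_rfl⟩).reachable⟩
  have hmem0 : ∀ u, (0 : ℝ) ∈ S u u := fun u => ⟨le_rfl, SimpleGraph.Reachable.refl u⟩
  have hne : ∀ u v, (S u v).Nonempty := fun u v => by
    by_cases huv : u = v
    · subst huv; exact ⟨0, hmem0 u⟩
    · exact ⟨_, hmem u v huv⟩
  have hwalk : ∀ t, 0 ≤ t → ∀ u v (p : (G t).Walk u v), u = v ∨ h u v ≤ p.length * K * t := by
    intro t ht u v p
    induction p with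
    | nil => exact Or.inl rfl
    | @cons x y z hxy p ih =>
      obtain ⟨h1, h2⟩ := (hG _ _ _).1 hxy
      by_cases hxz : x = z
      · exact Or.inl hxz
      right
      rw [SimpleGraph.Walk.length_cons]
      push_cast
      have a1 : 0 ≤ p.length * K * t := by positivity
      have a2 : t ≤ K * t := le_mul_of_one_le_left ht hK
      by_cases hyz : y = z
      · subst hyz; linarith
      · have a3 := ih.resolve_left hyz
        have a4 := htri x y z h1 hxz hyz
        have a5 := mul_le_mul_of_nonneg_left h2 (by linarith : 0 ≤ K)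
        linarith
  refine ⟨fun u v => sInf (S u v), fun u v => ?_, fun u => ?_, fun u v w => ?_, fun u v huv => ⟨?_, ?_⟩⟩
  · exact congrArg sInf (Set.ext fun t => and_congr_right fun _ => SimpleGraph.reachable_comm)
  · exact le_antisymm (csInf_le (hbdd _ _) (hmem0 u)) (le_csInf (hne _ _) fun t ht => ht.1)
  · by_contra hc
    obtain ⟨h1, h2⟩ := max_lt_iff.1 (not_le.1 hc)
    obtain ⟨t1, m1, l1⟩ := exists_lt_of_csInf_lt (hne _ _) h1
    obtain ⟨t2, m2, l2⟩ := exists_lt_of_csInf_lt (hne _ _) h2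
    have : max t1 t2 ∈ S u w := ⟨m1.1.trans (le_max_left _ _),
      (m1.2.mono (hmono _ _ (le_max_left _ _))).trans (m2.2.mono (hmono _ _ (le_max_right _ _)))⟩
    exact absurd (csInf_le (hbdd _ _) this) (not_le.2 (max_lt l1 l2))
  · exact csInf_le (hbdd _ _) (hmem u v huv)
  · have hn : (0 : ℝ) < Fintype.card V := by exact_mod_cast Fintype.card_pos_iff.2 ⟨u⟩
    rw [← div_le_iff₀' (by positivity)]
    refine le_csInf (hne _ _) fun t ht => ?_
    obtain ⟨p, hp⟩ := ht.2.exists_isPath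
    have a1 := (hwalk t ht.1 u v p).resolve_left huv
    have a2 : (p.length : ℝ) ≤ Fintype.card V := by exact_mod_cast hp.length_lt.le
    rw [div_le_iff₀' (by positivity)]
    exact a1.trans (mul_le_mul_of_nonneg_right (mul_le_mul_of_nonneg_right a2 (by linarith)) ht.1)

theorem ultra_pr (a : V → ℝ) (ha : ∀ v, 0 < a v) :
    pr (fun u v => s u v / (a u * a v)) = pr s := by
  have h1 : ∀ X : PM V, wt (fun u v => s u v / (a u * a v)) X =
      wt s X / ((∏ v, a v) * ∏ v, a v) := fun X => by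
    unfold wt
    rw [prod_div_distrib, prod_mul_distrib,
      (Function.Involutive.bijective (f := X.f) X.inv).prod_comp a]
  have h2 : 0 < (∏ v, a v) * ∏ v, a v :=
    mul_pos (prod_pos fun v _ => ha v) (prod_pos fun v _ => ha v)
  funext X
  unfold pr Zs
  simp only [h1]
  rw [← sum_div, div_div_div_cancel_right₀ h2.ne']

theorem ultra_xm_symm (p : PM V → ℝ) (u v : V) : xm p u v = xm p v u :=
  sum_congr rfl fun X _ => by rw [X.eq_iff]

theorem ultra_xm_le (hs : Wt s) (u v : V) : xm (pr s) u v ≤ 1 :=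
  le_trans (sum_le_sum fun X _ => mul_le_of_le_one_right (hs.pr_pos X).le (ind_le_one _))
    (four_sum_le hs)

theorem exists_ult [Inhabited V] (hs : Wt s) (h1 : 1 ≤ κ)
    (hκ : ∀ u v, u ≠ v → 1 ≤ κ * xm (pr s) u v) :
    ∃ s' ρ : V → V → ℝ, pr s' = pr s ∧ Ult s' ρ (κ * Fintype.card V * (1 + κ ^ 2)) := by
  obtain ⟨o⟩ : Nonempty V := inferInstance
  have hl : ∀ u v, 0 < s u v ^ 2 := fun u v => pow_pos (hs.pos u v) 2
  have hx : ∀ u v, u ≠ v → 0 < xm (pr s) u v := fun u v huv => by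
    have := hκ u v huv
    by_contra hc
    nlinarith
  obtain ⟨g, hg⟩ : ∃ g : V → V → ℝ, g = fun u v => xm (pr s) u v / s u v ^ 2 := ⟨_, rfl⟩
  have gpos : ∀ u v, u ≠ v → 0 < g u v := fun u v huv => by
    rw [hg]; exact div_pos (hx u v huv) (hl u v)
  have gsym : ∀ u v, g u v = g v u := fun u v => by
    rw [hg]; dsimp only; rw [ultra_xm_symm, hs.symm]
  have g4 : ∀ x y z, x ≠ y → x ≠ z → y ≠ z → x ≠ o → y ≠ o → z ≠ o →
      g x z * g o y ≤ g o x * g y z + (1 + κ ^ 2) * (g x y * g o z) := by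
    intro x y z hxy hxz hyz hx hy hz
    have a1 := four_point hs hxz hxy hx hyz.symm hz hy
    have a2 : 1 / (s x y ^ 2 * s z o ^ 2) ≤ κ ^ 2 * (g x y * g z o) := by
      rw [hg]
      dsimp only
      rw [div_mul_div_comm, ← mul_div_assoc]
      refine div_le_div_of_nonneg_right ?_ (mul_pos (hl _ _) (hl _ _)).le
      have := one_le_mul_of_one_le_of_one_le (hκ x y hxy) (hκ z o hz)
      linarith
    have a3 : g x z * g y o ≤ g x o * g z y + g x y * g z o + 1 / (s x y ^ 2 * s z o ^ 2) := by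
      rw [hg]; exact a1
    rw [gsym o y, gsym o x, gsym y z, gsym o z]
    linarith
  obtain ⟨R, hR0, hR⟩ : ∃ R : ℝ, 0 < R ∧ ∀ u v, g u v * ((g o u)⁻¹ * (g o v)⁻¹) ≤ R := by
    refine ⟨1 + ∑ u, ∑ v, |g u v * ((g o u)⁻¹ * (g o v)⁻¹)|, by positivity, fun u v => ?_⟩
    have a1 := single_le_sum (f := fun u => ∑ v, |g u v * ((g o u)⁻¹ * (g o v)⁻¹)|)
      (fun _ _ => sum_nonneg fun _ _ => abs_nonneg _) (mem_univ u)
    have a2 := single_le_sum (f := fun v => |g u v * ((g o u)⁻¹ * (g o v)⁻¹)|)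
      (fun _ _ => abs_nonneg _) (mem_univ v)
    linarith [le_abs_self (g u v * ((g o u)⁻¹ * (g o v)⁻¹))]
  obtain ⟨α, hα⟩ : ∃ α : V → ℝ, α = fun u => if u = o then R else (g o u)⁻¹ := ⟨_, rfl⟩
  have αo : α o = R := by simp [hα]
  have αn : ∀ u, u ≠ o → α u = (g o u)⁻¹ := fun u hu => by simp [hα, hu]
  have αpos : ∀ u, 0 < α u := fun u => by
    by_cases hu : u = o
    · rw [hu, αo]; exact hR0
    · rw [αn u hu]; exact inv_pos.2 (gpos _ _ (Ne.symm hu))
  have hpos : ∀ u v, u ≠ v → 0 < g u v * (α u * α v) := fun u v huv =>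
    mul_pos (gpos u v huv) (mul_pos (αpos u) (αpos v))
  have ho : ∀ u, u ≠ o → g o u * (α o * α u) = R := fun u hu => by
    rw [αo, αn u hu]
    field_simp [(gpos _ _ (Ne.symm hu)).ne']
  have ho' : ∀ u, u ≠ o → g u o * (α u * α o) = R := fun u hu => by
    rw [gsym, mul_comm (α u), ho u hu]
  have hK : (1 : ℝ) ≤ 1 + κ ^ 2 := by nlinarith
  obtain ⟨ρ, r1, r2, r3, r4⟩ := ultra_sub (fun u v => g u v * (α u * α v)) hK
    (fun u v => by rw [gsym, mul_comm (α u)]) hpos (by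
      intro x y z hxy hxz hyz
      have p1 := hpos x y hxy
      have p2 := hpos y z hyz
      have p3 := le_mul_of_one_le_left p1.le hK
      by_cases hx : x = o
      · subst hx
        rw [ho z hxz.symm]
        rw [ho y hxy.symm] at p3 ⊢
        linarith
      by_cases hz : z = o
      · subst hz
        rw [ho' x hxz, ho' y hyz]
        linarith
      by_cases hy : y = o
      · subst hy
        rw [ho z hyz.symm, αn x hx, αn z hz]
        rw [αn x hx] at p1 p3
        linarith [hR x z]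
      have q1 := gpos _ _ (Ne.symm hx)
      have q2 := gpos _ _ (Ne.symm hy)
      have q3 := gpos _ _ (Ne.symm hz)
      have a1 := mul_le_mul_of_nonneg_right (g4 x y z hxy hxz hyz hx hy hz)
        (by positivity : 0 ≤ (g o x)⁻¹ * (g o y)⁻¹ * (g o z)⁻¹)
      rw [αn x hx, αn y hy, αn z hz]
      refine le_trans (le_of_eq ?_) (a1.trans (le_of_eq ?_)) <;> field_simp)
  have hn : (1 : ℝ) ≤ Fintype.card V := by exact_mod_cast Fintype.card_pos_iff.2 ⟨o⟩
  have sq : ∀ u v, (s u v / (√(α u) * √(α v))) ^ 2 * (g u v * (α u * α v)) = xm (pr s) u v := by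
    intro u v
    rw [div_pow, mul_pow, Real.sq_sqrt (αpos u).le, Real.sq_sqrt (αpos v).le, hg]
    field_simp [(hs.pos u v).ne', (αpos u).ne', (αpos v).ne']
  refine ⟨fun u v => s u v / (√(α u) * √(α v)), ρ,
    ultra_pr _ fun v => Real.sqrt_pos.2 (αpos v), ⟨⟨fun u v => ?_, fun u v => ?_⟩, ?_, r1, r2,
      fun u v huv => ?_, r3, fun u v huv => ?_, fun u v huv => ?_⟩⟩
  · rw [hs.symm, mul_comm]
  · exact div_pos (hs.pos u v) (mul_pos (Real.sqrt_pos.2 (αpos u)) (Real.sqrt_pos.2 (αpos v)))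
  · exact one_le_mul_of_one_le_of_one_le (one_le_mul_of_one_le_of_one_le h1 hn) hK
  · have a1 := (hpos u v huv).trans_le (r4 u v huv).2
    exact pos_of_mul_pos_right a1 (by positivity) |> fun h => h
  · exact (mul_le_mul_of_nonneg_left (r4 u v huv).1 (sq_nonneg _)).trans
      ((sq u v).le.trans (ultra_xm_le hs u v))
  · have a1 := mul_le_mul_of_nonneg_left (r4 u v huv).2 (sq_nonneg (s u v / (√(α u) * √(α v))))
    rw [sq] at a1
    have a2 := mul_le_mul_of_nonneg_left a1 (by linarith : 0 ≤ κ)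
    linarith [hκ u v huv]

/-- The key inequality for saturated weights. -/
theorem key [Inhabited V] (hs : Wt s) (h1 : 1 ≤ κ) (hκ : ∀ u v, u ≠ v → 1 ≤ κ * xm (pr s) u v)
    (φ : PM V → ℝ) :
    ∑ X, ∑ Y, pr s X * pr s Y * (φ X - φ Y) ^ 2 ≤
      2 ^ 13 * (Fintype.card V : ℝ) ^ 10 * (κ * Fintype.card V * (1 + κ ^ 2)) ^ 5 *
        (Dsw (pr s) φ + Dex (pr s) φ) := by
  obtain ⟨s', ρ, e, h⟩ := exists_ult hs h1 hκ
  rw [← e]
  exact key_ult h φ

end Crest.Agent.R304
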