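import Crest.Agent.R304.Step
import Crest.Agent.R304.Pop3
import Crest.Agent.R304.Ultra
import Crest.Agent.R304.EL
import Crest.Agent.R304.Count

/-!
# R304/Mix: one stage mixes the population
-/

set_option autoImplicit false

namespace Crest.Agent.R304

open Finset Crest.Agent.R309 Crest.Agent.Lib.PT

variable {N n : ℕ} {adj : Fin n → Fin n → Prop} {k : Fin n → Fin n → ℤ}

/-- induction on `t` with `Ex_iter_succ`, `Ex_popstep`, `Function.iterate_succ_apply'` -/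
theorem Ex_iter_popstep (h : Fits N n) (hk : ∀ u v, |k u v| ≤ pS N) {K : ℕ} (hK : K ≤ pK0 N)
    (t : ℕ) (x : Fin K → PM (Fin n)) (F : List (List ℕ) → ℝ) :
    Ex (t * rho2 N)
        (fun ω => F (iter (popstep N n (kL k)) (rho2 N) t ((List.ofFn x).map toL) ω)) =
      (popOp (PK (pK (pQ N) k) N) (pT N))^[t] (fun y => F ((List.ofFn y).map toL)) x := by
  induction t generalizing x with
  | zero => simp [Ex]
  | succ t ih =>
    rw [Ex_iter_succ, Function.iterate_succ_apply',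
      Ex_popstep h hk hK x fun pop => Ex (t * rho2 N) fun l =>
        F (iter (popstep N n (kL k)) (rho2 N) t pop l)]
    simp only [ih]

theorem pK_pos (h : Fits N n) (k : Fin n → Fin n → ℤ) (X : PM (Fin n)) : 0 < pK (pQ N) k X := by
  have : Nonempty (PM (Fin n)) := ⟨X⟩
  refine div_pos ?_ (ZK_pos h.one_lt_pQ k)
  rw [wt_sK h.one_lt_pQ]
  exact zpow_pos (rQ_pos h.one_lt_pQ) _

theorem law_pK (h : Fits N n) (he : Even n) (k : Fin n → Fin n → ℤ) : Law (pK (pQ N) k) := by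
  have : Nonempty (PM (Fin n)) := nonempty_PM (by rwa [Fintype.card_fin])
  refine ⟨fun X => (pK_pos h k X).le, ?_⟩
  unfold pK pr
  rw [← sum_div]
  exact div_self (ZK_pos h.one_lt_pQ k).ne'

theorem mix_num {x y : ℝ} (hx : 1 ≤ x) (hxy : x ≤ y) (hy : 2 ^ 20 ≤ y) :
    400 * (2 ^ 13 * x ^ 10 * (32 * x ^ 2 * x * (1 + (32 * x ^ 2) ^ 2)) ^ 5) * y ^ 2 ≤ y ^ 60 := by
  have hy1 : 1 ≤ y := hx.trans hxy
  have h4 : 1 ≤ y ^ 4 := one_le_pow₀ hy1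
  have h1 : 32 * x ^ 2 * x * (1 + (32 * x ^ 2) ^ 2) ≤ 2 ^ 16 * y ^ 7 := by
    calc 32 * x ^ 2 * x * (1 + (32 * x ^ 2) ^ 2) ≤ 32 * y ^ 2 * y * (1024 * y ^ 4 + (32 * y ^ 2) ^ 2) := by
          gcongr; linarith
      _ = 2 ^ 16 * y ^ 7 := by ring
  have h2 : (2 : ℝ) ^ 120 ≤ y ^ 6 := by
    calc (2 : ℝ) ^ 120 = (2 ^ 20) ^ 6 := by norm_num
      _ ≤ y ^ 6 := by gcongr
  calc 400 * (2 ^ 13 * x ^ 10 * (32 * x ^ 2 * x * (1 + (32 * x ^ 2) ^ 2)) ^ 5) * y ^ 2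
      ≤ 400 * (2 ^ 13 * y ^ 10 * (2 ^ 16 * y ^ 7) ^ 5) * y ^ 2 := by gcongr
    _ = (400 * 2 ^ 93) * y ^ 47 := by ring
    _ ≤ y ^ 6 * y ^ 47 := by gcongr; exact le_trans (by norm_num) h2
    _ = y ^ 53 := by ring
    _ ≤ y ^ 60 := pow_le_pow_right₀ hy1 (by norm_num)

/-- `key` with `κ = 32 n²`: `κ n (1 + κ²) ≤ 2 ^ 16 n ^ 7`, so `C ≤ 2 ^ 93 N ^ 45` and `400 C N² ≤ 2 ^ 102 N ^ 47 ≤ N ^ 60`; `pairK_of_key` -/
theorem pairK_pK (h : Fits N n) (he : Even n) (hn : 0 < n) (hI : Inv adj (pQ N) k) :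
    PairK (pK (pQ N) k) (PK (pK (pQ N) k) N) (1 / ((N ^ 60 : ℕ) : ℝ)) := by
  have : Inhabited (Fin n) := ⟨⟨0, hn⟩⟩
  have hn1 : (1 : ℝ) ≤ n := by exact_mod_cast hn
  have hn2 : (1 : ℝ) ≤ (n : ℝ) ^ 2 := one_le_pow₀ hn1
  have hκ : (1 : ℝ) ≤ 32 * (n : ℝ) ^ 2 := by linarith
  have hkey := key (κ := 32 * (n : ℝ) ^ 2) (Wt_sK h.one_lt_pQ hI.symm) hκ fun u v huv => by
    have h1 := hI.sat u v huv
    rw [eta, Fintype.card_fin] at h1
    calc (1 : ℝ) = 32 * (n : ℝ) ^ 2 * (1 / (8 * (n : ℝ) ^ 2) / 4) := by field_simp; norm_num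
      _ ≤ _ := mul_le_mul_of_nonneg_left h1 (by linarith)
  rw [Fintype.card_fin] at hkey
  have hC : (1 : ℝ) ≤ 2 ^ 13 * (n : ℝ) ^ 10 *
      (32 * (n : ℝ) ^ 2 * n * (1 + (32 * (n : ℝ) ^ 2) ^ 2)) ^ 5 :=
    one_le_mul_of_one_le_of_one_le (one_le_mul_of_one_le_of_one_le (by norm_num) (one_le_pow₀ hn1))
      (one_le_pow₀ (one_le_mul_of_one_le_of_one_le (one_le_mul_of_one_le_of_one_le hκ hn1)
        (le_add_of_nonneg_right (by positivity))))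
  have h0 : (0 : ℝ) < N := lt_of_lt_of_le (by norm_num) h.real_big
  refine pairK_of_key (pK_pos h k) (law_pK h he k).sum h.le (by have := h.big; omega) hC hkey ?_
  refine one_div_le_one_div_of_le (by positivity) ?_
  push_cast
  exact mix_num hn1 h.real_le h.real_big

theorem mix_nat {N : ℕ} (h : 2 ^ 20 ≤ N) : pK0 N ≤ 2 ^ N ^ 60 := by
  have e1 : N ≤ 2 ^ N := Nat.lt_two_pow_self.le
  have e2 : N ^ 2 ≤ N ^ 60 := Nat.pow_le_pow_right (by omega) (by norm_num)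
  have e3 : 1 + N * 1620 ≤ N ^ 2 := by nlinarith
  calc pK0 N ≤ 2 ^ 1 * (2 ^ N) ^ 1620 := Nat.mul_le_mul (by norm_num) (Nat.pow_le_pow_left e1 _)
    _ = 2 ^ (1 + N * 1620) := by rw [← pow_mul, ← pow_add]
    _ ≤ _ := Nat.pow_le_pow_right (by norm_num) (e3.trans e2)

/-- `EL_eq_sum`, `Ex_iter_popstep`, `pop_mix` with `G = N ^ 60`, `M = T = pT N` -/
theorem mix_pop (h : Fits N n) (he : Even n) (hn : 0 < n) (hI : Inv adj (pQ N) k)
    (hk : ∀ u v, |k u v| ≤ pS N) {K : ℕ} (hK : N ^ 1620 ≤ K) (hK' : K ≤ pK0 N)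
    {ν : PM (Fin n) → ℝ} (hν : Law ν)
    (hν' : ∀ X, ν X ≤ (1 + 1 / (1280 * (N : ℝ) ^ 180)) * pK (pQ N) k X)
    (F : List (List ℕ) → ℝ) (hF : ∀ l, |F l| ≤ 1) :
    |(EL ν K fun xs => Ex (rho3 N) fun ω => F (run N n (kL k) (xs.map toL) ω)) -
      EL (pK (pQ N) k) K fun xs => F (xs.map toL)| ≤ (1 / 2) ^ (N ^ 60) := by
  have hN := h.big
  have h0 : 0 < N := by omega
  have a1 : 4096 ≤ N ^ 60 := le_trans (by omega) (Nat.le_self_pow (by norm_num) N)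
  have a2 : (N ^ 60) ^ 5 ≤ K := by
    rw [← pow_mul]
    exact (Nat.pow_le_pow_right h0 (by norm_num)).trans hK
  have a3 := mix_nat hN
  have a4 : K ^ 2 ≤ pT N := by
    rw [← pK0_mul_self, sq]
    exact Nat.mul_le_mul hK' hK'
  have a5 : pT N ≤ 16 * K ^ 2 := by
    have : pT N = 4 * (N ^ 1620) ^ 2 := by rw [pT, ← pow_mul]
    rw [this]
    exact Nat.mul_le_mul (by norm_num) (Nat.pow_le_pow_left hK 2)
  have a6 : pT N ≤ 8 ^ N ^ 60 := by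
    rw [← pK0_mul_self]
    refine (Nat.mul_le_mul a3 a3).trans ?_
    rw [← mul_pow]
    exact Nat.pow_le_pow_left (by norm_num) _
  have a7 : (((N ^ 60 : ℕ) : ℝ)) ^ 3 = (N : ℝ) ^ 180 := by
    push_cast
    rw [← pow_mul]
  have := pop_mix (pK_pos h k) (law_pK h he k).sum (pairK_pK h he hn hI) a1 a2 (hK'.trans a3) a4 a5
    a4 a6 hν.nonneg hν.sum (by rw [a7]; exact hν') (fun y => F ((List.ofFn y).map toL))
    fun _ => hF _
  rw [EL_eq_sum, EL_eq_sum]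
  simp only [rho3, run, Ex_iter_popstep h hk hK']
  exact this

end Crest.Agent.R304
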