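import Crest.Agent.R304.Refine
import Crest.Agent.R304.Ann2
import Crest.Agent.R304.EL
import Crest.Agent.R304.Count

/-!
# R304/Next: the control state
-/

set_option autoImplicit false

namespace Crest.Agent.R304

open Finset Crest.Agent.R309 Crest.Agent.Lib.PT

variable {N n : ℕ} {adj : Fin n → Fin n → Prop} {kp k : Fin n → Fin n → ℤ} {s : ℕ} {Zh : ℚ}

theorem next_cheb {Ω : Type} [Fintype Ω] {ν : Ω → ℝ} (h : Law ν) {K : ℕ} (hK : 0 < K) (X : Ω → ℝ)
    {R t : ℝ} (hX : ∀ x, |X x| ≤ R) (ht : 0 < t) :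
    EL ν K (fun l => ind (¬ |(l.map X).sum / K - ∑ x, ν x * X x| ≤ t)) ≤ R ^ 2 / t ^ 2 / K := by
  have hK' : (0 : ℝ) < K := by exact_mod_cast hK
  refine le_trans (EL_mono h fun l _ => ind_mono fun hl => ?_)
    ((EL_cheb h K X hX (a := K * t) (by positivity)).trans_eq (by field_simp))
  have e : (l.map X).sum - K * ∑ x, ν x * X x = K * ((l.map X).sum / K - ∑ x, ν x * X x) := by
    field_simp
  rw [e, abs_mul, abs_of_pos hK']
  exact mul_le_mul_of_nonneg_left (not_le.1 hl).le hK'.le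

theorem Fits.two_mul_le (h : Fits N n) : 2 * (n : ℝ) ≤ pQ N := by
  have := h.hundred
  rw [Fintype.card_fin] at this
  have h0 : (0 : ℝ) ≤ n := Nat.cast_nonneg _
  linarith

theorem next_pow (h : Fits N n) (hc : ∀ u v, |kp u v - k u v| ≤ 1) (X : PM (Fin n)) :
    0.99 ≤ rQ (pQ N) ^ (en kp X - en k X) ∧ rQ (pQ N) ^ (en kp X - en k X) ≤ 2 := by
  have h1 := abs_en_sub_le hc X
  rw [Fintype.card_fin] at h1
  obtain ⟨h2, h3⟩ := rQ_zpow_le h.one_lt_pQ h.two_mul_le h1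
  have h4 := h.hundred
  rw [Fintype.card_fin] at h4
  have h0 : 0 < pQ N := lt_trans one_pos h.one_lt_pQ
  have h5 : (n : ℝ) / pQ N ≤ 0.01 := by rw [div_le_iff₀ h0]; linarith
  rw [mul_div_assoc] at h3
  constructor <;> linarith

theorem Fits.pS_pos (h : Fits N n) : 0 < pS N := Nat.pow_pos (by have := h.big; omega)

theorem Fits.pb_pos (h : Fits N n) : 0 < pb N := Nat.pow_pos (by have := h.big; omega)

theorem next_num (h : Fits N n) {c : ℝ} (hc : c ≤ 2 ^ 20 * (N : ℝ) ^ 6 * (pS N : ℝ) ^ 2) :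
    c / pb N ≤ 1 / (192 * (pS N : ℝ)) := by
  have h1 := h.real_big
  have hS : (0 : ℝ) < pS N := by exact_mod_cast h.pS_pos
  have hb : (0 : ℝ) < pb N := by exact_mod_cast h.pb_pos
  have h0 : (0 : ℝ) < N := lt_of_lt_of_le (by norm_num) h1
  have e : (pb N : ℝ) = (pS N : ℝ) ^ 3 * (N : ℝ) ^ 180 := by
    have : pb N = pS N ^ 3 * N ^ 180 := by rw [pb, pS, ← pow_mul, ← pow_add]
    exact_mod_cast this
  have h2 : (N : ℝ) ^ 8 ≤ (N : ℝ) ^ 180 := pow_le_pow_right₀ (le_trans (by norm_num) h1) (by norm_num)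
  have h3 : 192 * 2 ^ 20 ≤ (N : ℝ) ^ 2 := by nlinarith
  rw [div_le_div_iff₀ hb (by positivity), one_mul, e]
  calc c * (192 * (pS N : ℝ)) ≤ 2 ^ 20 * (N : ℝ) ^ 6 * (pS N : ℝ) ^ 2 * (192 * (pS N : ℝ)) := by
        gcongr
    _ = (pS N : ℝ) ^ 3 * ((N : ℝ) ^ 6 * (192 * 2 ^ 20)) := by ring
    _ ≤ (pS N : ℝ) ^ 3 * ((N : ℝ) ^ 6 * (N : ℝ) ^ 2) := by gcongr
    _ = (pS N : ℝ) ^ 3 * (N : ℝ) ^ 8 := by ring
    _ ≤ _ := by gcongr

theorem eta_fin (n : ℕ) : eta (Fin n) = 1 / (8 * (n : ℝ) ^ 2) := by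
  rw [eta, Fintype.card_fin]

theorem next_law (h : Fits N n) (he : Even n) (k : Fin n → Fin n → ℤ) : Law (pK (pQ N) k) := by
  have : Nonempty (PM (Fin n)) := nonempty_PM (by rwa [Fintype.card_fin])
  have hZ := ZK_pos h.one_lt_pQ k
  refine ⟨fun X => div_nonneg ?_ hZ.le, ?_⟩
  · rw [wt_sK h.one_lt_pQ]
    exact (zpow_pos (rQ_pos h.one_lt_pQ) _).le
  · unfold pK pr
    rw [← sum_div]
    exact div_self hZ.ne'

/-- `EL_cheb` for the three kinds of estimates (`ratio_mean`, `rQ_zpow_le` with `R = 2`; `fin_mean`, `R = 1`; `xm`, `R = 1`) and the union bound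
`ind (¬ GoodB ..) ≤ ind .. + ind .. + ∑ u, ∑ v, ind ..`: the total is at most `(2304 N² S² + 256 N² + 25600 n ^ 6) / b`. -/
theorem batch_bad (h : Fits N n) (he : Even n) (hn : 0 < n) (hI : Inv adj (pQ N) k)
    (hc : ∀ u v, |kp u v - k u v| ≤ 1) :
    EL (pK (pQ N) k) (pb N) (fun B => ind (¬ GoodB N adj kp k B)) ≤ 1 / (64 * pS N) := by
  have : Nonempty (PM (Fin n)) := nonempty_PM (by rwa [Fintype.card_fin])
  have hQ := h.one_lt_pQ
  have hL := next_law h he k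
  have h1 := h.real_big
  have h2 := h.real_le
  have hS : (1 : ℝ) ≤ pS N := by exact_mod_cast h.pS_pos
  have h0 : (0 : ℝ) < N := lt_of_lt_of_le (by norm_num) h1
  have hN1 : (1 : ℝ) ≤ N := le_trans (by norm_num) h1
  have hn' : (0 : ℝ) < n := by exact_mod_cast hn
  have c1 := next_cheb hL h.pb_pos (fun X => rQ (pQ N) ^ (en kp X - en k X)) (R := 2)
    (t := 1 / (24 * N * pS N)) (fun X => by
      obtain ⟨a, b⟩ := next_pow h hc X
      exact abs_le.2 ⟨by linarith, b⟩) (by positivity)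
  rw [ratio_mean hQ] at c1
  have c2 := next_cheb hL h.pb_pos (fin adj (pQ N) k) (R := 1) (t := 1 / (16 * N))
    (fun X => abs_le.2 ⟨by have := fin_nonneg hQ adj k X; linarith, fin_le_one hQ hI.le X⟩)
    (by positivity)
  rw [fin_mean hQ] at c2
  have c3 := fun u v : Fin n => next_cheb hL h.pb_pos (fun X => ind (X.f u = v)) (R := 1)
    (t := eta (Fin n) / 20)
    (fun X => abs_le.2 ⟨by have := ind_nonneg (X.f u = v); linarith, ind_le_one _⟩)
    (by rw [eta_fin]; positivity)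
  have c4 := sum_le_sum fun u (_ : u ∈ univ) => sum_le_sum fun v (_ : v ∈ univ) => c3 u v
  simp only [← EL_sum, sum_const, card_univ, Fintype.card_fin, nsmul_eq_mul] at c4
  have p2 : (N : ℝ) ^ 2 ≤ (N : ℝ) ^ 6 := pow_le_pow_right₀ hN1 (by norm_num)
  have p3 : (1 : ℝ) ≤ (pS N : ℝ) ^ 2 := one_le_pow₀ hS
  have p4 : (n : ℝ) ^ 6 ≤ (N : ℝ) ^ 6 := pow_le_pow_left₀ hn'.le h2 _
  have p5 : (0 : ℝ) < (N : ℝ) ^ 2 := by positivity
  have p6 : (N : ℝ) ^ 6 ≤ (N : ℝ) ^ 6 * (pS N : ℝ) ^ 2 := le_mul_of_one_le_right (by positivity) p3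
  have p7 : (N : ℝ) ^ 2 * (pS N : ℝ) ^ 2 ≤ (N : ℝ) ^ 6 * (pS N : ℝ) ^ 2 := by gcongr
  have p8 : (0 : ℝ) ≤ (N : ℝ) ^ 6 * (pS N : ℝ) ^ 2 := by positivity
  have d1 := next_num h (c := 2 ^ 2 / (1 / (24 * N * pS N : ℝ)) ^ 2) (by
    rw [show (2 : ℝ) ^ 2 / (1 / (24 * N * pS N : ℝ)) ^ 2 = 2304 * ((N : ℝ) ^ 2 * (pS N : ℝ) ^ 2) by
      field_simp; norm_num]
    linarith)
  have d2 := next_num h (c := 1 ^ 2 / (1 / (16 * N : ℝ)) ^ 2) (by
    rw [show (1 : ℝ) ^ 2 / (1 / (16 * N : ℝ)) ^ 2 = 256 * (N : ℝ) ^ 2 by field_simp; norm_num]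
    linarith)
  have d3 := next_num h (c := n * (n * (1 ^ 2 / (eta (Fin n) / 20) ^ 2))) (by
    rw [eta_fin, show (n : ℝ) * (n * (1 ^ 2 / (1 / (8 * (n : ℝ) ^ 2) / 20) ^ 2)) = 25600 * (n : ℝ) ^ 6 by
      field_simp; norm_num]
    linarith)
  rw [mul_div_assoc, mul_div_assoc] at d3
  have c5 := add_le_add (add_le_add (c1.trans d1) (c2.trans d2)) (c4.trans d3)
  rw [← EL_add, ← EL_add] at c5
  refine le_trans (EL_mono hL fun B _ => ?_) (c5.trans_eq (by field_simp; norm_num))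
  have n3 : ∀ u, 0 ≤ ∑ v, ind (¬ |(B.map fun X => ind (X.f u = v)).sum / pb N -
      ∑ X, pK (pQ N) k X * ind (X.f u = v)| ≤ eta (Fin n) / 20) :=
    fun u => sum_nonneg fun _ _ => ind_nonneg _
  have n4 := sum_nonneg fun u (_ : u ∈ univ) => n3 u
  by_cases hG : GoodB N adj kp k B
  · rw [ind_neg (not_not.2 hG)]
    exact add_nonneg (add_nonneg (ind_nonneg _) (ind_nonneg _)) n4
  rw [ind_pos hG]
  by_cases g1 : |(B.map fun X => rQ (pQ N) ^ (en kp X - en k X)).sum / pb N -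
      ZK (pQ N) kp / ZK (pQ N) k| ≤ 1 / (24 * N * pS N)
  · by_cases g2 : |(B.map (fin adj (pQ N) k)).sum / pb N - cnt adj / ZK (pQ N) k| ≤ 1 / (16 * N)
    · have g3 : ∃ u v, ¬ |(B.map fun X => ind (X.f u = v)).sum / pb N -
          ∑ X, pK (pQ N) k X * ind (X.f u = v)| ≤ eta (Fin n) / 20 := by
        by_contra g3
        exact hG ⟨g1, g2, fun u v => not_not.1 fun g => g3 ⟨u, v, g⟩⟩
      obtain ⟨u, v, g3⟩ := g3
      refine le_add_of_nonneg_of_le (add_nonneg (ind_nonneg _) (ind_nonneg _)) ?_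
      refine le_trans ?_ (single_le_sum (fun u _ => n3 u) (mem_univ u))
      refine le_trans ?_ (single_le_sum (fun v _ => ind_nonneg _) (mem_univ v))
      exact (ind_pos g3).ge
    · rw [ind_pos g2]
      exact le_add_of_le_of_nonneg (le_add_of_nonneg_left (ind_nonneg _)) n4
  · rw [ind_pos g1]
    exact le_add_of_le_of_nonneg (le_add_of_nonneg_right (ind_nonneg _)) n4

theorem card_PM_eq (he : Even n) : Fintype.card (PM (Fin n)) = dfact n := by
  obtain ⟨m, hm⟩ := he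
  rw [card_PM (m := n / 2) (by rw [Fintype.card_fin]; omega), dfact]

theorem pK_zero (he : Even n) (Q : ℝ) (X : PM (Fin n)) :
    pK Q (fun _ _ : Fin n => 0) X = 1 / dfact n := by
  have := ZK_zero (V := Fin n) Q
  rw [card_PM_eq he] at this
  unfold pK pr
  rw [← this]
  simp [wt, sK]

theorem run_zero (he : Even n) (N : ℕ) (adj : Fin n → Fin n → Prop) :
    Run N adj 0 (fun _ _ => 0) (fun _ _ => 0) (dfact n) := by
  have : Nonempty (PM (Fin n)) := nonempty_PM (by rwa [Fintype.card_fin])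
  refine ⟨inv_zero _ _, fun _ _ => by simp, fun _ _ => by simp, ?_, ?_⟩
  · simpa using psi_zero (V := Fin n) (pQ N)
  · rw [ZK_zero, card_PM_eq he]
    simp

/-- `psi_nonneg`, `32 n⁴ < N ^ 120` -/
theorem run_end (h : Fits N n) (hn : 0 < n) (hc : 0 < cnt adj) :
    ¬ Run N adj (pS N) kp k Zh := by
  intro hR
  have h1 := (psi_nonneg h.one_lt_pQ hR.inv.le hc).trans hR.psi
  have h2 := h.real_big
  have h3 := h.real_le
  have h0 : (0 : ℝ) < N := lt_of_lt_of_le (by norm_num) h2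
  have hn' : (0 : ℝ) < n := by exact_mod_cast hn
  have hQ : 0 < pQ N := lt_trans one_pos h.one_lt_pQ
  have e : (pS N : ℝ) = (N : ℝ) ^ 120 * pQ N := by
    have : pS N = N ^ 120 * N ^ 240 := by rw [pS, ← pow_add]
    rw [pQ]
    exact_mod_cast this
  have e2 : (pS N : ℝ) * (eta (Fin n) / (4 * pQ N)) = (N : ℝ) ^ 120 / (32 * (n : ℝ) ^ 2) := by
    rw [e, eta_fin]; field_simp; norm_num
  rw [e2, sub_nonneg, div_le_iff₀ (by positivity)] at h1
  have h4 : (N : ℝ) ^ 5 ≤ (N : ℝ) ^ 120 := pow_le_pow_right₀ (le_trans (by norm_num) h2) (by norm_num)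
  have h5 : (n : ℝ) ^ 4 ≤ (N : ℝ) ^ 4 := pow_le_pow_left₀ hn'.le h3 _
  have h6 : (0 : ℝ) < (N : ℝ) ^ 4 := by positivity
  nlinarith

theorem next_acc {Z Z' Zh r τ s : ℝ} (hZ' : 0 < Z') (h1 : 0.99 ≤ Z / Z') (h2 : |r - Z / Z'| ≤ τ / 6)
    (h3 : |Zh - Z| ≤ s * τ * Z) (hs : 0 ≤ s) (hτ : 0 ≤ τ) (h4 : (s + 1) * τ ≤ 1 / 4) :
    |Zh / r - Z'| ≤ (s + 1) * τ * Z' := by
  obtain ⟨ρ, rfl⟩ : ∃ ρ, Z = ρ * Z' := ⟨Z / Z', by field_simp⟩
  rw [mul_div_assoc, div_self hZ'.ne', mul_one] at h1 h2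
  obtain ⟨a1, a2⟩ := abs_le.1 h2
  have hsτ : 0 ≤ s * τ := mul_nonneg hs hτ
  have hr : 0.9 ≤ r := by nlinarith
  have hr0 : 0 < r := by linarith
  have e : Zh / r - Z' = ((Zh - ρ * Z') - (r - ρ) * Z') / r := by field_simp; ring
  rw [e, abs_div, abs_of_pos hr0, div_le_iff₀ hr0]
  refine (abs_sub _ _).trans ?_
  rw [abs_mul, abs_of_pos hZ']
  have b1 : |r - ρ| * Z' ≤ τ / 6 * Z' := mul_le_mul_of_nonneg_right h2 hZ'.le
  have b2 : s * τ * ρ + τ / 6 ≤ (s + 1) * τ * r := by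
    have c1 : s * τ * (ρ - r) ≤ s * τ * (τ / 6) := mul_le_mul_of_nonneg_left (by linarith) hsτ
    have c2 : s * τ * τ ≤ 1 / 4 * τ := mul_le_mul_of_nonneg_right (by nlinarith) hτ
    have c3 : τ * 0.9 ≤ τ * r := mul_le_mul_of_nonneg_left hr hτ
    nlinarith
  have b3 := mul_le_mul_of_nonneg_right b2 hZ'.le
  nlinarith

theorem next_out {Z Zh c f ε : ℝ} (hZ : 0 < Z) (h1 : |f - c / Z| ≤ ε / 16) (h2 : 1 / 2 ≤ f)
    (h3 : |Zh - Z| ≤ ε / 4 * Z) (hε : 0 ≤ ε) (hε1 : ε ≤ 1) : |Zh * f - c| ≤ c * ε := by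
  obtain ⟨g, rfl⟩ : ∃ g, c = g * Z := ⟨c / Z, by field_simp⟩
  rw [mul_div_assoc, div_self hZ.ne', mul_one] at h1
  obtain ⟨a1, a2⟩ := abs_le.1 h1
  have e : Zh * f - g * Z = (Zh - Z) * f + (f - g) * Z := by ring
  rw [e]
  refine (abs_add_le _ _).trans ?_
  rw [abs_mul, abs_mul, abs_of_pos hZ, abs_of_pos (by linarith : 0 < f)]
  have b1 : |Zh - Z| * f ≤ ε / 4 * Z * f := mul_le_mul_of_nonneg_right h3 (by linarith)
  have b2 : |f - g| * Z ≤ ε / 16 * Z := mul_le_mul_of_nonneg_right h1 hZ.le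
  have b3 : f / 4 + 1 / 16 ≤ g := by linarith
  have b4 := mul_le_mul_of_nonneg_right b3 (mul_nonneg hε hZ.le)
  nlinarith

theorem next_countP (B : List (PM (Fin n))) (u v : Fin n) :
    (B.map fun X => ind (X.f u = v)).sum = B.countP fun X => decide (X.f u = v) := by
  induction B with
  | nil => simp
  | cons X B ih =>
    rw [List.map_cons, List.sum_cons, ih, List.countP_cons]
    by_cases hX : X.f u = v <;> simp [ind, hX, add_comm]

theorem small_symm {B : List (PM (Fin n))} {u v : Fin n} (h : Small B u v) : Small B v u := by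
  refine ⟨h.1.symm, ?_⟩
  have := h.2
  simpa only [PM.eq_iff _ (u := u)] using this

theorem small_iff (hn : 0 < n) {B : List (PM (Fin n))} (hB : 0 < B.length) {u v : Fin n}
    (huv : u ≠ v) :
    Small B u v ↔ (B.map fun X => ind (X.f u = v)).sum / B.length < eta (Fin n) / 2 := by
  have hn' : (0 : ℝ) < n := by exact_mod_cast hn
  have hB' : (0 : ℝ) < B.length := by exact_mod_cast hB
  rw [next_countP, eta_fin, div_div, div_lt_div_iff₀ hB' (by positivity), one_mul, Small,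
    and_iff_right huv, ← Nat.cast_lt (α := ℝ)]
  push_cast
  constructor <;> intro h <;> linarith

/-- Let `ρ = Z kp / Z k ≥ 0.99` (`ratio_mean`, `rQ_zpow_le`).  Then `Zh' = Zh / ratL` has relative error at most `(s + 1) / (4 N S) ≤ 1 / (4 N)` for `Z k`.
If `finL ≥ 1/2` then `cnt / Z k ≥ 0.4` and the output has relative error at most `1 / N`.  Otherwise `cnt / Z k ≤ 0.6`; `Small B u v` gives `xm ≤ 0.55 η`, its negation `xm ≥ 0.45 η` for `u ≠ v`
(`B.countP .. = (B.map fun X => ind ..).sum`); use `up_inv`, `up_psi` or `dn_inv`, `dn_psi`. -/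
theorem ctl_next [DecidableRel adj] (h : Fits N n) (he : Even n) (hn : 0 < n)
    (ha : ∀ u v, adj u v → adj v u) (hR : Run N adj s kp k Zh) (hs : s < pS N)
    {B : List (PM (Fin n))} (hB : B.length = pb N) (hG : GoodB N adj kp k B) :
    (∃ z : ℚ, (ctlL N n (adjL adj) (kL kp, kL k, Zh, none) (B.map toL)).2.2.2 = some z ∧
      |(z : ℝ) - cnt adj| ≤ cnt adj / N) ∨
    ∃ k' Zh', ctlL N n (adjL adj) (kL kp, kL k, Zh, none) (B.map toL) = (kL k, kL k', Zh', none) ∧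
      Run N adj (s + 1) k k' Zh' := by
  have : Nonempty (PM (Fin n)) := nonempty_PM (by rwa [Fintype.card_fin])
  have : Nonempty (Fin n) := ⟨⟨0, hn⟩⟩
  have hQ := h.one_lt_pQ
  have hL := next_law h he k
  have h1 := h.real_big
  have hS : (0 : ℝ) < pS N := by exact_mod_cast h.pS_pos
  have h0 : (0 : ℝ) < N := lt_of_lt_of_le (by norm_num) h1
  have hN1 : (1 : ℝ) ≤ N := le_trans (by norm_num) h1
  have hZ := ZK_pos hQ k
  have hk : ∀ u v, |k u v| ≤ pS N := fun u v => (hR.bd u v).trans (by exact_mod_cast hs.le)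
  have e1 := ratL_toL h hR.close B
  have e2 := finL_toL adj h hk B
  rw [hB] at e1 e2
  have g1 := hG.rat
  have g2 := hG.fin
  rw [← e1] at g1
  rw [← e2] at g2
  have hρ : 0.99 ≤ ZK (pQ N) kp / ZK (pQ N) k := by
    rw [← ratio_mean hQ]
    calc (0.99 : ℝ) = ∑ X, pK (pQ N) k X * 0.99 := by rw [← sum_mul, hL.sum, one_mul]
      _ ≤ _ := sum_le_sum fun X _ =>
        mul_le_mul_of_nonneg_left (next_pow h hR.close X).1 (hL.nonneg X)
  have hs' : (s : ℝ) + 1 ≤ pS N := by exact_mod_cast hs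
  have hτ0 : (0 : ℝ) ≤ 1 / (4 * N * pS N) := (one_div_pos.2 (mul_pos (by linarith) hS)).le
  have hτ : ((s : ℝ) + 1) * (1 / (4 * N * pS N)) ≤ 1 / N / 4 :=
    (mul_le_mul_of_nonneg_right hs' hτ0).trans_eq (by field_simp)
  have hε : (1 : ℝ) / N ≤ 1 := by rw [div_le_one h0]; exact hN1
  have hacc := next_acc (Zh := Zh) (τ := 1 / (4 * N * pS N)) (s := s) hZ hρ
    (g1.trans_eq (by field_simp; norm_num)) (hR.acc.trans_eq (by ring)) (Nat.cast_nonneg _)
    hτ0 (by linarith)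
  by_cases hf : 1 / 2 ≤ finL N n (adjL adj) (kL k) (B.map toL)
  · refine Or.inl ⟨_, by simp only [ctlL, if_pos hf]; rfl, ?_⟩
    have hf' : (1 : ℝ) / 2 ≤ finL N n (adjL adj) (kL k) (B.map toL) := by
      have := (Rat.cast_le (K := ℝ)).2 hf
      push_cast at this
      exact this
    have := next_out (ε := 1 / N) hZ (g2.trans_eq (by field_simp)) hf'
      (hacc.trans (mul_le_mul_of_nonneg_right hτ hZ.le)) (by positivity) hε
    push_cast
    exact this.trans_eq (by ring)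
  · have hf' : (finL N n (adjL adj) (kL k) (B.map toL) : ℝ) < 1 / 2 := by
      have := (Rat.cast_lt (K := ℝ)).2 (not_le.1 hf)
      push_cast at this
      exact this
    have hB0 : 0 < B.length := hB ▸ h.pb_pos
    have m1 : ∀ u v, Small B u v → u ≠ v ∧ xm (pK (pQ N) k) u v ≤ 0.55 * eta (Fin n) := by
      intro u v hS
      have a1 := (small_iff hn hB0 hS.1).1 hS
      have a2 := (abs_le.1 (hG.edge u v)).1
      rw [hB] at a1
      exact ⟨hS.1, by linarith⟩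
    have m2 : ∀ u v, u ≠ v → ¬ Small B u v → 0.45 * eta (Fin n) ≤ xm (pK (pQ N) k) u v := by
      intro u v huv hS
      have a1 := not_lt.1 ((small_iff hn hB0 huv).not.1 hS)
      have a2 := (abs_le.1 (hG.edge u v)).2
      rw [hB] at a1
      linarith
    refine Or.inr ⟨if ∃ u v, Small B u v then kup (Small B) k else kdn adj k,
      Zh / ratL N n (kL kp) (kL k) (B.map toL), by simp only [ctlL, if_neg hf, updL_toL], ?_⟩
    have key : ∀ k' : Fin n → Fin n → ℤ, Inv adj (pQ N) k' → (∀ u v, |k u v - k' u v| ≤ 1) →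
        Psi (pQ N) k' ≤ Psi (pQ N) k - eta (Fin n) / (4 * pQ N) →
        Run N adj (s + 1) k k' (Zh / ratL N n (kL kp) (kL k) (B.map toL)) := by
      intro k' a1 a2 a3
      refine ⟨a1, a2, fun u v => ?_, ?_, ?_⟩
      · have b1 := abs_le.1 (a2 u v)
        have b2 := abs_le.1 (hR.bd u v)
        push_cast
        exact abs_le.2 ⟨by omega, by omega⟩
      · have := hR.psi
        push_cast
        linarith
      · push_cast
        exact hacc.trans_eq (by ring)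
    split_ifs with hex
    · refine key _ (up_inv h.hundred hR.inv (fun _ _ => small_symm) m1 m2) (fun u v => ?_)
        (up_psi h.hundred m1 hex)
      unfold kup
      split_ifs <;> simp
    · refine key _ (dn_inv h.hundred hR.inv ha fun u v huv => m2 u v huv fun hS => hex ⟨u, v, hS⟩)
        (fun u v => ?_) (dn_psi h.hundred ?_)
      · unfold kdn
        split_ifs <;> simp
      · have a2 := (abs_le.1 g2).1
        have a3 : (1 : ℝ) / (16 * N) = 1 / N / 16 := by field_simp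
        linarith

end Crest.Agent.R304
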