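import Crest.Agent.R304.Metro
import Crest.Agent.R304.Flip
import Crest.Agent.R304.Walk

/-!
# R304/PairK: the kernel on pairs of matchings (TASK)
-/

set_option autoImplicit false

namespace Crest.Agent.R304

open Finset Crest.Agent.R309

variable {n : ℕ}

/-- the proposals: `4` exchanges the two matchings, `5` is a switch, `6` exchanges an odd arc -/
def mv (c a b : ℕ) (z : PM (Fin n) × PM (Fin n)) : PM (Fin n) × PM (Fin n) :=
  if c = 4 then (z.2, z.1)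
  else if h : c = 5 ∧ a < n ∧ b < n then (sw ⟨a, h.2.1⟩ ⟨b, h.2.2⟩ z.1, z.2)
  else if h : c = 6 ∧ a < n then
    if (walk z.2 z.1 ⟨a, h.2⟩ (2 * b)).Nodup then
      (toP (walk z.2 z.1 ⟨a, h.2⟩ (2 * b)) z.1, toQ (walk z.2 z.1 ⟨a, h.2⟩ (2 * b)) z.2)
    else z
  else z

/-- the proposals with labels -/
def mvF (N : ℕ) (l : Fin 8 × Fin N × Fin N) (z : PM (Fin n) × PM (Fin n)) :
    PM (Fin n) × PM (Fin n) := mv l.1.val l.2.1.val l.2.2.val z

/-- the kernel -/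
noncomputable def PK (p : PM (Fin n) → ℝ) (N : ℕ) :
    PM (Fin n) × PM (Fin n) → PM (Fin n) × PM (Fin n) → ℝ :=
  mkK (fun z => p z.1 * p z.2) (mvF N)

theorem mv_four (a b : ℕ) (z : PM (Fin n) × PM (Fin n)) : mv 4 a b z = (z.2, z.1) := by
  simp [mv]

theorem mv_five (a b : Fin n) (z : PM (Fin n) × PM (Fin n)) :
    mv 5 a b z = (sw a b z.1, z.2) := by
  simp [mv]

theorem mv_six (a : Fin n) (b : ℕ) (z : PM (Fin n) × PM (Fin n))
    (h : (walk z.2 z.1 a (2 * b)).Nodup) :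
    mv 6 a b z = (toP (walk z.2 z.1 a (2 * b)) z.1, toQ (walk z.2 z.1 a (2 * b)) z.2) := by
  simp [mv, h]

theorem mv_lt {c : ℕ} (hc : c < 4) (a b : ℕ) (z : PM (Fin n) × PM (Fin n)) : mv c a b z = z := by
  unfold mv
  rw [if_neg (by omega), dif_neg (by omega), dif_neg (by omega)]

/-- all labels but the successful exchanges undo themselves -/
theorem mv_mv (c a b : ℕ) (z : PM (Fin n) × PM (Fin n))
    (h : ¬ ∃ h : c = 6 ∧ a < n, (walk z.2 z.1 ⟨a, h.2⟩ (2 * b)).Nodup) :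
    mv c a b (mv c a b z) = z ∧
      ¬ ∃ h : c = 6 ∧ a < n, (walk (mv c a b z).2 (mv c a b z).1 ⟨a, h.2⟩ (2 * b)).Nodup := by
  by_cases h4 : c = 4
  · subst h4
    exact ⟨by rw [mv_four, mv_four], fun ⟨h', _⟩ => by omega⟩
  by_cases h5 : c = 5 ∧ a < n ∧ b < n
  · obtain ⟨rfl, ha, hb⟩ := h5
    refine ⟨?_, fun ⟨h', _⟩ => by omega⟩
    rw [mv_five ⟨a, ha⟩ ⟨b, hb⟩, mv_five ⟨a, ha⟩ ⟨b, hb⟩, sw_sw]
  have e : mv c a b z = z := by
    unfold mv
    rw [if_neg h4, dif_neg h5]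
    split_ifs with h6 h7
    · exact absurd ⟨h6, h7⟩ h
    · rfl
    · rfl
  rw [e, e]
  exact ⟨rfl, h⟩

theorem pk_walk_rev {V : Type} [DecidableEq V] (U W : PM V) (a : V) (b : ℕ)
    (h : (walk U W a (2 * b)).Nodup) :
    walk (toQ (walk U W a (2 * b)) U) (toP (walk U W a (2 * b)) W) (walkSt U W a (2 * b)).1 (2 * b)
        = (walk U W a (2 * b)).reverse ∧
      (walkSt (toQ (walk U W a (2 * b)) U) (toP (walk U W a (2 * b)) W)
        (walkSt U W a (2 * b)).1 (2 * b)).1 = a := by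
  have : Inhabited V := ⟨a⟩
  have hl : ∀ (U W : PM V) (a : V), lst (walk U W a (2 * b)) = (walkSt U W a (2 * b)).1 := by
    intro U W a
    rw [arc_lst_eq, length_walk, walk_arcEl _ _ _ (by omega), Nat.add_sub_cancel]
  have ho : Odd (walk U W a (2 * b)).length := by rw [length_walk]; exact odd_two_mul_add_one b
  have h1 := eq_walk (l := (walk U W a (2 * b)).reverse)
    (by rw [Ne, List.reverse_eq_nil_iff]; exact flip_ne_nil ho)
    ((pin_reverse_odd ho).2 (toQ_qin h ho (pin_walk U W a _)))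
    ((qin_reverse_odd ho).2 (toP_pin h ho (qin_walk U W a _)))
  rw [hd_reverse, hl, List.length_reverse, length_walk, Nat.add_sub_cancel] at h1
  refine ⟨h1.symm, ?_⟩
  rw [← hl, ← h1, lst_reverse, hd_walk]

open Classical in
/-- the label undoing a proposal -/
noncomputable def pkL {N : ℕ} (hn : n ≤ N) (z : PM (Fin n) × PM (Fin n))
    (l : Fin 8 × Fin N × Fin N) : Fin 8 × Fin N × Fin N :=
  if h : ∃ h : l.1.val = 6 ∧ l.2.1.val < n,
      (walk z.2 z.1 ⟨l.2.1.val, h.2⟩ (2 * l.2.2.val)).Nodup then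
    (l.1, Fin.castLE hn (walkSt z.2 z.1 ⟨l.2.1.val, h.1.2⟩ (2 * l.2.2.val)).1, l.2.2)
  else l

theorem pkL_pos {N : ℕ} (hn : n ≤ N) (z : PM (Fin n) × PM (Fin n)) (c : Fin 8) (a b : Fin N)
    (hc : c.val = 6) (ha : a.val < n) (h : (walk z.2 z.1 ⟨a.val, ha⟩ (2 * b.val)).Nodup) :
    pkL hn z (c, a, b) = (c, Fin.castLE hn (walkSt z.2 z.1 ⟨a.val, ha⟩ (2 * b.val)).1, b) := by
  unfold pkL
  rw [dif_pos ⟨⟨hc, ha⟩, h⟩]

theorem pkL_neg {N : ℕ} (hn : n ≤ N) (z : PM (Fin n) × PM (Fin n)) (c : Fin 8) (a b : Fin N)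
    (h : ¬ ∃ h : c.val = 6 ∧ a.val < n, (walk z.2 z.1 ⟨a.val, h.2⟩ (2 * b.val)).Nodup) :
    pkL hn z (c, a, b) = (c, a, b) := by
  unfold pkL
  rw [dif_neg h]

/-- The label `(6, a, b)` with `l = walk ..` without repetition is undone by `(6, lst l, b)`: `l.reverse` is the walk of the new pair
(`toP_pin`, `toQ_qin`, `pin_reverse_odd`, `eq_walk`), and `toP_reverse`.  All other labels undo themselves. -/
theorem prop2_mv {p : PM (Fin n) → ℝ} (hp : ∀ X, 0 < p X) {N : ℕ} (hn : n ≤ N) :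
    Prop2 (fun z : PM (Fin n) × PM (Fin n) => p z.1 * p z.2) (mvF N) := by
  refine ⟨fun z => mul_pos (hp _) (hp _), pkL hn, ?_⟩
  rintro z ⟨c, a, b⟩
  by_cases h : ∃ h : c.val = 6 ∧ a.val < n, (walk z.2 z.1 ⟨a.val, h.2⟩ (2 * b.val)).Nodup
  · obtain ⟨⟨hc, ha⟩, hnd⟩ := h
    rw [pkL_pos hn z c a b hc ha hnd]
    obtain ⟨e1, e2⟩ := pk_walk_rev z.2 z.1 ⟨a.val, ha⟩ b.val hnd
    have e3 : mvF N (c, a, b) z = (toP (walk z.2 z.1 ⟨a.val, ha⟩ (2 * b.val)) z.1,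
        toQ (walk z.2 z.1 ⟨a.val, ha⟩ (2 * b.val)) z.2) := by
      unfold mvF
      simp only [hc]
      exact mv_six ⟨a.val, ha⟩ b.val z hnd
    have hnd' := List.nodup_reverse.2 hnd
    rw [← e1] at hnd'
    rw [e3]
    constructor
    · unfold mvF
      simp only [hc, Fin.val_castLE]
      rw [mv_six _ _ _ hnd']
      simp only [e1, toP_reverse, toQ_reverse, toQ_toP, toP_toQ]
    · rw [pkL_pos hn _ c _ b hc (walkSt z.2 z.1 ⟨a.val, ha⟩ (2 * b.val)).1.2 hnd']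
      simp only [Fin.val_castLE, Fin.eta, e2]
      rfl
  · rw [pkL_neg hn z c a b h]
    obtain ⟨e1, e2⟩ := mv_mv c.val a.val b.val z h
    exact ⟨e1, pkL_neg hn _ c a b e2⟩

theorem pk_sum_le_of_inj {α β : Type} (s : Finset α) (t : Finset β) (i : α → β)
    (hi : Set.InjOn i s) (hm : ∀ x ∈ s, i x ∈ t) (f : α → ℝ) (g : β → ℝ)
    (h : ∀ x ∈ s, f x = g (i x)) (hg : ∀ y, 0 ≤ g y) : ∑ x ∈ s, f x ≤ ∑ y ∈ t, g y := by
  classical
  rw [sum_congr rfl h, ← sum_image hi]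
  refine sum_le_sum_of_subset_of_nonneg (fun y hy => ?_) fun y _ _ => hg y
  obtain ⟨x, hx, rfl⟩ := mem_image.1 hy
  exact hm x hx

/-- the contribution of one label -/
noncomputable def pkG (p : PM (Fin n) → ℝ) (u : PM (Fin n) × PM (Fin n) → ℝ)
    (z : PM (Fin n) × PM (Fin n)) (c a b : ℕ) : ℝ :=
  min (p z.1 * p z.2) (p (mv c a b z).1 * p (mv c a b z).2) * (u (mv c a b z) - u z) ^ 2

theorem pkG_nonneg {p : PM (Fin n) → ℝ} (hp : ∀ X, 0 < p X) (u : PM (Fin n) × PM (Fin n) → ℝ)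
    (z : PM (Fin n) × PM (Fin n)) (c a b : ℕ) : 0 ≤ pkG p u z c a b :=
  mul_nonneg (le_min (mul_pos (hp _) (hp _)).le (mul_pos (hp _) (hp _)).le) (sq_nonneg _)

theorem pk_Tf_eq (p : PM (Fin n) → ℝ) (N : ℕ) (u : PM (Fin n) × PM (Fin n) → ℝ) :
    Tf (fun z : PM (Fin n) × PM (Fin n) => p z.1 * p z.2) (mvF N) u =
      ∑ z, ∑ c ∈ range 8, ∑ y ∈ range N ×ˢ range N, pkG p u z c y.1 y.2 := by
  unfold Tf
  refine sum_congr rfl fun z _ => ?_
  rw [Fintype.sum_prod_type, ← Fin.sum_univ_eq_sum_range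
    (fun c => ∑ y ∈ range N ×ˢ range N, pkG p u z c y.1 y.2)]
  refine sum_congr rfl fun c _ => ?_
  rw [Fintype.sum_prod_type, sum_product, ← Fin.sum_univ_eq_sum_range
    (fun a => ∑ b ∈ range N, pkG p u z c a b)]
  refine sum_congr rfl fun a _ => ?_
  rw [← Fin.sum_univ_eq_sum_range (fun b => pkG p u z c a b)]
  rfl

theorem pk_five {p : PM (Fin n) → ℝ} (hp : ∀ X, 0 < p X) {N : ℕ} (hn : n ≤ N)
    (φ : PM (Fin n) → ℝ) (X Y : PM (Fin n)) :
    p Y * ∑ a, ∑ b, min (p X) (p (sw a b X)) * (φ (sw a b X) - φ X) ^ 2 ≤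
      ∑ y ∈ range N ×ˢ range N, pkG p (fun z => φ z.1 + φ z.2) (X, Y) 5 y.1 y.2 := by
  rw [← Fintype.sum_prod_type', mul_sum]
  refine pk_sum_le_of_inj _ _ (fun x : Fin n × Fin n => (x.1.val, x.2.val)) ?_ ?_ _ _ ?_
    fun y => pkG_nonneg hp _ _ _ _ _
  · intro x _ y _ h
    simp only [Prod.mk.injEq] at h
    exact Prod.ext (Fin.ext h.1) (Fin.ext h.2)
  · intro x _
    rw [mem_product, mem_range, mem_range]
    exact ⟨x.1.2.trans_le hn, x.2.2.trans_le hn⟩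
  · intro x _
    unfold pkG
    simp only [mv_five]
    rw [← min_mul_of_nonneg _ _ (hp Y).le]
    ring

theorem pk_six {p : PM (Fin n) → ℝ} (hp : ∀ X, 0 < p X) {N : ℕ} (hn : n ≤ N)
    (φ : PM (Fin n) → ℝ) (X Y : PM (Fin n)) :
    ∑ l : NL (Fin n), ind (Odd l.1.length ∧ Pin Y l.1 ∧ Qin X l.1) *
      (min (p X * p Y) (p (toP l.1 X) * p (toQ l.1 Y)) *
        (φ (toP l.1 X) + φ (toQ l.1 Y) - φ X - φ Y) ^ 2) ≤
      ∑ y ∈ range N ×ˢ range N, pkG p (fun z => φ z.1 + φ z.2) (X, Y) 6 y.1 y.2 := by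
  classical
  rcases Nat.eq_zero_or_pos n with h0 | h0
  · subst h0
    refine le_trans (le_of_eq (sum_eq_zero fun l _ => ?_))
      (sum_nonneg fun y _ => pkG_nonneg hp _ _ _ _ _)
    have : l.1 = [] := List.eq_nil_iff_forall_not_mem.2 fun a => a.elim0
    rw [ind_neg (by rw [this]; simp), zero_mul]
  have : Inhabited (Fin n) := ⟨⟨0, h0⟩⟩
  simp only [ind_eq, ite_mul, one_mul, zero_mul]
  rw [← sum_filter]
  have hw : ∀ l : NL (Fin n), Odd l.1.length ∧ Pin Y l.1 ∧ Qin X l.1 →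
      walk Y X (hd l.1) (2 * ((l.1.length - 1) / 2)) = l.1 := by
    intro l hl
    obtain ⟨k, hk⟩ := hl.1
    rw [show 2 * ((l.1.length - 1) / 2) = l.1.length - 1 by omega]
    exact (eq_walk (flip_ne_nil hl.1) hl.2.1 hl.2.2).symm
  refine pk_sum_le_of_inj _ _ (fun l : NL (Fin n) => ((hd l.1).val, (l.1.length - 1) / 2)) ?_ ?_ _ _
    ?_ fun y => pkG_nonneg hp _ _ _ _ _
  · intro x hx y hy h
    rw [mem_coe, mem_filter] at hx hy
    simp only [Prod.mk.injEq] at h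
    apply Subtype.ext
    rw [← hw x hx.2, ← hw y hy.2, Fin.ext h.1, h.2]
  · intro l _
    rw [mem_product, mem_range, mem_range]
    have h1 := l.2.length_le_card
    rw [Fintype.card_fin] at h1
    exact ⟨(hd l.1).2.trans_le hn, by simp only; omega⟩
  · intro l hl
    rw [mem_filter] at hl
    unfold pkG
    simp only
    rw [mv_six _ _ _ (by simp only [hw l hl.2]; exact l.2)]
    simp only [hw l hl.2]
    ring

/-- labels `(5, a, b)` give `Dsw`; the odd alternating lists inject into the labels `(6, hd l, (l.length - 1) / 2)` (`eq_walk`) -/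
theorem D_le_Tf {p : PM (Fin n) → ℝ} (hp : ∀ X, 0 < p X) (hp1 : ∑ X, p X = 1) {N : ℕ} (hn : n ≤ N)
    (φ : PM (Fin n) → ℝ) :
    Dsw p φ + Dex p φ ≤ Tf (fun z : PM (Fin n) × PM (Fin n) => p z.1 * p z.2) (mvF N)
      fun z => φ z.1 + φ z.2 := by
  rw [pk_Tf_eq, Fintype.sum_prod_type, Dsw, Dex, ← sum_add_distrib]
  refine sum_le_sum fun X _ => ?_
  rw [← one_mul (∑ a, ∑ b, min (p X) (p (sw a b X)) * (φ (sw a b X) - φ X) ^ 2), ← hp1, sum_mul,
    ← sum_add_distrib]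
  refine sum_le_sum fun Y _ => ?_
  refine (add_le_add (pk_five hp hn φ X Y) (pk_six hp hn φ X Y)).trans ?_
  rw [← sum_pair (f := fun c => ∑ y ∈ range N ×ˢ range N,
    pkG p (fun z => φ z.1 + φ z.2) (X, Y) c y.1 y.2) (show 5 ≠ 6 by decide)]
  exact sum_le_sum_of_subset_of_nonneg (by decide) fun c _ _ =>
    sum_nonneg fun y _ => pkG_nonneg hp _ _ _ _ _

theorem pk_norm {Ω : Type} [Fintype Ω] {p : Ω → ℝ} (hp1 : ∑ X, p X = 1) (f g : Ω → ℝ)
    (hf : ∑ x, p x * f x = 0) :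
    ∑ z : Ω × Ω, p z.1 * p z.2 * (f z.1 + g z.2) ^ 2 =
      ∑ x, p x * f x ^ 2 + ∑ x, p x * g x ^ 2 := by
  have h : ∀ z : Ω × Ω, p z.1 * p z.2 * (f z.1 + g z.2) ^ 2 = (p z.1 * f z.1 ^ 2) * p z.2 +
      p z.1 * (p z.2 * g z.2 ^ 2) + (p z.1 * f z.1) * (2 * (p z.2 * g z.2)) := fun z => by ring
  simp only [h, sum_add_distrib, Fintype.sum_prod_type, ← sum_mul_sum, hp1, hf]
  ring

/-- `u = φ ⊗ 1 + 1 ⊗ ψ = u_s + u_a` with `σ = (φ + ψ) / 2`, `α = (φ - ψ) / 2`, `u_s z = σ z.1 + σ z.2`, `u_a z = α z.1 - α z.2`.  The labels `(4, a, b)` give `4 N² ‖u_a‖² ≤ T u`.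
`T u_s ≤ 2 T u + 2 * 4 * 8 N² ‖u_a‖² ≤ 18 T u`, `2 ‖σ‖² ≤ C T u_s`, `‖φ‖² + ‖ψ‖² = ‖u‖² = 2 ‖σ‖² + ‖u_a‖² ≤ 19 C T u`; `Prop2.lazy` with the labels `c < 4`. -/
theorem pairK_of_key {p : PM (Fin n) → ℝ} (hp : ∀ X, 0 < p X) (hp1 : ∑ X, p X = 1) {N : ℕ}
    (hn : n ≤ N) (hN : 0 < N) {C γ : ℝ} (hC : 1 ≤ C)
    (hkey : ∀ φ, ∑ X, ∑ Y, p X * p Y * (φ X - φ Y) ^ 2 ≤ C * (Dsw p φ + Dex p φ))
    (hγ : γ ≤ 1 / (400 * C * (N : ℝ) ^ 2)) : PairK p (PK p N) γ := by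
  classical
  have hP := prop2_mv hp hn
  have : Nonempty (Fin N) := ⟨⟨0, hN⟩⟩
  refine ⟨hP.nonneg, mkK_row, hP.rev, fun φ ψ hφ hψ => ?_⟩
  have hN1 : (1 : ℝ) ≤ N := by exact_mod_cast hN
  have hcard : (Fintype.card (Fin 8 × Fin N × Fin N) : ℝ) = 8 * (N : ℝ) ^ 2 := by
    simp [sq]
  have hl := hP.lazy ((univ.filter fun c : Fin 8 => c.val < 4) ×ˢ univ)
    (fun l hl z => mv_lt (mem_filter.1 (mem_product.1 hl).1).2 _ _ z)
    (by
      have : (univ.filter fun c : Fin 8 => c.val < 4).card = 4 := by decide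
      rw [card_product, this, card_univ, Fintype.card_prod, Fintype.card_fin]
      omega)
    fun z => φ z.1 + ψ z.2
  rw [pk_norm hp1 φ ψ hφ, hcard] at hl
  set T := Tf (fun z : PM (Fin n) × PM (Fin n) => p z.1 * p z.2) (mvF N)
    fun z => φ z.1 + ψ z.2 with hT
  set σ : PM (Fin n) → ℝ := fun x => (φ x + ψ x) / 2 with hσ
  set α : PM (Fin n) → ℝ := fun x => (φ x - ψ x) / 2 with hα
  have hσ0 : ∑ x, p x * σ x = 0 := by
    simp only [hσ, ← mul_div_assoc, mul_add, ← sum_div, sum_add_distrib, hφ, hψ]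
    simp
  set A := ∑ z : PM (Fin n) × PM (Fin n), p z.1 * p z.2 * (α z.2 - α z.1) ^ 2 with hA
  have hA0 : 0 ≤ A := sum_nonneg fun z _ => mul_nonneg (mul_pos (hp _) (hp _)).le (sq_nonneg _)
  have h1 : 4 * (N : ℝ) ^ 2 * A ≤ T := by
    rw [hT, pk_Tf_eq, hA, mul_sum]
    refine sum_le_sum fun z _ => le_trans (le_of_eq ?_) (single_le_sum
      (f := fun c => ∑ y ∈ range N ×ˢ range N, pkG p (fun z => φ z.1 + ψ z.2) z c y.1 y.2)
      (fun c _ => sum_nonneg fun y _ => pkG_nonneg hp _ _ _ _ _) (show 4 ∈ range 8 by decide))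
    simp only [pkG, mv_four, sum_const, card_product, card_range, nsmul_eq_mul, hα]
    rw [mul_comm (p z.2), min_self]
    push_cast
    ring
  have h2 := hP.Tf_add (fun z => φ z.1 + ψ z.2) fun z => α z.2 - α z.1
  have h3 := hP.Tf_le fun z => α z.2 - α z.1
  rw [hcard, ← hA] at h3
  have h4 := D_le_Tf hp hp1 hn σ
  have e : (fun z : PM (Fin n) × PM (Fin n) => φ z.1 + ψ z.2 + (α z.2 - α z.1)) =
      fun z => σ z.1 + σ z.2 := by
    funext z
    simp only [hσ, hα]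
    ring
  rw [e, ← hT] at h2
  have h5 := hkey σ
  have h6 : ∑ X, ∑ Y, p X * p Y * (σ X - σ Y) ^ 2 = 2 * ∑ x, p x * σ x ^ 2 := by
    have := pk_norm hp1 σ (fun x => -σ x) hσ0
    simp only [neg_sq, ← sub_eq_add_neg] at this
    rw [two_mul, ← this, Fintype.sum_prod_type]
  have h7 : A = 2 * ∑ x, p x * α x ^ 2 := by
    have := pk_norm hp1 (fun x => -α x) α (by
      simp only [hα, mul_neg, ← mul_div_assoc, mul_sub, sum_neg_distrib, ← sum_div,
        sum_sub_distrib, hφ, hψ]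
      simp)
    simp only [neg_sq, neg_add_eq_sub] at this
    rw [two_mul, ← this]
  have h8 : ∑ x, p x * φ x ^ 2 + ∑ x, p x * ψ x ^ 2 =
      2 * ∑ x, p x * σ x ^ 2 + 2 * ∑ x, p x * α x ^ 2 := by
    simp only [mul_sum, ← sum_add_distrib]
    refine sum_congr rfl fun x _ => ?_
    simp only [hσ, hα]
    ring
  have hN2 : (1 : ℝ) ≤ (N : ℝ) ^ 2 := one_le_pow₀ hN1
  have hAT : A ≤ T := by nlinarith
  have hT0 : 0 ≤ T := hA0.trans hAT
  have h9 : ∑ x, p x * φ x ^ 2 + ∑ x, p x * ψ x ^ 2 ≤ 19 * C * T := by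
    have h10 : Dsw p σ + Dex p σ ≤ 18 * T := by linarith
    have h11 := mul_le_mul_of_nonneg_left h10 (zero_le_one.trans hC)
    have h12 : T ≤ C * T := le_mul_of_one_le_left hT0 hC
    linarith
  set S := ∑ x, p x * φ x ^ 2 + ∑ x, p x * ψ x ^ 2 with hS
  have hS0 : 0 ≤ S := add_nonneg (sum_nonneg fun x _ => mul_nonneg (hp x).le (sq_nonneg _))
    (sum_nonneg fun x _ => mul_nonneg (hp x).le (sq_nonneg _))
  have h13 : γ * S ≤ T / (2 * (8 * (N : ℝ) ^ 2)) := by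
    have hC0 : 0 < C := by linarith
    calc γ * S ≤ 1 / (400 * C * (N : ℝ) ^ 2) * S := mul_le_mul_of_nonneg_right hγ hS0
      _ ≤ 1 / (400 * C * (N : ℝ) ^ 2) * (25 * C * T) := by
          refine mul_le_mul_of_nonneg_left ?_ (by positivity)
          nlinarith [mul_nonneg hC0.le hT0]
      _ = T / (2 * (8 * (N : ℝ) ^ 2)) := by
          field_simp
          ring
  refine hl.trans ?_
  linarith

end Crest.Agent.R304
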