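import Crest.Agent.R304.Defs

/-!
# R304/Pop1: the population chain in coefficient space, drift inequality (TASK)

`ι` indexes an orthonormal basis of `L²(p)`, `i0` is the constant function.  The degree of a multi-index is the number of coordinates different from `i0`.
-/

set_option autoImplicit false

namespace Crest.Agent.R304

open Finset Crest.Agent.R309

variable {ι : Type} [Fintype ι] [DecidableEq ι]

/-- degree of a pair -/
def dg (i0 : ι) (j : ι × ι) : ℕ := (if j.1 = i0 then 0 else 1) + (if j.2 = i0 then 0 else 1)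

/-- degree of a multi-index -/
def deg {K : ℕ} (i0 : ι) (i : Fin K → ι) : ℕ := #{a | i a ≠ i0}

/-- a contraction that fixes the constants and has a gap on degree one -/
structure CoefK (i0 : ι) (A : ι × ι → ι × ι → ℝ) (γ : ℝ) : Prop where
  row0 : ∀ j, A (i0, i0) j = if j = (i0, i0) then 1 else 0
  col0 : ∀ j, A j (i0, i0) = if j = (i0, i0) then 1 else 0
  contr : ∀ v : ι × ι → ℝ, ∑ i, (∑ j, A i j * v j) ^ 2 ≤ ∑ j, v j ^ 2
  gap : ∀ v : ι × ι → ℝ, (∀ j, dg i0 j ≠ 1 → v j = 0) →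
    ∑ i, (∑ j, A i j * v j) ^ 2 ≤ (1 - γ) * ∑ j, v j ^ 2

variable {i0 : ι} {A : ι × ι → ι × ι → ℝ} {γ : ℝ}

/-- Write `v = v₀ + v₁ + v₂` by degree.  `A v₀ = v₀` and `A (v₁ + v₂)` vanishes at `(i0, i0)`.  The rest is at most `W 2 * ‖A v₁ + A v₂‖²`, and
`‖x + y‖² ≤ (1 + γ/4) ‖x‖² + (1 + 4/γ) ‖y‖²`, `(1 + γ/4)² (1 - γ) ≤ 1 - γ/2`: this is the case `ε = 1`.  If `W 1 = W 2` the case `ε = 0` is `contr`; take the convex combination. -/
theorem CoefK.loc (h : CoefK i0 A γ) (hγ : 0 < γ) (hγ1 : γ ≤ 1) {W : ℕ → ℝ} {ε : ℝ} (h1 : 0 ≤ W 1)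
    (h12 : W 1 ≤ W 2) (h2 : W 2 ≤ (1 + γ / 4) * W 1) (hε0 : 0 ≤ ε) (hε1 : ε ≤ 1)
    (hε : ε = 1 ∨ W 1 = W 2) (v : ι × ι → ℝ) :
    ∑ i, W (dg i0 i) * (∑ j, A i j * v j) ^ 2 ≤
      ∑ j, W (dg i0 j) * (1 + if dg i0 j = 1 then -(ε * γ / 2) else
        if dg i0 j = 2 then 4 * ε / γ else 0) * v j ^ 2 := by
  let v1 : ι × ι → ℝ := fun j => if dg i0 j = 1 then v j else 0
  let v2 : ι × ι → ℝ := fun j => if dg i0 j = 2 then v j else 0
  have hd : ∀ j : ι × ι, (j = (i0, i0) ∧ dg i0 j = 0) ∨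
      (j ≠ (i0, i0) ∧ (dg i0 j = 1 ∨ dg i0 j = 2)) := by
    rintro ⟨a, b⟩
    by_cases ha : a = i0 <;> by_cases hb : b = i0 <;> simp [dg, ha, hb]
  have hL : ∀ i, W (dg i0 i) * (∑ j, A i j * v j) ^ 2 ≤
      (if i = (i0, i0) then W 0 * v i ^ 2 else 0) +
        W 2 * (∑ j, A i j * v1 j + ∑ j, A i j * v2 j) ^ 2 := fun i => by
    rcases hd i with ⟨rfl, hi⟩ | ⟨hi, hi'⟩
    · have e : ∑ j, A (i0, i0) j * v j = v (i0, i0) := by simp [h.row0]
      rw [if_pos rfl, hi, e]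
      exact le_add_of_nonneg_right (mul_nonneg (h1.trans h12) (sq_nonneg _))
    · have e : ∑ j, A i j * v j = ∑ j, A i j * v1 j + ∑ j, A i j * v2 j := by
        rw [← sum_add_distrib]
        refine sum_congr rfl fun j _ => ?_
        rcases hd j with ⟨rfl, hj⟩ | ⟨-, hj | hj⟩
        · simp [h.col0, hi]
        · simp [v1, v2, hj]
        · simp [v1, v2, hj]
      rw [if_neg hi, zero_add, e]
      refine mul_le_mul_of_nonneg_right ?_ (sq_nonneg _)
      rcases hi' with hi' | hi' <;> rw [hi']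
      exact h12
  have hR : ∀ j, W (dg i0 j) * (1 + if dg i0 j = 1 then -(ε * γ / 2) else
      if dg i0 j = 2 then 4 * ε / γ else 0) * v j ^ 2 =
      (if j = (i0, i0) then W 0 * v j ^ 2 else 0) +
        (W 1 * (1 - ε * γ / 2) * v1 j ^ 2 + W 2 * (1 + 4 * ε / γ) * v2 j ^ 2) := fun j => by
    rcases hd j with ⟨rfl, hj⟩ | ⟨hj', hj | hj⟩
    · simp [v1, v2, hj]
    · simp [v1, v2, hj, hj', sub_eq_add_neg]
    · simp [v1, v2, hj, hj']
  refine (sum_le_sum fun i _ => hL i).trans ?_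
  simp only [hR, sum_add_distrib, ← mul_sum]
  refine add_le_add_right ?_ _
  have b1 := h.gap v1 fun j hj => if_neg hj
  have b2 := h.contr v2
  have b3 := h.contr fun j => v1 j + v2 j
  have e3 : ∀ j, (v1 j + v2 j) ^ 2 = v1 j ^ 2 + v2 j ^ 2 := fun j => by
    by_cases hj : dg i0 j = 1 <;> simp [v1, v2, hj]
  simp only [e3, mul_add, sum_add_distrib] at b3
  have b4 : ∑ i, (∑ j, A i j * v1 j + ∑ j, A i j * v2 j) ^ 2 ≤
      (1 + γ / 4) * ∑ i, (∑ j, A i j * v1 j) ^ 2 + (1 + 4 / γ) * ∑ i, (∑ j, A i j * v2 j) ^ 2 := by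
    rw [mul_sum, mul_sum, ← sum_add_distrib]
    refine sum_le_sum fun i _ => ?_
    generalize ∑ j, A i j * v1 j = x
    generalize ∑ j, A i j * v2 j = y
    have e : (1 + γ / 4) * x ^ 2 + (1 + 4 / γ) * y ^ 2 - (x + y) ^ 2 = (γ * x - 4 * y) ^ 2 / (4 * γ) := by
      field_simp
      ring
    have : 0 ≤ (γ * x - 4 * y) ^ 2 / (4 * γ) := by positivity
    linarith
  have n1 : 0 ≤ ∑ j, v1 j ^ 2 := sum_nonneg fun _ _ => sq_nonneg _
  have n2 : 0 ≤ ∑ j, v2 j ^ 2 := sum_nonneg fun _ _ => sq_nonneg _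
  generalize ∑ j, v1 j ^ 2 = x at *
  generalize ∑ j, v2 j ^ 2 = y at *
  generalize ∑ i, (∑ j, A i j * v1 j + ∑ j, A i j * v2 j) ^ 2 = S at *
  have hW2 : 0 ≤ W 2 := h1.trans h12
  have b5 : S ≤ (1 + γ / 4) * ((1 - γ) * x) + (1 + 4 / γ) * y :=
    b4.trans (add_le_add (mul_le_mul_of_nonneg_left b1 (by positivity))
      (mul_le_mul_of_nonneg_left b2 (by positivity)))
  have b6 : W 2 * S ≤ W 1 * (1 - γ / 2) * x + W 2 * (1 + 4 / γ) * y := by
    have c1 : W 2 * ((1 + γ / 4) * ((1 - γ) * x)) ≤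
        (1 + γ / 4) * W 1 * ((1 + γ / 4) * ((1 - γ) * x)) :=
      mul_le_mul_of_nonneg_right h2 (mul_nonneg (by positivity) (mul_nonneg (by linarith) n1))
    have c2 : (1 + γ / 4) * ((1 + γ / 4) * (1 - γ)) ≤ 1 - γ / 2 := by nlinarith [sq_nonneg γ]
    have c3 := mul_le_mul_of_nonneg_left c2 (mul_nonneg h1 n1)
    have c4 := mul_le_mul_of_nonneg_left b5 hW2
    linarith
  rcases hε with rfl | hε
  · simpa using b6
  · have c1 := mul_le_mul_of_nonneg_left b6 hε0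
    have c2 := mul_le_mul_of_nonneg_left (mul_le_mul_of_nonneg_left b3 hW2) (sub_nonneg.2 hε1)
    rw [hε] at c1 ⊢
    have e : 4 * ε / γ = ε * (4 / γ) := by ring
    rw [e]
    linarith

omit [Fintype ι] [DecidableEq ι] in
theorem upd2_fst {K : ℕ} {a b : Fin K} (hab : a ≠ b) (i : Fin K → ι) (j : ι × ι) :
    upd2 i a b j a = j.1 := by
  simp [upd2, Function.update_of_ne hab]

omit [Fintype ι] [DecidableEq ι] in
theorem upd2_snd {K : ℕ} (a b : Fin K) (i : Fin K → ι) (j : ι × ι) : upd2 i a b j b = j.2 := by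
  simp [upd2]

omit [Fintype ι] [DecidableEq ι] in
theorem upd2_of_ne {K : ℕ} {a b c : Fin K} (ha : c ≠ a) (hb : c ≠ b) (i : Fin K → ι) (j : ι × ι) :
    upd2 i a b j c = i c := by
  simp [upd2, Function.update_of_ne ha, Function.update_of_ne hb]

omit [Fintype ι] [DecidableEq ι] in
theorem upd2_upd2 {K : ℕ} {a b : Fin K} (hab : a ≠ b) (i : Fin K → ι) (j j' : ι × ι) :
    upd2 (upd2 i a b j) a b j' = upd2 i a b j' := by
  funext c
  by_cases hb : c = b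
  · rw [hb, upd2_snd, upd2_snd]
  by_cases ha : c = a
  · rw [ha, upd2_fst hab, upd2_fst hab]
  rw [upd2_of_ne ha hb, upd2_of_ne ha hb, upd2_of_ne ha hb]

omit [Fintype ι] [DecidableEq ι] in
theorem upd2_self {K : ℕ} (a b : Fin K) (i : Fin K → ι) : upd2 i a b (i a, i b) = i := by
  simp [upd2]

omit [Fintype ι] [DecidableEq ι] in
theorem prod_upd2 {K : ℕ} {a b : Fin K} (hab : a ≠ b) {M : Type} [CommMonoid M]
    (g : Fin K → ι → M) (i : Fin K → ι) (j : ι × ι) :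
    ∏ c, g c (upd2 i a b j c) = g a j.1 * g b j.2 * ∏ c ∈ (univ.erase a).erase b, g c (i c) := by
  rw [← mul_prod_erase _ _ (mem_univ a), ← mul_prod_erase _ _ (mem_erase.2 ⟨hab.symm, mem_univ b⟩),
    upd2_fst hab, upd2_snd, mul_assoc]
  congr 2
  exact prod_congr rfl fun c hc => by
    rw [upd2_of_ne (mem_erase.1 (mem_erase.1 hc).2).1 (mem_erase.1 hc).1]

omit [DecidableEq ι] in
/-- the map `(i, j) ↦ (upd2 i a b j, (i a, i b))` is an involution -/
theorem sum_upd2 {K : ℕ} {a b : Fin K} (hab : a ≠ b) (F : (Fin K → ι) → ι × ι → ℝ) :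
    ∑ i, ∑ j, F (upd2 i a b j) (i a, i b) = ∑ i, ∑ j, F i j := by
  have hinv : Function.Involutive fun q : (Fin K → ι) × (ι × ι) =>
      (upd2 q.1 a b q.2, (q.1 a, q.1 b)) := fun q => by
    simp only [upd2_upd2 hab, upd2_self, upd2_fst hab, upd2_snd]
  rw [← Fintype.sum_prod_type', ← Fintype.sum_prod_type']
  exact Equiv.sum_comp hinv.toPerm fun q : (Fin K → ι) × (ι × ι) => F q.1 q.2

omit [Fintype ι] in
theorem deg_eq_sum {K : ℕ} (i0 : ι) (i : Fin K → ι) :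
    deg i0 i = ∑ a, if i a = i0 then 0 else 1 := by
  rw [deg, card_filter]
  exact sum_congr rfl fun a _ => by by_cases h : i a = i0 <;> simp [h]

omit [Fintype ι] in
theorem deg_le {K : ℕ} (i0 : ι) (i : Fin K → ι) : deg i0 i ≤ K :=
  (card_filter_le _ _).trans (by simp)

omit [Fintype ι] in
theorem pop1_deg_upd2 {K : ℕ} {a b : Fin K} (hab : a ≠ b) (i : Fin K → ι) :
    ∃ m, ∀ j, deg i0 (upd2 i a b j) = m + dg i0 j := by
  refine ⟨∑ c ∈ (univ.erase a).erase b, if i c = i0 then 0 else 1, fun j => ?_⟩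
  have := prod_upd2 hab (M := Multiplicative ℕ)
    (fun _ k => Multiplicative.ofAdd (if k = i0 then 0 else 1)) i j
  rw [deg_eq_sum, add_comm, dg]
  exact congrArg Multiplicative.toAdd this

theorem pop1_pair (h : CoefK i0 A γ) (hγ : 0 < γ) (hγ1 : γ ≤ 1) {K : ℕ} {W ε : ℕ → ℝ}
    (h0 : ∀ m, 0 ≤ W m) (h12 : ∀ m, W (m + 1) ≤ W (m + 2))
    (h2 : ∀ m, W (m + 2) ≤ (1 + γ / 4) * W (m + 1)) (hε0 : ∀ m, 0 ≤ ε m) (hε1 : ∀ m, ε m ≤ 1)
    (hε : ∀ m, ε m = 1 ∨ W (m + 1) = W (m + 2)) (c : (Fin K → ι) → ℝ) {a b : Fin K}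
    (hab : a ≠ b) :
    ∑ i, W (deg i0 i) * (∑ z, A (i a, i b) z * c (upd2 i a b z)) ^ 2 ≤
      ∑ i, W (deg i0 i) * (1 + if dg i0 (i a, i b) = 1 then -(ε (deg i0 i - 1) * γ / 2) else
        if dg i0 (i a, i b) = 2 then 4 * ε (deg i0 i - 2) / γ else 0) * c i ^ 2 := by
  have hc : (0 : ℝ) < Fintype.card (ι × ι) :=
    Nat.cast_pos.2 (Fintype.card_pos_iff.2 ⟨(i0, i0)⟩)
  have e : ∀ L : (Fin K → ι) → ℝ, (Fintype.card (ι × ι) : ℝ) * ∑ i, L i =
      ∑ i, ∑ j, L (upd2 i a b j) := fun L => by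
    rw [sum_upd2 hab fun i _ => L i, mul_sum]
    simp only [sum_const, card_univ, nsmul_eq_mul]
  refine le_of_mul_le_mul_left ?_ hc
  rw [e, e]
  refine sum_le_sum fun i _ => ?_
  obtain ⟨m, hm⟩ := pop1_deg_upd2 (i0 := i0) hab i
  simp only [hm, upd2_upd2 hab, upd2_fst hab, upd2_snd, Prod.mk.eta]
  refine (h.loc hγ hγ1 (W := fun n => W (m + n)) (h0 _) (h12 m) (h2 m) (hε0 m) (hε1 m) (hε m)
    fun z => c (upd2 i a b z)).trans (le_of_eq (sum_congr rfl fun j _ => ?_))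
  split_ifs with h1 h2
  · rw [h1, Nat.add_sub_cancel]
  · rw [h2, Nat.add_sub_cancel]
  · rfl

omit [DecidableEq ι] in
theorem pop1_jensen {K M : ℕ} (hM0 : 0 < M) (hM : K ^ 2 ≤ M) (c : (Fin K → ι) → ℝ)
    (i : Fin K → ι) : popOp A M c i ^ 2 ≤
      ((∑ a, ∑ b, if a = b then 0 else (∑ z, A (i a, i b) z * c (upd2 i a b z)) ^ 2) +
        ((M : ℝ) - K * (K - 1)) * c i ^ 2) / M := by
  have hM' : (0 : ℝ) < M := Nat.cast_pos.2 hM0
  have hr : (0 : ℝ) ≤ M - K * (K - 1) := by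
    have : ((K : ℝ)) ^ 2 ≤ M := by exact_mod_cast hM
    nlinarith [Nat.cast_nonneg (α := ℝ) K]
  obtain ⟨m, hm⟩ : ∃ m, m = popOp A M c i := ⟨_, rfl⟩
  have e1 := hm
  rw [popOp, eq_div_iff hM'.ne'] at e1
  have h1 : ∑ a : Fin K, ∑ b : Fin K, (2 * m * (if a = b then 0 else
      ∑ z, A (i a, i b) z * c (upd2 i a b z)) - m ^ 2 * (1 - if a = b then 1 else 0)) ≤
      ∑ a, ∑ b, if a = b then 0 else (∑ z, A (i a, i b) z * c (upd2 i a b z)) ^ 2 :=
    sum_le_sum fun a _ => sum_le_sum fun b _ => by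
      split_ifs
      · simp
      · nlinarith [sq_nonneg (∑ z, A (i a, i b) z * c (upd2 i a b z) - m)]
  simp only [sum_sub_distrib, ← mul_sum, sum_ite_eq, mem_univ, if_true, sum_const, card_univ,
    Fintype.card_fin, nsmul_eq_mul, mul_one] at h1
  rw [← hm, le_div_iff₀ hM']
  have h2 := mul_nonneg hr (sq_nonneg (c i - m))
  have h3 := congrArg (m * ·) e1
  nlinarith

omit [Fintype ι] in
theorem pop1_count {K : ℕ} (i : Fin K → ι) (α β : ℝ) :
    (∑ a, ∑ b, if a = b then 0 else (1 + if dg i0 (i a, i b) = 1 then α else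
      if dg i0 (i a, i b) = 2 then β else 0)) = K * (K - 1) +
      2 * α * (deg i0 i * ((K : ℝ) - deg i0 i)) + β * (deg i0 i * ((deg i0 i : ℝ) - 1)) := by
  let s : Fin K → ℝ := fun a => if i a = i0 then 0 else 1
  have hs : ∑ a, s a = deg i0 i := by
    rw [deg_eq_sum]
    push_cast
    rfl
  have e : ∀ a b, (if a = b then 0 else (1 + if dg i0 (i a, i b) = 1 then α else
      if dg i0 (i a, i b) = 2 then β else 0)) = 1 + α * s a + α * s b + (β - 2 * α) * s a * s b -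
        if a = b then 1 + β * s a else 0 := fun a b => by
    by_cases hab : a = b
    · subst hab
      by_cases ha : i a = i0 <;> simp [s, ha]
      ring
    · by_cases ha : i a = i0 <;> by_cases hb : i b = i0 <;> simp [s, dg, ha, hb, hab]
      ring
  simp only [e, sum_sub_distrib, sum_add_distrib, ← mul_sum, ← sum_mul, sum_ite_eq, mem_univ,
    if_true, sum_const, card_univ, Fintype.card_fin, nsmul_eq_mul, mul_one, hs]
  ring

/-- Jensen's inequality over the `M` labels reduces to one pair `a ≠ b`.  There use `sum_upd2` (with a dummy second sum, multiplicity `card (ι × ι)`) to apply `CoefK.loc` on each fibre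
`j ↦ upd2 i a b j`, with `W (m + ·)` and `ε m`, where `m` is the degree of `i` off `{a, b}` (`deg (upd2 i a b j) = m + dg j`).
A multi-index of degree `N` has `2 N (K - N)` ordered pairs with `dg = 1` (then `m = N - 1`) and `N (N - 1)` with `dg = 2` (then `m = N - 2`). -/
theorem pop_drift (h : CoefK i0 A γ) (hγ : 0 < γ) (hγ1 : γ ≤ 1) {K M : ℕ} (hM0 : 0 < M)
    (hM : K ^ 2 ≤ M) {W ε : ℕ → ℝ} (h0 : ∀ m, 0 ≤ W m) (h12 : ∀ m, W (m + 1) ≤ W (m + 2))
    (h2 : ∀ m, W (m + 2) ≤ (1 + γ / 4) * W (m + 1)) (hε0 : ∀ m, 0 ≤ ε m) (hε1 : ∀ m, ε m ≤ 1)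
    (hε : ∀ m, ε m = 1 ∨ W (m + 1) = W (m + 2)) (c : (Fin K → ι) → ℝ) :
    ∑ i, W (deg i0 i) * popOp A M c i ^ 2 ≤
      ∑ i, W (deg i0 i) * (1 - (ε (deg i0 i - 1) * γ * (deg i0 i * ((K : ℝ) - deg i0 i)) -
        4 * ε (deg i0 i - 2) / γ * (deg i0 i * ((deg i0 i : ℝ) - 1))) / M) * c i ^ 2 := by
  have hM' : (0 : ℝ) < M := Nat.cast_pos.2 hM0
  refine (sum_le_sum fun i _ => mul_le_mul_of_nonneg_left (pop1_jensen hM0 hM c i) (h0 _)).trans ?_
  have h1 : ∑ a : Fin K, ∑ b : Fin K, ∑ i, W (deg i0 i) * (if a = b then 0 else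
      (∑ z, A (i a, i b) z * c (upd2 i a b z)) ^ 2) ≤ ∑ a : Fin K, ∑ b : Fin K, ∑ i,
      W (deg i0 i) * (if a = b then 0 else (1 + if dg i0 (i a, i b) = 1 then
        -(ε (deg i0 i - 1) * γ / 2) else
        if dg i0 (i a, i b) = 2 then 4 * ε (deg i0 i - 2) / γ else 0)) * c i ^ 2 :=
    sum_le_sum fun a _ => sum_le_sum fun b _ => by
      split_ifs with hab
      · simp
      · exact pop1_pair h hγ hγ1 h0 h12 h2 hε0 hε1 hε c hab
  have sw : ∀ f : Fin K → Fin K → (Fin K → ι) → ℝ,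
      ∑ a, ∑ b, ∑ i, f a b i = ∑ i, ∑ a, ∑ b, f a b i := fun f => by
    rw [sum_comm (s := univ) (t := univ) (f := fun i a => ∑ b, f a b i)]
    exact sum_congr rfl fun a _ => sum_comm
  rw [sw, sw] at h1
  simp only [← sum_mul, ← mul_sum, pop1_count] at h1
  simp only [← mul_div_assoc, mul_add, ← sum_div, sum_add_distrib]
  rw [div_le_iff₀ hM', sum_mul]
  refine (add_le_add_left h1 _).trans (le_of_eq ?_)
  rw [← sum_add_distrib]
  refine sum_congr rfl fun i _ => ?_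
  field_simp
  ring

end Crest.Agent.R304
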