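import Crest.Agent.R304.Pop1

/-!
# R304/Pop2: decay of the coefficients (TASK)

`γ = 1 / G`, `N₁ = K / (20 G²)` (so `20 G² N₁ ≤ K ≤ 40 G² N₁`, `N₁ ≥ G³ / 40`), `ε m = min 1 (2 ^ N₁ / 2 ^ m)`, `θ = 1 / (32 G K)`, `τ = 8 G / 2 ^ N₁`.
The drift `D N = (ε (N-1) γ N (K - N) - 4 ε (N-2) / γ * N (N - 1)) / M` of `pop_drift` satisfies for `N ≤ K`: `D N ≥ θ` for `1 ≤ N ≤ N₁`; `D N ≥ 0` for `N ≤ 2 N₁` (`ε (N-2) ≤ 2 ε (N-1)`); `D N ≥ -τ` always.
Weights `W N = (1 + γ/4) ^ min N N₁`: `Φ_W` grows at most by `(1 + τ) ^ t ≤ 2`, so the mass `H t` of the degrees `> N₁` is at most `2 exp (K / (640 G³)) / W N₁ ≤ 2 exp (-K / (640 G³))` (`1 + x ≥ exp (x / 2)`).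
Weights `W' N = if N = 0 then 0 else 1`: `Φ' (t+1) ≤ (1 - θ) Φ' t + (θ + τ) H t`, `τ ≤ θ`, so `Φ' T ≤ exp (-θ T) exp (K / (640 G³)) + 4 exp (-K / (640 G³)) ≤ 5 exp (-G² / 640) ≤ 4 ^ (-G)`.
-/

set_option autoImplicit false

namespace Crest.Agent.R304

open Finset Crest.Agent.R309

variable {ι : Type} [Fintype ι] [DecidableEq ι] {i0 : ι} {A : ι × ι → ι × ι → ℝ}

/-- the drift bounds -/
theorem pop2_drift {g K M : ℝ} {N₁ N : ℕ} (hg : 4096 ≤ g) (hK0 : 0 < K) (hK : 20 * g ^ 2 * N₁ ≤ K)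
    (hM : K ^ 2 ≤ M) (hM' : M ≤ 16 * K ^ 2) (hN : (N : ℝ) ≤ K) {D : ℝ}
    (hD : D = (min 1 (2 ^ N₁ / 2 ^ (N - 1)) * (1 / g) * (N * (K - N)) -
      4 * min 1 (2 ^ N₁ / 2 ^ (N - 2)) / (1 / g) * (N * ((N : ℝ) - 1))) / M) :
    -(8 * g / 2 ^ N₁) ≤ D ∧ (1 ≤ N → N ≤ N₁ → 1 / (32 * g * K) ≤ D) := by
  have hg0 : 0 < g := by linarith
  have hM0 : 0 < M := lt_of_lt_of_le (by positivity) hM
  have hN0 : (0 : ℝ) ≤ N := Nat.cast_nonneg _
  have hNN : (0 : ℝ) ≤ N * ((N : ℝ) - 1) := by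
    rcases Nat.eq_zero_or_pos N with rfl | h
    · simp
    · exact mul_nonneg hN0 (sub_nonneg.2 (Nat.one_le_cast.2 h))
  have hg2 : 1 ≤ g ^ 2 := one_le_pow₀ (by linarith)
  have hgN : (N : ℝ) ≤ g ^ 2 * N := le_mul_of_one_le_left hN0 hg2
  have one : ∀ m ≤ N₁, min (1 : ℝ) (2 ^ N₁ / 2 ^ m) = 1 := fun m hm =>
    min_eq_left ((one_le_div (by positivity)).2 (pow_le_pow_right₀ one_le_two hm))
  rw [div_div_eq_mul_div, div_one, mul_one_div] at hD
  constructor
  · rw [hD, le_div_iff₀ hM0]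
    have hτ : 0 ≤ 8 * g / 2 ^ N₁ * M := by positivity
    generalize he1 : min (1 : ℝ) (2 ^ N₁ / 2 ^ (N - 1)) = e1
    generalize he2 : min (1 : ℝ) (2 ^ N₁ / 2 ^ (N - 2)) = e2
    have h1 : 0 ≤ e1 := he1 ▸ le_min zero_le_one (by positivity)
    rcases le_or_gt N (2 * N₁) with h | h
    · have h2 : e2 ≤ 2 * e1 := by
        rw [← he1, ← he2, mul_min_of_nonneg _ _ zero_le_two]
        refine min_le_min (by norm_num) ?_
        rw [← mul_div_assoc, div_le_div_iff₀ (by positivity) (by positivity), mul_comm 2, mul_assoc,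
          ← pow_succ']
        exact mul_le_mul_of_nonneg_left (pow_le_pow_right₀ one_le_two (by omega)) (by positivity)
      have h3 : (N : ℝ) ≤ 2 * N₁ := by exact_mod_cast h
      have h4 : 8 * g * (N * ((N : ℝ) - 1)) ≤ N * (K - N) / g := by
        rw [le_div_iff₀ hg0]
        have : 8 * g ^ 2 * (N - 1) ≤ K - N := by
          linarith [mul_le_mul_of_nonneg_left h3 (sq_nonneg g)]
        linarith [mul_le_mul_of_nonneg_left this hN0]
      have h5 := mul_le_mul_of_nonneg_left h4 h1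
      have h6 := mul_le_mul_of_nonneg_right h2 (mul_nonneg hg0.le hNN)
      have e : e1 / g * (N * (K - N)) = e1 * (N * (K - N) / g) := by ring
      rw [e]
      linarith
    · have h2 : e2 ≤ 2 / 2 ^ N₁ := by
        rw [← he2]
        refine (min_le_right _ _).trans ?_
        rw [div_le_div_iff₀ (by positivity) (by positivity), ← pow_add, ← pow_succ']
        exact pow_le_pow_right₀ one_le_two (by omega)
      have h3 : (N : ℝ) * ((N : ℝ) - 1) ≤ M := by nlinarith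
      have h4 : 0 ≤ e1 / g * (N * (K - N)) := mul_nonneg (by positivity)
        (mul_nonneg hN0 (sub_nonneg.2 hN))
      have h5 : 4 * e2 * g * (N * ((N : ℝ) - 1)) ≤ 4 * (2 / 2 ^ N₁) * g * M := by gcongr
      have e : 4 * (2 / 2 ^ N₁) * g * M = 8 * g / 2 ^ N₁ * M := by ring
      linarith
  · intro h1 h2
    rw [one _ (by omega), one _ (by omega)] at hD
    have h3 : (1 : ℝ) ≤ N := Nat.one_le_cast.2 h1
    have h4 : (N : ℝ) ≤ N₁ := Nat.cast_le.2 h2
    have h5 : K / 2 ≤ K - N - 4 * g ^ 2 * (N - 1) := by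
      linarith [mul_le_mul_of_nonneg_left h4 (sq_nonneg g)]
    have e : 1 / g * (N * (K - N)) - 4 * 1 * g * (N * ((N : ℝ) - 1)) =
        N * (K - N - 4 * g ^ 2 * (N - 1)) / g := by
      field_simp
    rw [hD, e, div_div, div_le_div_iff₀ (by positivity) (by positivity)]
    have h6 : K / 2 ≤ N * (K - N - 4 * g ^ 2 * (N - 1)) := by nlinarith
    have h7 := mul_le_mul_of_nonneg_right h6 (show 0 ≤ 32 * g * K by positivity)
    have h8 := mul_le_mul_of_nonneg_left hM' hg0.le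
    nlinarith

/-- one step, with any bound `ρ` for the factor -/
theorem pop2_step {G K M : ℕ} (h : CoefK i0 A (1 / G)) (hG : 4096 ≤ G) (hK0 : 0 < K)
    {N₁ : ℕ} (hK : 20 * G ^ 2 * N₁ ≤ K) (hM : K ^ 2 ≤ M) (hM' : M ≤ 16 * K ^ 2) {W : ℕ → ℝ}
    (h0 : ∀ m, 0 ≤ W m) (h12 : ∀ m, W (m + 1) ≤ W (m + 2))
    (h2 : ∀ m, W (m + 2) ≤ (1 + 1 / (G : ℝ) / 4) * W (m + 1))
    (hε : ∀ m, N₁ < m → W (m + 1) = W (m + 2)) (ρ : ℕ → ℝ)
    (hρ : ∀ N D, -(8 * (G : ℝ) / 2 ^ N₁) ≤ D → (1 ≤ N → N ≤ N₁ → 1 / (32 * (G : ℝ) * K) ≤ D) →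
      W N * (1 - D) ≤ ρ N) (c : (Fin K → ι) → ℝ) :
    ∑ i, W (deg i0 i) * popOp A M c i ^ 2 ≤ ∑ i, ρ (deg i0 i) * c i ^ 2 := by
  have hg : (4096 : ℝ) ≤ G := by exact_mod_cast hG
  refine (pop_drift h (by positivity) ((div_le_one (by positivity)).2 (by linarith))
    (lt_of_lt_of_le (by positivity) hM) hM (ε := fun m => min 1 (2 ^ N₁ / 2 ^ m)) h0 h12 h2
    (fun m => le_min zero_le_one (by positivity)) (fun m => min_le_left _ _) (fun m => ?_) c).trans
    (sum_le_sum fun i _ => mul_le_mul_of_nonneg_right ?_ (sq_nonneg _))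
  · rcases le_or_gt m N₁ with hm | hm
    · exact Or.inl (min_eq_left ((one_le_div (by positivity)).2 (pow_le_pow_right₀ one_le_two hm)))
    · exact Or.inr (hε m hm)
  · obtain ⟨a, b⟩ := pop2_drift (K := K) (M := M) (N₁ := N₁) (N := deg i0 i) hg (Nat.cast_pos.2 hK0)
      (by exact_mod_cast hK) (by exact_mod_cast hM) (by exact_mod_cast hM')
      (Nat.cast_le.2 (deg_le i0 i)) rfl
    exact hρ _ _ a b

theorem pop2_final {G T : ℕ} {K θ u : ℝ} (hg : (4096 : ℝ) ≤ G) (hk0 : 0 < K)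
    (hk5 : (G : ℝ) ^ 5 ≤ K) (h1 : K ^ 2 ≤ T) (hθ : θ = 1 / (32 * (G : ℝ) * K))
    (hu : u = K / (640 * (G : ℝ) ^ 3)) (hθ1 : θ ≤ 1) :
    (1 - θ) ^ T * Real.exp u + 4 * Real.exp (-u) ≤ (1 / 4) ^ G := by
  have hg0 : (0 : ℝ) < G := by linarith
  have hθ0 : 0 < θ := by rw [hθ]; positivity
  have c1 : (1 - θ) ^ T * Real.exp u ≤ Real.exp (-u) := by
    refine (mul_le_mul_of_nonneg_right (pow_le_pow_left₀ (sub_nonneg.2 hθ1)
      (Real.one_sub_le_exp_neg θ) T) (Real.exp_pos _).le).trans ?_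
    rw [← Real.exp_nat_mul, ← Real.exp_add, Real.exp_le_exp]
    have h2 : 2 * u ≤ K ^ 2 * θ := by
      rw [hu, hθ, mul_one_div, ← mul_div_assoc, div_le_div_iff₀ (by positivity) (by positivity)]
      have h3 : (1 : ℝ) ≤ G ^ 2 := one_le_pow₀ (by linarith)
      have h4 : (G : ℝ) ≤ G ^ 2 * G := le_mul_of_one_le_left hg0.le h3
      have h5 := mul_le_mul_of_nonneg_left h4 (sq_nonneg K)
      have h6 : 0 ≤ K ^ 2 * G := by positivity
      linarith
    linarith [mul_le_mul_of_nonneg_right h1 hθ0.le]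
  have c2 : 4 * (G : ℝ) ≤ u := by
    rw [hu, le_div_iff₀ (by positivity)]
    have h3 : (0 : ℝ) ≤ G ^ 4 := by positivity
    linarith [mul_le_mul_of_nonneg_left hg h3]
  have c3 : (5 : ℝ) ≤ Real.exp 2 := by
    have := Real.quadratic_le_exp_of_nonneg (x := 2) zero_le_two
    linarith
  have c4 : 5 * 4 ^ G ≤ Real.exp u := by
    refine le_trans ?_ (Real.exp_le_exp.2 c2)
    rw [show 4 * (G : ℝ) = G * 2 + G * 2 by ring, Real.exp_add]
    refine mul_le_mul (c3.trans (Real.exp_le_exp.2 (by linarith))) ?_ (by positivity)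
      (Real.exp_pos _).le
    rw [Real.exp_nat_mul]
    exact pow_le_pow_left₀ (by norm_num) (by linarith) G
  have c5 : 5 * Real.exp (-u) ≤ (1 / 4) ^ G := by
    rw [Real.exp_neg, ← div_eq_mul_inv, one_div_pow, div_le_div_iff₀ (Real.exp_pos _) (by positivity)]
    linarith
  linarith

theorem coef_decay {G K M T : ℕ} (h : CoefK i0 A (1 / G)) (hG : 4096 ≤ G) (hK : G ^ 5 ≤ K)
    (hK' : K ≤ 2 ^ G) (hM : K ^ 2 ≤ M) (hM' : M ≤ 16 * K ^ 2) (hT : K ^ 2 ≤ T) (hT' : T ≤ 8 ^ G)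
    (c : (Fin K → ι) → ℝ)
    (hc : ∑ i, (1 + 1 / (4 * (G : ℝ))) ^ deg i0 i * c i ^ 2 ≤ Real.exp (K / (640 * (G : ℝ) ^ 3))) :
    ∑ i, (if deg i0 i = 0 then 0 else 1) * (popOp A M)^[T] c i ^ 2 ≤ (1 / 4) ^ G := by
  have hg : (4096 : ℝ) ≤ G := by exact_mod_cast hG
  have hK0 : 0 < K := lt_of_lt_of_le (by positivity) hK
  have hk0 : (0 : ℝ) < K := Nat.cast_pos.2 hK0
  have hk5 : (G : ℝ) ^ 5 ≤ K := by exact_mod_cast hK
  obtain ⟨N₁, hN₁⟩ : ∃ N₁, N₁ = K / (20 * G ^ 2) := ⟨_, rfl⟩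
  have hG2 : 0 < 20 * G ^ 2 := by positivity
  have a1 : 20 * G ^ 2 * N₁ ≤ K := hN₁ ▸ Nat.mul_div_le _ _
  have a2 : 4 * G + 4 ≤ N₁ := by
    rw [hN₁, Nat.le_div_iff_mul_le hG2]
    refine le_trans ?_ hK
    have : (4 * G + 4) * 20 ≤ G ^ 3 := by nlinarith [Nat.pow_le_pow_left hG 2]
    nlinarith
  have a3 : (K : ℝ) ≤ 40 * G ^ 2 * N₁ := by
    have h1 : K < 20 * G ^ 2 * (N₁ + 1) := hN₁ ▸ Nat.lt_mul_div_succ _ hG2
    have h2 : K ≤ 40 * G ^ 2 * N₁ := by nlinarith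
    exact_mod_cast h2
  have hGp : G ≤ 2 ^ G := Nat.lt_two_pow_self.le
  have a4 : 16 * G * T ≤ 2 ^ N₁ :=
    calc 16 * G * T ≤ 16 * 2 ^ G * 8 ^ G := by gcongr
      _ = 2 ^ (4 * G + 4) := by rw [show 8 = 2 ^ 3 by norm_num, ← pow_mul]; ring
      _ ≤ _ := Nat.pow_le_pow_right two_pos a2
  have a5 : 256 * G * G * K ≤ 2 ^ N₁ :=
    calc 256 * G * G * K ≤ 2 ^ 8 * 2 ^ G * 2 ^ G * 2 ^ G := by gcongr; norm_num
      _ = 2 ^ (3 * G + 8) := by ring
      _ ≤ _ := Nat.pow_le_pow_right two_pos (by omega)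
  obtain ⟨τ, hτ⟩ : ∃ τ, τ = 8 * (G : ℝ) / 2 ^ N₁ := ⟨_, rfl⟩
  obtain ⟨θ, hθ⟩ : ∃ θ, θ = 1 / (32 * (G : ℝ) * K) := ⟨_, rfl⟩
  obtain ⟨u, hu⟩ : ∃ u, u = K / (640 * (G : ℝ) ^ 3) := ⟨_, rfl⟩
  obtain ⟨r, hr⟩ : ∃ r, r = 1 + 1 / (4 * (G : ℝ)) := ⟨_, rfl⟩
  have hτ0 : 0 ≤ τ := by rw [hτ]; positivity
  have hθ0 : 0 < θ := by rw [hθ]; positivity
  have hθ1 : θ ≤ 1 := by
    rw [hθ, div_le_one (by positivity)]
    nlinarith [Nat.one_le_cast (α := ℝ).2 hK0]
  have hτT : τ * T ≤ 1 / 2 := by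
    have : (16 : ℝ) * G * T ≤ 2 ^ N₁ := by exact_mod_cast a4
    rw [hτ, div_mul_eq_mul_div, div_le_iff₀ (by positivity)]
    linarith
  have hτθ : τ ≤ θ := by
    have : (256 : ℝ) * G * G * K ≤ 2 ^ N₁ := by exact_mod_cast a5
    rw [hτ, hθ, div_le_div_iff₀ (by positivity) (by positivity)]
    linarith
  have hr1 : 1 ≤ r := by rw [hr]; exact le_add_of_nonneg_right (by positivity)
  have hr' : r = 1 + 1 / (G : ℝ) / 4 := by rw [hr, div_div, mul_comm]
  rw [← hu, ← hr] at hc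
  -- growth of the weighted norm
  have b1 : ∀ t, ∑ i, r ^ min (deg i0 i) N₁ * (popOp A M)^[t] c i ^ 2 ≤
      (1 + τ) ^ t * Real.exp u := fun t => by
    induction t with
    | zero =>
      rw [pow_zero, one_mul]
      exact le_trans (sum_le_sum fun i _ => mul_le_mul_of_nonneg_right
        (pow_le_pow_right₀ hr1 (min_le_left _ _)) (sq_nonneg _)) hc
    | succ t ih =>
      rw [Function.iterate_succ_apply']
      refine (pop2_step h hG hK0 a1 hM hM' (W := fun N => r ^ min N N₁) (fun m => by positivity)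
        (fun m => pow_le_pow_right₀ hr1 (by omega))
        (fun m => by rw [← hr', ← pow_succ']; exact pow_le_pow_right₀ hr1 (by omega))
        (fun m hm => by rw [min_eq_right (by omega), min_eq_right (by omega)])
        (fun N => (1 + τ) * r ^ min N N₁) (fun N D hD _ => ?_) _).trans ?_
      · rw [mul_comm]
        exact mul_le_mul_of_nonneg_right (by linarith) (by positivity)
      · simp only [mul_assoc, ← mul_sum]
        rw [pow_succ', mul_assoc]
        exact mul_le_mul_of_nonneg_left ih (by positivity)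
  have b2 : Real.exp (2 * u) ≤ r ^ N₁ := by
    have h1 : Real.exp (1 / (8 * (G : ℝ))) ≤ r := by
      have h2 := Real.exp_bound_div_one_sub_of_interval (x := 1 / (8 * (G : ℝ))) (by positivity)
        ((div_lt_one (by positivity)).2 (by linarith))
      refine h2.trans ?_
      rw [hr, div_le_iff₀ (sub_pos.2 ((div_lt_one (by positivity)).2 (by linarith)))]
      field_simp
      linarith
    refine le_trans (Real.exp_le_exp.2 ?_) ((Real.exp_nat_mul _ N₁).le.trans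
      (pow_le_pow_left₀ (Real.exp_pos _).le h1 N₁))
    rw [hu, mul_one_div, ← mul_div_assoc, div_le_div_iff₀ (by positivity) (by positivity)]
    nlinarith [mul_le_mul_of_nonneg_left a3 (show (0 : ℝ) ≤ 16 * G by positivity)]
  have b3 : ∀ t ≤ T, ∑ i, (if N₁ < deg i0 i then 1 else 0) * (popOp A M)^[t] c i ^ 2 ≤
      2 * Real.exp (-u) := fun t ht => by
    have h1 : (1 + τ) ^ t ≤ 2 := by
      refine (pow_le_pow_left₀ (by positivity) (add_comm τ 1 ▸ Real.add_one_le_exp τ) t).trans ?_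
      rw [← Real.exp_nat_mul]
      have h2 : t * τ ≤ 1 / 2 := by nlinarith [Nat.cast_le (α := ℝ).2 ht]
      refine (Real.exp_le_exp.2 h2).trans ?_
      refine (Real.exp_bound_div_one_sub_of_interval (by norm_num) (by norm_num)).trans ?_
      norm_num
    refine le_of_mul_le_mul_left ?_ (Real.exp_pos (2 * u))
    rw [mul_left_comm, ← Real.exp_add, show 2 * u + -u = u by ring, mul_sum]
    refine le_trans (sum_le_sum fun i _ => ?_) ((b1 t).trans
      (mul_le_mul_of_nonneg_right h1 (Real.exp_pos _).le))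
    rw [← mul_assoc]
    refine mul_le_mul_of_nonneg_right ?_ (sq_nonneg _)
    split_ifs with hi
    · rwa [mul_one, min_eq_right hi.le]
    · rw [mul_zero]
      positivity
  have b4 : ∀ t ≤ T, ∑ i, (if deg i0 i = 0 then 0 else 1) * (popOp A M)^[t] c i ^ 2 ≤
      (1 - θ) ^ t * Real.exp u + 4 * Real.exp (-u) := fun t ht => by
    induction t with
    | zero =>
      rw [pow_zero, one_mul]
      refine le_trans (le_trans (sum_le_sum fun i _ => mul_le_mul_of_nonneg_right ?_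
        (sq_nonneg _)) hc) (le_add_of_nonneg_right (by positivity))
      split_ifs
      · positivity
      · exact one_le_pow₀ hr1
    | succ t ih =>
      rw [Function.iterate_succ_apply']
      refine (pop2_step h hG hK0 a1 hM hM' (W := fun N => if N = 0 then 0 else 1)
        (fun m => by positivity) (fun m => by simp) (fun m => by rw [← hr']; simpa using hr1)
        (fun m _ => by simp) (fun N => (1 - θ) * (if N = 0 then 0 else 1) +
          2 * θ * (if N₁ < N then 1 else 0)) (fun N D hD hD' => ?_) _).trans ?_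
      · rw [← hτ] at hD
        rw [← hθ] at hD'
        by_cases h1 : N = 0
        · simp only [h1, if_true]
          simp
        by_cases h2 : N₁ < N
        · simp only [h1, h2, if_true, if_false]
          linarith
        · simp only [h1, h2, if_false]
          linarith [hD' (by omega) (by omega)]
      · simp only [add_mul, sum_add_distrib, mul_assoc, ← mul_sum]
        have h1 := mul_le_mul_of_nonneg_left (ih (by omega)) (sub_nonneg.2 hθ1)
        have h2 := mul_le_mul_of_nonneg_left (b3 t (by omega)) hθ0.le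
        rw [pow_succ']
        linarith
  refine (b4 T le_rfl).trans ?_
  exact pop2_final hg hk0 hk5 (by exact_mod_cast hT) hθ hu hθ1

end Crest.Agent.R304
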