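import Crest.Agent.R304.Alg
import Crest.Agent.R304.PairK
import Crest.Agent.R304.Ann1

/-!
# R304/Refine: the list functions of `Alg` compute the abstract objects (TASK)
-/

set_option autoImplicit false

namespace Crest.Agent.R304

open Finset Crest.Agent.R309 Crest.Agent.Lib.PT

variable {N n : ℕ}

theorem Fits.two_pow_ph (h : Fits N n) : 2 ^ ph N = N := h.pow.symm

theorem Fits.two_pow_pq (h : Fits N n) : 2 ^ pq N = N ^ 240 := by
  rw [pq, mul_comm, pow_mul, h.two_pow_ph]

theorem Fits.two_pow_pt (h : Fits N n) : 2 ^ pt N = pK0 N := by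
  rw [pt, pow_succ, mul_comm 1620, pow_mul, h.two_pow_ph, pK0, mul_comm]

theorem pK0_mul_self (N : ℕ) : pK0 N * pK0 N = pT N := by
  unfold pK0 pT; ring

theorem pK0_eq (N : ℕ) : pK0 N = N ^ 1620 + pS N * pb N := by
  unfold pK0 pS pb; ring

theorem Fits.real_big (h : Fits N n) : (2 : ℝ) ^ 20 ≤ N := by exact_mod_cast h.big

theorem Fits.real_le (h : Fits N n) : (n : ℝ) ≤ N := by exact_mod_cast h.le

theorem Fits.one_lt_pQ (h : Fits N n) : 1 < pQ N :=
  one_lt_pow₀ (lt_of_lt_of_le (by norm_num) h.real_big) (by norm_num)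

theorem Fits.hundred (h : Fits N n) : 100 * (Fintype.card (Fin n) : ℝ) ≤ pQ N := by
  rw [Fintype.card_fin, pQ]
  have h1 := h.real_big
  have h2 := h.real_le
  have h3 : (N : ℝ) ^ 2 ≤ (N : ℝ) ^ 240 := pow_le_pow_right₀ (by linarith) (by norm_num)
  nlinarith

theorem Fits.rq_cast (h : Fits N n) : (rq N : ℝ) = rQ (pQ N) := by
  have h1 : (2 : ℝ) ^ pq N = pQ N := by
    rw [pQ]
    exact_mod_cast h.two_pow_pq
  rw [rq, rQ, ← h1]
  push_cast
  rfl

theorem Fits.rp_cast (h : Fits N n) {cap : ℕ} {e : ℤ} (he : |e| ≤ cap) :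
    (rp N cap e : ℝ) = rQ (pQ N) ^ e := by
  have h1 := (rQ_pos h.one_lt_pQ).ne'
  have h2 := abs_le.1 he
  rw [rp, min_eq_left (by omega), min_eq_left (by omega)]
  push_cast
  rw [h.rq_cast, ← zpow_natCast, ← zpow_natCast, ← zpow_sub₀ h1, Int.toNat_sub_toNat_neg]

theorem length_toL (X : PM (Fin n)) : (toL X).length = n := by
  simp [toL]

theorem getD_toL (X : PM (Fin n)) (v : Fin n) : (toL X).getD v 0 = X.f v := by
  simp [toL]

theorem rf_range_map {α : Type} (f : ℕ → α) :
    (List.range n).map f = List.ofFn fun v : Fin n => f v := by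
  refine List.ext_getElem (by simp) fun i h1 h2 => ?_
  simp

theorem rf_mkL {f : ℕ → ℕ} {X : PM (Fin n)} (h : ∀ v : Fin n, f v = X.f v) : mkL n f = toL X := by
  rw [mkL, rf_range_map, toL]
  congr 1
  funext v
  rw [h, min_eq_left (X.f v).2.le]

theorem rf_swp (a b v : Fin n) : swp a b v = (Equiv.swap a b v).val := by
  simp only [swp, Equiv.swap_apply_def, Fin.val_inj]
  split_ifs <;> rfl

theorem rf_walk (U W : PM (Fin n)) (a : Fin n) (L : ℕ) :
    walkL (toL U) (toL W) a L = (walk U W a L).map Fin.val := by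
  have h : ∀ i, (wstep (toL U) (toL W))^[i] (a, true) =
      (((walkSt U W a i).1 : ℕ), (walkSt U W a i).2) := by
    intro i
    induction i with
    | zero => rfl
    | succ i ih =>
      rw [Function.iterate_succ_apply', ih, walkSt_succ, wstep]
      dsimp only
      split_ifs <;> rw [getD_toL]
  rw [walkL, walk, List.map_map]
  refine List.map_congr_left fun i _ => ?_
  rw [h]
  rfl

theorem rf_exL (l : List (Fin n)) (p b : Fin n) (X Y Z : PM (Fin n))
    (h : ∀ v, Z.f v = if v = p then b else if v = b then p else if v ∈ l then Y.f v else X.f v) :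
    exL n (l.map Fin.val) p b (toL X) (toL Y) = toL Z := by
  refine rf_mkL fun v => ?_
  simp only [h v, getD_toL, Fin.val_inj, List.mem_map_of_injective Fin.val_injective]
  split_ifs <;> rfl

theorem rf_ent {α : Type} (d : α) (k : Fin n → Fin n → α) (u v : Fin n) :
    ent d (List.ofFn fun u => List.ofFn fun v => k u v) u v = k u v := by
  simp [ent]

theorem rf_avg {α : Type} (B : List α) (g : α → List ℕ) (f : List ℕ → ℚ) (F : α → ℝ)
    (h : ∀ X, (f (g X) : ℝ) = F X) : (avg ((B.map g).map f) : ℝ) = (B.map F).sum / B.length := by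
  rw [avg]
  push_cast
  simp only [List.map_map, List.length_map]
  congr 3
  exact funext h

/-- `walkL (toL U) (toL W) a L = (walk U W a L).map Fin.val`; `toP_f`, `toQ_f` with `pin_walk`, `qin_walk` (`Inhabited (Fin n)` from the vertex `a`) -/
theorem mvL_toL (c a b : ℕ) (z : PM (Fin n) × PM (Fin n)) :
    mvL n c a b (toL z.1, toL z.2) = (toL (mv c a b z).1, toL (mv c a b z).2) := by
  unfold mvL mv
  by_cases h4 : c = 4
  · rw [if_pos h4, if_pos h4]
  rw [if_neg h4, if_neg h4]
  by_cases h5 : c = 5 ∧ a < n ∧ b < n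
  · rw [if_pos h5, dif_pos h5]
    refine Prod.ext (rf_mkL fun v => ?_) rfl
    change swp (⟨a, h5.2.1⟩ : Fin n) (⟨b, h5.2.2⟩ : Fin n) ((toL z.1).getD
      (swp (⟨a, h5.2.1⟩ : Fin n) (⟨b, h5.2.2⟩ : Fin n) v) 0) = _
    rw [rf_swp, getD_toL, rf_swp, flip_sw_f]
  rw [if_neg h5, dif_neg h5]
  by_cases h6 : c = 6 ∧ a < n
  · rw [if_pos h6, dif_pos h6]
    have e := rf_walk z.2 z.1 ⟨a, h6.2⟩ (2 * b)
    let : Inhabited (Fin n) := ⟨⟨a, h6.2⟩⟩
    have hl := length_walk z.2 z.1 ⟨a, h6.2⟩ (2 * b)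
    have hp := pin_walk z.2 z.1 ⟨a, h6.2⟩ (2 * b)
    have hq := qin_walk z.2 z.1 ⟨a, h6.2⟩ (2 * b)
    dsimp only at e ⊢
    rw [e, exP]
    generalize walk z.2 z.1 ⟨a, h6.2⟩ (2 * b) = l at hl hp hq ⊢
    have ho : Odd l.length := hl ▸ odd_two_mul_add_one b
    have h0 : l ≠ [] := flip_ne_nil ho
    have e1 : (l.map Fin.val).headD 0 = (hd l).val := by
      cases l with
      | nil => exact absurd rfl h0
      | cons x t => rfl
    have e2 : (l.map Fin.val).getLastD 0 = (lst l).val := by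
      rw [List.getLastD_eq_getLast?, List.getLast?_map, lst, List.getLast?_eq_some_getLast h0]
      rfl
    by_cases hn : l.Nodup
    · rw [if_pos hn, if_pos ((List.nodup_map_iff Fin.val_injective).2 hn), e1, e2]
      dsimp only
      rw [getD_toL, getD_toL, rf_exL _ _ _ _ _ _ (toP_f hn ho hp hq),
        rf_exL _ _ _ _ _ _ (toQ_f hn ho hp hq)]
    · rw [if_neg hn, if_neg (mt (List.nodup_map_iff Fin.val_injective).1 hn)]
  · rw [if_neg h6, dif_neg h6]

theorem enL_toL (k : Fin n → Fin n → ℤ) (X : PM (Fin n)) : enL n (kL k) (toL X) = en k X := by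
  rw [enL, rf_range_map, List.sum_ofFn, en]
  refine sum_congr rfl fun v _ => ?_
  rw [getD_toL, kL, rf_ent]

theorem zeroL_eq (n : ℕ) : zeroL n = kL fun _ _ : Fin n => 0 := by
  simp [zeroL, kL]

theorem ratL_toL (h : Fits N n) {kp k : Fin n → Fin n → ℤ} (hk : ∀ u v, |kp u v - k u v| ≤ 1)
    (B : List (PM (Fin n))) : (ratL N n (kL kp) (kL k) (B.map toL) : ℝ) =
      (B.map fun X => rQ (pQ N) ^ (en kp X - en k X)).sum / B.length := by
  refine rf_avg B toL _ _ fun X => ?_
  rw [enL_toL, enL_toL]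
  exact h.rp_cast (by simpa using abs_en_sub_le hk X)

variable (adj : Fin n → Fin n → Prop) [DecidableRel adj]

theorem length_adjL : (adjL adj).length = n := by
  simp [adjL]

theorem okL_toL (X : PM (Fin n)) : okL n (adjL adj) (toL X) = true ↔ ∀ v, adj v (X.f v) := by
  rw [okL, List.all_eq_true]
  constructor
  · intro h v
    have h1 := h v (List.mem_range.2 v.2)
    rw [getD_toL, adjL, rf_ent] at h1
    simp only [Bool.and_eq_true, decide_eq_true_eq] at h1
    exact h1.2
  · intro h v hv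
    lift v to Fin n using List.mem_range.1 hv
    rw [getD_toL, getD_toL, adjL, rf_ent, X.inv]
    simp [h v]

theorem finL_toL (h : Fits N n) {k : Fin n → Fin n → ℤ} (hk : ∀ u v, |k u v| ≤ pS N)
    (B : List (PM (Fin n))) : (finL N n (adjL adj) (kL k) (B.map toL) : ℝ) =
      (B.map (fin adj (pQ N) k)).sum / B.length := by
  refine rf_avg B toL _ _ fun X => ?_
  unfold fin ind
  by_cases hX : ∀ v, adj v (X.f v)
  · rw [if_pos ((okL_toL adj X).2 hX), if_pos hX, one_mul, enL_toL]
    refine h.rp_cast ?_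
    rw [abs_neg]
    refine (abs_en_le hk X).trans ?_
    rw [Fintype.card_fin, pcap]
    exact_mod_cast Nat.mul_le_mul_right _ (by have := h.le; omega)
  · rw [if_neg (mt (okL_toL adj X).1 hX), if_neg hX, zero_mul, Rat.cast_zero]

theorem updL_toL (k : Fin n → Fin n → ℤ) (B : List (PM (Fin n))) :
    updL n (adjL adj) (kL k) (B.map toL) =
      kL (if ∃ u v, Small B u v then kup (Small B) k else kdn adj k) := by
  have h1 : ∀ u v : Fin n, smallL n (B.map toL) u v = true ↔ Small B u v := by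
    intro u v
    have e : (B.map toL).countP (fun X => decide (X.getD u 0 = (v : ℕ))) =
        B.countP fun X => decide (X.f u = v) := by
      rw [List.countP_map]
      congr 1
      funext X
      simp only [Function.comp_apply, getD_toL, Fin.val_inj]
    simp only [smallL, Small, e, Bool.and_eq_true, decide_eq_true_eq, List.length_map, ne_eq,
      Fin.val_inj]
  have h2 : anyL n (B.map toL) = true ↔ ∃ u v, Small B u v := by
    simp only [anyL, List.any_eq_true, List.mem_range]
    exact ⟨fun ⟨u, hu, v, hv, h⟩ => ⟨⟨u, hu⟩, ⟨v, hv⟩, (h1 ⟨u, hu⟩ ⟨v, hv⟩).1 h⟩,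
      fun ⟨u, v, h⟩ => ⟨u, u.2, v, v.2, (h1 u v).2 h⟩⟩
  rw [updL, rf_range_map]
  conv_rhs => rw [kL]
  congr 1
  funext u
  rw [rf_range_map]
  congr 1
  funext v
  simp only [h1, h2, kL, adjL, rf_ent, decide_eq_true_eq]
  split_ifs <;> simp [kup, kdn, *]

end Crest.Agent.R304
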