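import Crest.Agent.R304.Mix
import Crest.Agent.R304.Init
import Crest.Agent.R304.Next

/-!
# R304/Stage: all stages
-/

set_option autoImplicit false

namespace Crest.Agent.R304

open Finset Crest.Agent.R309 Crest.Agent.Lib.PT

variable {N n : ℕ} {adj : Fin n → Fin n → Prop} [DecidableRel adj]

/-- a state with an output does not change -/
theorem iter_stage_some (A : List (List Bool)) (ρ j : ℕ) {σ : Ctrl × List (List ℕ)}
    (h : σ.1.2.2.2.isSome = true) (l : List Bool) : iter (stage N n A) ρ j σ l = σ := by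
  refine iter_inv' (stage N n A) ρ (J := fun _ τ => τ = σ) (fun _ τ ω hτ => ?_) rfl j l
  rw [hτ, stage, if_pos h]

theorem stage_num1 (h : Fits N n) :
    5 * (Fintype.card (Fin n) : ℝ) / pQ N ≤ 1 / (1280 * (N : ℝ) ^ 180) := by
  have h1 := h.real_big
  have h2 := h.real_le
  have h0 : (0 : ℝ) < N := lt_of_lt_of_le (by norm_num) h1
  rw [Fintype.card_fin, pQ, div_le_div_iff₀ (by positivity) (by positivity)]
  have h3 : (N : ℝ) ^ 2 ≤ (N : ℝ) ^ 60 := pow_le_pow_right₀ (le_trans (by norm_num) h1) (by norm_num)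
  have h4 : 6400 * (n : ℝ) ≤ (N : ℝ) ^ 2 := by nlinarith
  calc 5 * (n : ℝ) * (1280 * (N : ℝ) ^ 180) = (6400 * n) * (N : ℝ) ^ 180 := by ring
    _ ≤ (N : ℝ) ^ 60 * (N : ℝ) ^ 180 := by gcongr; exact h4.trans h3
    _ = 1 * (N : ℝ) ^ 240 := by ring

theorem stage_num2 (h : Fits N n) : ((1 : ℝ) / 2) ^ (N ^ 60) ≤ 1 / (64 * (pS N : ℝ)) := by
  have h1 := h.big
  have h0 : 0 < N := by omega
  have h2 : 64 * pS N ≤ 2 ^ (N ^ 60) := by
    have e1 : N ≤ 2 ^ N := Nat.lt_two_pow_self.le
    have e2 : N ^ 2 ≤ N ^ 60 := Nat.pow_le_pow_right h0 (by norm_num)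
    have e3 : 6 + N * 360 ≤ N ^ 2 := by nlinarith
    calc 64 * pS N ≤ 2 ^ 6 * (2 ^ N) ^ 360 := Nat.mul_le_mul (by norm_num) (Nat.pow_le_pow_left e1 _)
      _ = 2 ^ (6 + N * 360) := by rw [← pow_mul, ← pow_add]
      _ ≤ _ := Nat.pow_le_pow_right (by norm_num) (e3.trans e2)
  have h3 : (0 : ℝ) < 64 * (pS N : ℝ) := by
    have : 0 < pS N := Nat.pow_pos h0
    positivity
  rw [one_div_pow]
  exact one_div_le_one_div_of_le h3 (by exact_mod_cast h2)

/-- Induction on `j` (`j = 0` is impossible, `run_end`).  Step: `Ex_iter_succ` and `mix_pop` with `F pop = Pr (j * rho3 N) (.. iter .. j (useL .. pop) ..)` replace the population after the chain by independent samples of `pK k`;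
`EL_take_drop` splits off the batch `B`.  For a good batch use `ctl_next`, then `iter_stage_some` or the induction hypothesis with `ν = pK k` (`pK_close`, `5 n / Q ≤ 1 / (1280 N ^ 180)`).
So the inner expectation is at least `1 - j / (32 S) - ind (¬ GoodB ..)`; `batch_bad` and `(1 / 2) ^ (N ^ 60) ≤ 1 / (64 S)`. -/
theorem stage_ind (h : Fits N n) (he : Even n) (hn : 0 < n) (ha : ∀ u v, adj u v → adj v u)
    (hc : 0 < cnt adj) (j : ℕ) {s : ℕ} {kp k : Fin n → Fin n → ℤ} {Zh : ℚ} (hs : s + j = pS N)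
    (hR : Run N adj s kp k Zh) {ν : PM (Fin n) → ℝ} (hν : Law ν)
    (hν' : ∀ X, ν X ≤ (1 + 1 / (1280 * (N : ℝ) ^ 180)) * pK (pQ N) k X) :
    1 - j / (32 * (pS N : ℝ)) ≤ EL ν (N ^ 1620 + j * pb N) fun xs => Pr (j * rho3 N) fun l =>
      |(((iter (stage N n (adjL adj)) (rho3 N) j ((kL kp, kL k, Zh, none), xs.map toL)
        l).1.2.2.2.getD 0 : ℚ) : ℝ) - cnt adj| ≤ cnt adj / N := by
  induction j generalizing s kp k Zh ν with
  | zero =>
    rw [add_zero] at hs
    exact absurd (hs ▸ hR) (run_end h hn hc)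
  | succ j ih =>
    have hS : 0 < pS N := by omega
    have hS' : (0 : ℝ) < pS N := by exact_mod_cast hS
    let H : Ctrl × List (List ℕ) → ℝ := fun σ => Pr (j * rho3 N) fun l =>
      |(((iter (stage N n (adjL adj)) (rho3 N) j σ l).1.2.2.2.getD 0 : ℚ) : ℝ) - cnt adj| ≤
        cnt adj / N
    have hk : ∀ u v, |k u v| ≤ pS N := fun u v =>
      (hR.bd u v).trans (by exact_mod_cast (by omega : s ≤ pS N))
    have hK' : N ^ 1620 + (j + 1) * pb N ≤ pK0 N := by
      rw [pK0_eq]
      exact Nat.add_le_add_left (Nat.mul_le_mul_right _ (by omega)) _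
    have hm := mix_pop h he hn hR.inv hk (Nat.le_add_right _ ((j + 1) * pb N)) hK' hν hν'
      (fun pop => H (useL N n (adjL adj) (kL kp, kL k, Zh, none) pop))
      fun pop => abs_le.2 ⟨le_trans (by norm_num) (Pr_nonneg _ _), Pr_le_one _ _⟩
    have e1 : (EL ν (N ^ 1620 + (j + 1) * pb N) fun xs => Pr ((j + 1) * rho3 N) fun l =>
        |(((iter (stage N n (adjL adj)) (rho3 N) (j + 1) ((kL kp, kL k, Zh, none), xs.map toL)
          l).1.2.2.2.getD 0 : ℚ) : ℝ) - cnt adj| ≤ cnt adj / N) =
        EL ν (N ^ 1620 + (j + 1) * pb N) fun xs => Ex (rho3 N) fun ω =>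
          H (useL N n (adjL adj) (kL kp, kL k, Zh, none) (run N n (kL k) (xs.map toL) ω)) := by
      refine EL_congr fun xs _ => ?_
      exact Ex_iter_succ (stage N n (adjL adj)) (rho3 N) j ((kL kp, kL k, Zh, none), xs.map toL)
        fun σ => ind (|((σ.1.2.2.2.getD 0 : ℚ) : ℝ) - cnt adj| ≤ cnt adj / N)
    have hlaw := law_pK h he k
    have e2 : (EL (pK (pQ N) k) (N ^ 1620 + (j + 1) * pb N) fun xs =>
        H (useL N n (adjL adj) (kL kp, kL k, Zh, none) (xs.map toL))) =
        EL (pK (pQ N) k) (pb N) fun B => EL (pK (pQ N) k) (N ^ 1620 + j * pb N) fun ys =>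
          H (ctlL N n (adjL adj) (kL kp, kL k, Zh, none) (B.map toL), ys.map toL) := by
      rw [show N ^ 1620 + (j + 1) * pb N = pb N + (N ^ 1620 + j * pb N) by ring, ← EL_take_drop]
      refine EL_congr fun xs _ => ?_
      simp only [useL, List.map_take, List.map_drop]
    have e3 : (EL (pK (pQ N) k) (pb N) fun B =>
        1 - j / (32 * (pS N : ℝ)) - ind (¬ GoodB N adj kp k B)) ≤
        EL (pK (pQ N) k) (pb N) fun B => EL (pK (pQ N) k) (N ^ 1620 + j * pb N) fun ys =>
          H (ctlL N n (adjL adj) (kL kp, kL k, Zh, none) (B.map toL), ys.map toL) := by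
      refine EL_mono hlaw fun B hB => ?_
      have hj : (0 : ℝ) ≤ j / (32 * (pS N : ℝ)) := by positivity
      by_cases hG : GoodB N adj kp k B
      · rw [ind_neg (not_not.2 hG), sub_zero]
        rcases ctl_next h he hn ha hR (by omega) hB hG with ⟨z, hz, hz'⟩ | ⟨k', Zh', e, hR'⟩
        · have : ∀ ys : List (PM (Fin n)),
              H (ctlL N n (adjL adj) (kL kp, kL k, Zh, none) (B.map toL), ys.map toL) = 1 := by
            intro ys
            refine Pr_true fun l _ => ?_
            rw [iter_stage_some _ _ _ (by simp [hz])]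
            simpa [hz] using hz'
          simp only [this, EL_const hlaw]
          linarith
        · rw [e]
          refine ih (by omega) hR' hlaw fun X => ?_
          refine (pK_close h.one_lt_pQ h.hundred hR'.close X).trans ?_
          exact mul_le_mul_of_nonneg_right (by have := stage_num1 h; linarith) (pK_pos h _ _).le
      · rw [ind_pos hG]
        have := EL_mono (K := N ^ 1620 + j * pb N) hlaw (F := fun _ => 0) (G := fun ys =>
          H (ctlL N n (adjL adj) (kL kp, kL k, Zh, none) (B.map toL), ys.map toL))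
          fun _ _ => Pr_nonneg _ _
        rw [EL_const hlaw] at this
        linarith
    rw [EL_sub, EL_const hlaw] at e3
    have e4 := batch_bad h he hn hR.inv hR.close
    have e5 := stage_num2 h
    have e6 := (abs_le.1 hm).1
    rw [e1]
    rw [e2] at e6
    have e7 : ((j + 1 : ℕ) : ℝ) / (32 * (pS N : ℝ)) =
        j / (32 * (pS N : ℝ)) + 1 / (64 * (pS N : ℝ)) + 1 / (64 * (pS N : ℝ)) := by
      push_cast; field_simp; ring
    linarith

/-- `Ex_take_drop`, `chunks_take`, `exists_init`, `Ex_chunks`, `law_Pr`, `pK_zero`, `run_zero`, `zeroL_eq`, `pK0_eq`, `Ex_iter` -/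
theorem estE_good (h : Fits N n) (he : Even n) (hn : 0 < n) (ha : ∀ u v, adj u v → adj v u)
    (hc : 0 < cnt adj) :
    15 / 16 ≤ Pr (plen N) fun l => |(estE N n (adjL adj) l : ℝ) - cnt adj| ≤ cnt adj / N := by
  obtain ⟨g, hg, hg'⟩ := exists_init h he
  have hS : (0 : ℝ) < pS N := by
    have : 0 < pS N := Nat.pow_pos (by have := h.big; omega)
    exact_mod_cast this
  have h1 := stage_ind h he hn ha hc (pS N) (zero_add _) (run_zero he N adj) (law_Pr (rho0 N) g)
    fun X => (hg' X).trans_eq (by rw [pK_zero he]; ring)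
  rw [← pK0_eq, ← Ex_chunks] at h1
  have h2 := Ex_take_drop (k := pK0 N * rho0 N) (n := plen N) (Nat.le_add_right _ _)
    fun l l' => ind (|(((iter (stage N n (adjL adj)) (rho3 N) (pS N) (start N n l)
      l').1.2.2.2.getD 0 : ℚ) : ℝ) - cnt adj| ≤ cnt adj / N)
  have e : ∀ l, start N n (l.take (pK0 N * rho0 N)) = start N n l := fun l => by
    simp only [start, chunks_take le_rfl]
  simp only [e] at h2
  have e' : ∀ l, start N n l = ((kL fun _ _ : Fin n => 0, kL fun _ _ : Fin n => 0,
      (dfact n : ℚ), none), ((chunks (rho0 N) (pK0 N) l).map g).map toL) := fun l => by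
    simp only [start, zeroL_eq, List.map_map]
    congr 2
    exact funext hg
  rw [plen, Nat.add_sub_cancel_left] at h2
  have h3 : (pS N : ℝ) / (32 * pS N) = 1 / 32 := by field_simp
  rw [h3] at h1
  unfold Pr estE plen
  rw [h2]
  simp only [e']
  exact le_trans (by norm_num) h1

end Crest.Agent.R304
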