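import Crest.Agent.R304.Refine

/-!
# R304/Step: the law of a pair move (TASK)

The first three blocks of the tape are independent uniform numbers below `8`, `N`, `N` (`Ex_take_drop`, `Ex_ofBits`, `Fits.two_pow_ph`).  With `Δ` the increase of the energy, `|Δ| ≤ 4 n S ≤ pcap N` (`abs_en_le`),
the coin shows `true` with probability `r ^ Δ.toNat = min 1 (r ^ Δ)`, and `r ^ Δ` is the ratio of the weights (`wt_sK`).  Compare with `mkK_apply`.
-/

set_option autoImplicit false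

namespace Crest.Agent.R304

open Finset Crest.Agent.R309 Crest.Agent.Lib.PT

theorem coin_two_pow (lg cap k : ℕ) :
    2 ^ (lg * cap) = (2 ^ lg) ^ min k cap * (2 ^ lg) ^ (cap - k) := by
  rw [← pow_add, pow_mul]
  congr 1
  omega

theorem coin_thr_le (lg cap k : ℕ) :
    (2 ^ lg - 1) ^ min k cap * (2 ^ lg) ^ (cap - k) ≤ 2 ^ (lg * cap) := by
  rw [coin_two_pow lg cap k]
  exact Nat.mul_le_mul_right _ (Nat.pow_le_pow_left (Nat.sub_le _ _) _)

theorem coin_thr_eq (lg cap k : ℕ) :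
    (((2 ^ lg - 1) ^ min k cap * (2 ^ lg) ^ (cap - k) : ℕ) : ℝ) / 2 ^ (lg * cap) =
      (1 - 1 / (2 : ℝ) ^ lg) ^ min k cap := by
  have h1 : (2 : ℝ) ^ (lg * cap) = (2 ^ lg) ^ min k cap * (2 ^ lg) ^ (cap - k) := by
    exact_mod_cast coin_two_pow lg cap k
  have h2 : 1 ≤ 2 ^ lg := Nat.one_le_two_pow
  have h3 : (0 : ℝ) < 2 ^ lg := by positivity
  rw [h1]
  push_cast [Nat.cast_sub h2]
  rw [one_sub_div h3.ne', div_pow]
  field_simp

theorem Pr_coin (lg cap k : ℕ) {n : ℕ} (hn : lg * cap ≤ n) :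
    Pr n (fun ω => coin lg cap k ω = true) = (1 - 1 / (2 : ℝ) ^ lg) ^ min k cap := by
  have h1 := Pr_take hn fun l =>
    ofBits l < (2 ^ lg - 1) ^ min k cap * (2 ^ lg) ^ (cap - k)
  rw [Pr_ofBits_lt (coin_thr_le lg cap k), coin_thr_eq] at h1
  rw [← h1]
  exact Pr_congr fun ω _ => by simp only [coin, decide_eq_true_eq]

variable {N n : ℕ} {k : Fin n → Fin n → ℤ}

theorem step_block (a m : ℕ) (G : ℕ → List Bool → ℝ) :
    Ex (a + m) (fun ω => G (ofBits (ω.take a)) (ω.drop a)) =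
      (∑ i ∈ range (2 ^ a), Ex m (G i)) / 2 ^ a := by
  rw [Ex_take_drop (Nat.le_add_right a m) fun l l' => G (ofBits l) l', Nat.add_sub_cancel_left]
  exact Ex_ofBits a fun i => Ex m (G i)

theorem step_min {r : ℝ} (h0 : 0 < r) (h1 : r < 1) (e : ℤ) : r ^ e.toNat = min 1 (r ^ e) := by
  rcases le_total 0 e with h | h
  · obtain ⟨m, rfl⟩ := Int.eq_ofNat_of_zero_le h
    rw [Int.toNat_natCast, zpow_natCast, min_eq_right (pow_le_one₀ h0.le h1.le)]
  · rw [Int.toNat_eq_zero.2 h, pow_zero, min_eq_left (one_le_zpow_of_nonpos₀ h0 h1.le h)]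

theorem step_acc (h : Fits N n) (hk : ∀ u v, |k u v| ≤ pS N) (z z' : PM (Fin n) × PM (Fin n))
    (F : List ℕ × List ℕ → ℝ) :
    Ex (pq N * pcap N) (fun ω => F (accL N n (kL k) (toL z.1, toL z.2) (toL z'.1, toL z'.2) ω)) =
      min 1 (pK (pQ N) k z'.1 * pK (pQ N) k z'.2 / (pK (pQ N) k z.1 * pK (pQ N) k z.2)) *
        F (toL z'.1, toL z'.2) +
      (1 - min 1 (pK (pQ N) k z'.1 * pK (pQ N) k z'.2 / (pK (pQ N) k z.1 * pK (pQ N) k z.2))) *
        F (toL z.1, toL z.2) := by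
  have hQ := h.one_lt_pQ
  have r0 := rQ_pos hQ
  have : Nonempty (PM (Fin n)) := ⟨z.1⟩
  have hZ := ZK_pos hQ k
  set Δ : ℤ := en k z'.1 + en k z'.2 - (en k z.1 + en k z.2) with hΔ
  have e1 : pK (pQ N) k z'.1 * pK (pQ N) k z'.2 / (pK (pQ N) k z.1 * pK (pQ N) k z.2) =
      rQ (pQ N) ^ Δ := by
    simp only [pr, wt_sK hQ]
    rw [hΔ, zpow_sub₀ r0.ne', zpow_add₀ r0.ne', zpow_add₀ r0.ne']
    have := zpow_pos r0 (en k z.1)
    have := zpow_pos r0 (en k z.2)
    unfold ZK at hZ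
    field_simp
  have e2 : Δ.toNat ≤ pcap N := by
    have a1 := abs_le.1 (abs_en_le hk z.1)
    have a2 := abs_le.1 (abs_en_le hk z.2)
    have a3 := abs_le.1 (abs_en_le hk z'.1)
    have a4 := abs_le.1 (abs_en_le hk z'.2)
    have a5 : (n : ℤ) * pS N ≤ N * pS N :=
      mul_le_mul_of_nonneg_right (by exact_mod_cast h.le) (Nat.cast_nonneg _)
    rw [Fintype.card_fin] at a1 a2 a3 a4
    rw [Int.toNat_le, pcap]
    push_cast
    linarith [a1.1, a2.1, a3.2, a4.2]
  have e3 : (1 - 1 / (2 : ℝ) ^ pq N) = rQ (pQ N) := by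
    have : (2 : ℝ) ^ pq N = pQ N := by unfold pQ; exact_mod_cast h.two_pow_pq
    rw [this, rQ]
  have e4 := Pr_coin (pq N) (pcap N) Δ.toNat le_rfl
  rw [min_eq_left e2, e3, step_min r0 (rQ_lt_one hQ), ← e1] at e4
  rw [← e4, ← Pr_not, Pr, Pr, ← Ex_mul_right, ← Ex_mul_right, ← Ex_add]
  refine Ex_congr fun ω _ => ?_
  simp only [accL, enL_toL, ← hΔ]
  by_cases hc : coin (pq N) (pcap N) Δ.toNat ω = true
  · rw [if_pos hc, ind_pos hc, ind_neg (not_not.2 hc)]; ring
  · rw [if_neg hc, ind_neg hc, ind_pos hc]; ring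

theorem Ex_pstep (h : Fits N n) (hk : ∀ u v, |k u v| ≤ pS N) (z : PM (Fin n) × PM (Fin n))
    (F : List ℕ × List ℕ → ℝ) :
    Ex (rho1 N) (fun ω => F (pstep N n (kL k) (toL z.1, toL z.2) ω)) =
      ∑ z', PK (pK (pQ N) k) N z z' * F (toL z'.1, toL z'.2) := by
  have e0 : rho1 N = 3 + (ph N + (ph N + pq N * pcap N)) := by unfold rho1; ring
  have hN : ((2 : ℝ) ^ ph N) = N := by exact_mod_cast h.two_pow_ph
  let G : ℕ → ℕ → ℕ → List Bool → ℝ := fun c a b ω =>
    F (accL N n (kL k) (toL z.1, toL z.2) (mvL n c a b (toL z.1, toL z.2)) ω)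
  have e1 : Ex (rho1 N) (fun ω => F (pstep N n (kL k) (toL z.1, toL z.2) ω)) =
      (∑ c ∈ range (2 ^ 3), (∑ a ∈ range (2 ^ ph N), (∑ b ∈ range (2 ^ ph N),
        Ex (pq N * pcap N) (G c a b)) / 2 ^ ph N) / 2 ^ ph N) / 2 ^ 3 := by
    simp only [← step_block]
    rw [e0]
    refine Ex_congr fun ω _ => ?_
    simp only [G, pstep, propL, List.drop_drop, two_mul, add_assoc]
  rw [e1, PK, mkK_apply z fun z' => F (toL z'.1, toL z'.2), h.two_pow_ph, hN]
  simp only [G, mvL_toL, step_acc h hk z]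
  rw [Fintype.sum_prod_type]
  simp only [Fintype.sum_prod_type, ← sum_div, div_div, sum_range, mvF]
  simp only [Fintype.card_prod, Fintype.card_fin]
  push_cast
  congr 1
  ring

theorem step_set2 {K : ℕ} (x : Fin K → PM (Fin n)) (a b : Fin K) (z : PM (Fin n) × PM (Fin n)) :
    set2 ((List.ofFn x).map toL) a b (toL z.1, toL z.2) = (List.ofFn (upd2 x a b z)).map toL := by
  refine List.ext_getElem (by simp [set2]) fun i h1 h2 => ?_
  simp only [set2, upd2, List.getElem_set, List.getElem_map, List.getElem_ofFn,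
    Function.update_apply, Fin.ext_iff]
  by_cases c1 : b.val = i
  · simp [c1]
  · by_cases c2 : a.val = i
    · simp [c1, c2, Ne.symm c1]
    · simp [c1, c2, Ne.symm c1, Ne.symm c2]

theorem step_sum {K M : ℕ} (hK : K ≤ M) (g : ℕ → ℕ → ℝ) (c : ℝ)
    (hg : ∀ a b, ¬ (a < K ∧ b < K ∧ a ≠ b) → g a b = c) :
    ∑ a ∈ range M, ∑ b ∈ range M, g a b =
      (∑ a : Fin K, ∑ b : Fin K, if a = b then 0 else g a b) +
        (((M * M : ℕ) : ℝ) - K * (K - 1)) * c := by
  have hs : range K ⊆ range M := range_subset_range.2 hK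
  have e1 : ∑ a ∈ range M, ∑ b ∈ range M, (g a b - c) =
      ∑ a ∈ range K, ∑ b ∈ range K, (g a b - c) := by
    symm
    refine (sum_congr rfl fun a _ => sum_subset hs fun b _ hb => ?_).trans
      (sum_subset hs fun a _ ha => sum_eq_zero fun b _ => ?_)
    · rw [hg a b fun h => hb (mem_range.2 h.2.1), sub_self]
    · rw [hg a b fun h => ha (mem_range.2 h.1), sub_self]
  have e2 : ∑ a : Fin K, ∑ b : Fin K, g a b =
      (∑ a : Fin K, ∑ b : Fin K, if a = b then 0 else g a b) + K * c := by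
    have : (K : ℝ) * c = ∑ a : Fin K, ∑ b : Fin K, if a = b then c else 0 := by simp
    rw [this, ← sum_add_distrib]
    refine sum_congr rfl fun a _ => ?_
    rw [← sum_add_distrib]
    refine sum_congr rfl fun b _ => ?_
    split_ifs with hab
    · rw [hg a b fun h => h.2.2 (congrArg Fin.val hab), zero_add]
    · rw [add_zero]
  simp only [sum_sub_distrib, sum_const, card_range, nsmul_eq_mul] at e1
  rw [sum_range (n := K) fun a => ∑ b ∈ range K, g a b] at e1
  simp only [sum_range (n := K)] at e1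
  push_cast
  linarith

/-- The two labels are uniform below `2 ^ pt N = pK0 N`; `set2` is `upd2`. -/
theorem Ex_popstep (h : Fits N n) (hk : ∀ u v, |k u v| ≤ pS N) {K : ℕ} (hK : K ≤ pK0 N)
    (x : Fin K → PM (Fin n)) (F : List (List ℕ) → ℝ) :
    Ex (rho2 N) (fun ω => F (popstep N n (kL k) ((List.ofFn x).map toL) ω)) =
      popOp (PK (pK (pQ N) k) N) (pT N) (fun y => F ((List.ofFn y).map toL)) x := by
  have e0 : rho2 N = pt N + (pt N + rho1 N) := by unfold rho2; ring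
  have hN : ((2 : ℝ) ^ pt N) = pK0 N := by exact_mod_cast h.two_pow_pt
  let G : ℕ → ℕ → List Bool → ℝ := fun a b ω => F (popAt N n (kL k) ((List.ofFn x).map toL) a b ω)
  have e1 : Ex (rho2 N) (fun ω => F (popstep N n (kL k) ((List.ofFn x).map toL) ω)) =
      (∑ a ∈ range (2 ^ pt N), (∑ b ∈ range (2 ^ pt N), Ex (rho1 N) (G a b)) / 2 ^ pt N) /
        2 ^ pt N := by
    simp only [← step_block]
    rw [e0]
    refine Ex_congr fun ω _ => ?_
    simp only [G, popstep, List.drop_drop, two_mul]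
  have hl : ((List.ofFn x).map toL).length = K := by simp
  rw [e1, h.two_pow_pt, hN, ← sum_div, div_div, step_sum hK (fun a b => Ex (rho1 N) (G a b))
    (F ((List.ofFn x).map toL)) fun a b hab => by
      simp only [G, popAt, hl, if_neg hab, Ex_const], popOp, pK0_mul_self, ← Nat.cast_mul,
    pK0_mul_self]
  congr 2
  refine sum_congr rfl fun a _ => sum_congr rfl fun b _ => ?_
  split_ifs with hab
  · rfl
  have hc : a.val < K ∧ b.val < K ∧ a.val ≠ b.val := ⟨a.2, b.2, fun e => hab (Fin.ext e)⟩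
  have g1 : ∀ i : Fin K, ((List.ofFn x).map toL).getD i [] = toL (x i) := fun i => by
    simp [List.getD_eq_getElem?_getD]
  simp only [G, popAt, hl, if_pos hc, g1]
  rw [Ex_pstep h hk (x a, x b) fun z => F (set2 ((List.ofFn x).map toL) a b z)]
  simp only [step_set2]

end Crest.Agent.R304
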