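import Crest.Agent.R304.Stage

/-!
# R304/Zero: sign, exactness at zero, and the guarantee for all graphs (TASK)
-/

set_option autoImplicit false

namespace Crest.Agent.R304

open Finset Crest.Agent.R309 Crest.Agent.Lib.PT

theorem zero_rq_nonneg (N : ℕ) : 0 ≤ rq N := by
  have h : (1 : ℚ) ≤ 2 ^ pq N := one_le_pow₀ (by norm_num)
  have : (1 : ℚ) / 2 ^ pq N ≤ 1 := (div_le_one (by positivity)).2 h
  rw [rq]
  linarith

theorem zero_rp_nonneg (N cap : ℕ) (e : ℤ) : 0 ≤ rp N cap e :=
  div_nonneg (pow_nonneg (zero_rq_nonneg N) _) (pow_nonneg (zero_rq_nonneg N) _)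

theorem zero_avg_nonneg {l : List ℚ} (h : ∀ x ∈ l, 0 ≤ x) : 0 ≤ avg l :=
  div_nonneg (List.sum_nonneg h) (Nat.cast_nonneg _)

theorem zero_ratL_nonneg (N n : ℕ) (kp k : List (List ℤ)) (B : List (List ℕ)) :
    0 ≤ ratL N n kp k B := by
  refine zero_avg_nonneg fun x hx => ?_
  obtain ⟨X, -, rfl⟩ := List.mem_map.1 hx
  exact zero_rp_nonneg _ _ _

theorem zero_finL_nonneg (N n : ℕ) (A : List (List Bool)) (k : List (List ℤ)) (B : List (List ℕ)) :
    0 ≤ finL N n A k B := by
  refine zero_avg_nonneg fun x hx => ?_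
  obtain ⟨X, -, rfl⟩ := List.mem_map.1 hx
  split_ifs
  · exact zero_rp_nonneg _ _ _
  · exact le_rfl

theorem zero_estE_nonneg (N n : ℕ) (A : List (List Bool)) (ω : List Bool) : 0 ≤ estE N n A ω := by
  refine (iter_inv' (stage N n A) (rho3 N)
    (J := fun _ σ => 0 ≤ σ.1.2.2.1 ∧ 0 ≤ σ.1.2.2.2.getD 0) (fun _ σ ω' hσ => ?_) ?_ _ _).2
  · unfold stage
    split_ifs
    · exact hσ
    · have h1 := div_nonneg hσ.1
        (zero_ratL_nonneg N n σ.1.1 σ.1.2.1 ((run N n σ.1.2.1 σ.2 ω').take (pb N)))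
      unfold useL ctlL
      dsimp only
      split_ifs
      · exact ⟨hσ.1, mul_nonneg h1 (zero_finL_nonneg _ _ _ _ _)⟩
      · exact ⟨h1, le_rfl⟩
  · exact ⟨Nat.cast_nonneg _, le_rfl⟩

/-- `iter_inv'`: the third component and the output are nonnegative -/
theorem est_nonneg (a : Un × List (List Bool) × List Bool) : 0 ≤ est a := by
  unfold est
  split_ifs
  · exact le_rfl
  · exact zero_le_one
  · exact zero_estE_nonneg _ _ _ _

variable {N n : ℕ} {adj : Fin n → Fin n → Prop} [DecidableRel adj]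

/-- the table `X` itself is a perfect matching of the graph -/
theorem cnt_pos_of_okL (hi : ∀ v, ¬ adj v v) {X : List ℕ} (h : okL n (adjL adj) X = true) :
    0 < cnt adj := by
  simp only [okL, List.all_eq_true, List.mem_range, Bool.and_eq_true, decide_eq_true_eq] at h
  have key : ∀ v w : Fin n, ent false (adjL adj) v w = true → adj v w := fun v w h1 => by
    simpa [ent, adjL, List.getD_eq_getElem?_getD, List.getElem?_ofFn] using h1
  have hadj : ∀ v : Fin n, adj v ⟨X.getD v 0, (h v v.2).1.1⟩ := fun v => key v _ (h v v.2).2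
  let Y : PM (Fin n) :=
    ⟨fun v => ⟨X.getD v 0, (h v v.2).1.1⟩, fun v => Fin.ext (h v v.2).1.2, fun v hv => by
      have := hadj v
      rw [show (⟨X.getD v 0, (h v v.2).1.1⟩ : Fin n) = v from hv] at this
      exact hi v this⟩
  have : Nonempty {X : PM (Fin n) // ∀ v, adj v (X.f v)} := ⟨⟨Y, hadj⟩⟩
  exact Nat.card_pos

/-- `finL = 0 < 1 / 2` at every stage, so there is never an output -/
theorem est_zero (hi : ∀ v, ¬ adj v v) (hc : cnt adj = 0) (N : Un) (l : List Bool) :
    est (N, adjL adj, l) = 0 := by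
  have hok : ∀ X, ¬ okL n (adjL adj) X = true := fun X hX => by
    have := cnt_pos_of_okL hi hX
    omega
  have hfin : ∀ k B, finL N.n n (adjL adj) k B = 0 := fun k B => by
    simp [finL, avg, hok]
  have hE : estE N.n n (adjL adj) l = 0 := by
    have := iter_inv' (stage N.n n (adjL adj)) (rho3 N.n) (J := fun _ σ => σ.1.2.2.2 = none)
      (s := start N.n n l) (fun _ σ ω hσ => by
        have h2 : ¬ ((1 : ℚ) / 2 ≤ 0) := by norm_num
        simp only [stage, hσ, Option.isSome_none, Bool.false_eq_true, if_false, useL, ctlL, hfin,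
          if_neg h2]) rfl (pS N.n) (l.drop (pK0 N.n * rho0 N.n))
    rw [estE, this]
    rfl
  unfold est
  dsimp only
  rw [length_adjL]
  split_ifs with h1 h2
  · rfl
  · subst h2
    rw [cnt_zero] at hc
    exact absurd hc one_ne_zero
  · exact hE

/-- cases: `cnt adj = 0` (`est_zero`, contains odd `n` by `cnt_odd`), `n = 0` (`cnt_zero`), `estE_good` -/
theorem est_good (h : Fits N n) (ha : ∀ u v, adj u v → adj v u) (hi : ∀ v, ¬ adj v v) :
    15 / 16 ≤ Pr (plen N) fun l =>
      |(est (⟨N⟩, adjL adj, l) : ℝ) - cnt adj| ≤ cnt adj / N := by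
  by_cases hc : cnt adj = 0
  · rw [Pr_true fun l _ => by simp [est_zero hi hc, hc]]
    norm_num
  · have ho : ¬ n % 2 = 1 := fun ho => hc (cnt_odd ho adj)
    by_cases h0 : n = 0
    · subst h0
      rw [Pr_true fun l _ => ?_]
      · norm_num
      · have : est (⟨N⟩, adjL adj, l) = 1 := by simp [est, length_adjL]
        rw [this, cnt_zero]
        simp
    · have e : ∀ l, est (⟨N⟩, adjL adj, l) = estE N n (adjL adj) l := fun l => by
        simp only [est, length_adjL, if_neg ho, if_neg h0]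
      simp only [e]
      exact estE_good h (Nat.even_iff.2 (by omega)) (by omega) ha (by omega)

end Crest.Agent.R304
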